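import Vale.Agent.P054.Generic

/-!
A cutting lemma: among finitely many points of `ℝ^d` there are many lying in a common simplex
(a hull of boundedly many vertices) which few of `n` given hyperplanes cross.
-/

namespace Vale.Agent.P054

open Module Set
open scoped InnerProductSpace

variable {d : ℕ}

/-- The constant in `dual_cell`. -/
def dualC (d : ℕ) : ℕ := 2 ^ (3 ^ d) * (2 * 9 ^ d)

lemma dualC_pos (d : ℕ) : 0 < dualC d := by
  unfold dualC; positivity

lemma sign_mul_pos {r : ℝ} (h : r ≠ 0) : 0 < Real.sign r * r := by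
  rcases lt_or_gt_of_ne h with h' | h'
  · rw [Real.sign_of_neg h']; linarith
  · rw [Real.sign_of_pos h']; linarith

lemma sign_mem (r : ℝ) : Real.sign r ∈ ({-1, 0, 1} : Finset ℝ) := by
  rcases Real.sign_apply_eq r with h | h | h <;> simp [h]

/-- Few hyperplanes cross the hull of boundedly many points. -/
lemma hull_crossing {ι : Type*} [Fintype ι] (nf : ι → E d) (cf : ι → ℝ) (K Vs : Finset (E d)) (hK : ∀ v ∈ K, v ∈ convexHull ℝ (Vs : Set (E d)))
    (η : ℝ) (hη : ∀ x, ∀ v ∈ K, ⟪nf x, v⟫_ℝ ≠ cf x → η < |⟪nf x, v⟫_ℝ - cf x|)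
    (δ : ι × Bool → ℝ) (hδt : ∀ x, δ (x, true) ∈ Ioo (cf x) (cf x + η))
    (hδf : ∀ x, δ (x, false) ∈ Ioo (cf x - η) (cf x)) (N : ℝ)
    (hpair : ∀ y ∈ Vs, ∀ y' ∈ Vs, (((Finset.univ : Finset (ι × Bool)).filter fun i =>
      (⟪nf i.1, y⟫_ℝ - δ i) * (⟪nf i.1, y'⟫_ℝ - δ i) < 0).card : ℝ) ≤ N) :
    (((Finset.univ : Finset ι).filter fun x => ∃ a ∈ K, ⟪nf x, a⟫_ℝ = cf x ∧
      ∃ b ∈ K, ⟪nf x, b⟫_ℝ ≠ cf x).card : ℝ)
      ≤ ((Vs.card * Vs.card : ℕ) : ℝ) * N := by
  classical
  let f : ι × Bool → E d → ℝ := fun i y => ⟪nf i.1, y⟫_ℝ - δ i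
  have hsgn : ∀ i, ∀ a ∈ K, ∀ b ∈ K, f i a < 0 → 0 < f i b →
      ∃ y ∈ Vs, ∃ y' ∈ Vs, f i y * f i y' < 0 := by
    intro i a ha b hb hna hpb
    have h1 : ∃ y ∈ Vs, f i y < 0 := by
      by_contra hc
      push Not at hc
      have : convexHull ℝ (Vs : Set (E d)) ⊆ {y | δ i ≤ ⟪nf i.1, y⟫_ℝ} :=
        convexHull_min (fun y hy => sub_nonneg.1 (hc y hy))
          (convex_halfSpace_ge (innerSL ℝ (nf i.1)).isBoundedLinearMap.toIsLinearMap _)
      exact not_lt.2 (sub_nonneg.2 (this (hK a ha))) hna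
    have h2 : ∃ y ∈ Vs, 0 < f i y := by
      by_contra hc
      push Not at hc
      have : convexHull ℝ (Vs : Set (E d)) ⊆ {y | ⟪nf i.1, y⟫_ℝ ≤ δ i} :=
        convexHull_min (fun y hy => sub_nonpos.1 (hc y hy))
          (convex_halfSpace_le (innerSL ℝ (nf i.1)).isBoundedLinearMap.toIsLinearMap _)
      exact not_lt.2 (sub_nonpos.2 (this (hK b hb))) hpb
    obtain ⟨y, hy, hy1⟩ := h1
    obtain ⟨y', hy', hy2⟩ := h2
    exact ⟨y, hy, y', hy', mul_neg_of_neg_of_pos hy1 hy2⟩
  have hsub : ((Finset.univ : Finset ι).filter fun x =>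
      ∃ a ∈ K, ⟪nf x, a⟫_ℝ = cf x ∧ ∃ b ∈ K, ⟪nf x, b⟫_ℝ ≠ cf x) ⊆
      ((Vs ×ˢ Vs).biUnion fun b => (Finset.univ : Finset (ι × Bool)).filter
        fun i => f i b.1 * f i b.2 < 0).image (fun i => i.1) := by
    intro x hx
    obtain ⟨-, a, ha, hxa, b, hb, hxb⟩ := Finset.mem_filter.1 hx
    have hη' := hη x b hb hxb
    refine Finset.mem_image.2 ?_
    rcases le_or_gt (cf x) ⟪nf x, b⟫_ℝ with h | h
    · rw [abs_of_nonneg (by linarith)] at hη'
      have hd := hδt x
      obtain ⟨y, hy, y', hy', hlt⟩ := hsgn (x, true) a ha b hb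
        (by simp only [f]; linarith [hd.1]) (by simp only [f]; linarith [hd.2])
      exact ⟨(x, true), Finset.mem_biUnion.2 ⟨(y, y'), Finset.mem_product.2 ⟨hy, hy'⟩,
        Finset.mem_filter.2 ⟨Finset.mem_univ _, hlt⟩⟩, rfl⟩
    · rw [abs_of_neg (by linarith)] at hη'
      have hd := hδf x
      obtain ⟨y, hy, y', hy', hlt⟩ := hsgn (x, false) b hb a ha
        (by simp only [f]; linarith [hd.1]) (by simp only [f]; linarith [hd.2])
      exact ⟨(x, false), Finset.mem_biUnion.2 ⟨(y, y'), Finset.mem_product.2 ⟨hy, hy'⟩,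
        Finset.mem_filter.2 ⟨Finset.mem_univ _, hlt⟩⟩, rfl⟩
  refine le_trans (Nat.cast_le.2 ((Finset.card_le_card hsub).trans
    (Finset.card_image_le.trans Finset.card_biUnion_le))) ?_
  push_cast
  refine (Finset.sum_le_sum (g := fun _ => N) fun b hb => hpair b.1 (Finset.mem_product.1 hb).1 b.2
    (Finset.mem_product.1 hb).2).trans ?_
  simp

set_option maxHeartbeats 1000000 in
theorem dual_cell_gen {ι : Type*} [Fintype ι] (nf : ι → E d) (cf : ι → ℝ) (H : Finset (E d)) (hH : H.Nonempty) (s : ℕ) (ε : ℝ) (hε : 0 ≤ ε)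
    (hs : (((2 * Fintype.card ι + 2 * d + 1) ^ (2 * d) : ℕ) : ℝ) * (1 - ε) ^ s < 1) :
    ∃ K ⊆ H, H.card ≤ dualC d * (s + 2 * d + 1) ^ d * K.card ∧ K.Nonempty ∧
      (((Finset.univ : Finset ι).filter fun x => ∃ a ∈ K, ⟪nf x, a⟫_ℝ = cf x ∧
      ∃ b ∈ K, ⟪nf x, b⟫_ℝ ≠ cf x).card : ℝ)
        ≤ dualC d * ε * Fintype.card ι := by
  classical
  rcases (Finset.univ : Finset ι).eq_empty_or_nonempty with hP | hP
  · refine ⟨H, subset_rfl, Nat.le_mul_of_pos_left _ (Nat.mul_pos (dualC_pos d) (by positivity)),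
      hH, ?_⟩
    rw [hP, Finset.filter_empty, Finset.card_empty, Nat.cast_zero]
    positivity
  -- a margin
  obtain ⟨η, hη0, hη⟩ : ∃ η : ℝ, 0 < η ∧ ∀ x, ∀ v ∈ H,
      ⟪nf x, v⟫_ℝ ≠ cf x → η < |⟪nf x, v⟫_ℝ - cf x| := by
    let S : Finset ℝ := (((Finset.univ : Finset ι) ×ˢ H).image fun z => |⟪nf z.1, z.2⟫_ℝ - cf z.1|).filter (0 < ·)
    have hmem : ∀ x, ∀ v ∈ H, ⟪nf x, v⟫_ℝ ≠ cf x → |⟪nf x, v⟫_ℝ - cf x| ∈ S := fun x v hv h =>
      Finset.mem_filter.2 ⟨Finset.mem_image.2 ⟨(x, v), by simp [hv], rfl⟩,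
        abs_pos.2 (sub_ne_zero.2 h)⟩
    rcases S.eq_empty_or_nonempty with hS | hS
    · exact ⟨1, one_pos, fun x v hv h => absurd (hmem x v hv h)
        (show |⟪nf x, v⟫_ℝ - cf x| ∉ S by rw [hS]; exact Finset.notMem_empty _)⟩
    · have hpos : 0 < S.min' hS := (Finset.mem_filter.1 (S.min'_mem hS)).2
      exact ⟨S.min' hS / 2, by linarith, fun x v hv h =>
        lt_of_lt_of_le (by linarith) (S.min'_le _ (hmem x v hv h))⟩
  let M : ℝ := ∑ v ∈ H, ‖v‖ + 1
  let nv : (ι × Bool) ⊕ (Fin d × Bool) → E d := Sum.elim (fun z => nf z.1)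
    (fun z => (if z.2 then (1 : ℝ) else -1) • EuclideanSpace.single z.1 (1 : ℝ))
  obtain ⟨δ, hδ, hgen⟩ := exists_generic_offsets (fun j y => ⟪nv j, y⟫_ℝ)
    (fun j => (innerSL ℝ (nv j)).contDiff)
    (Sum.elim (fun z => if z.2 then cf z.1 else cf z.1 - η) (fun _ => M))
    (Sum.elim (fun z => if z.2 then cf z.1 + η else cf z.1) (fun _ => M + 1))
    (fun j => by
      rcases j with ⟨x, b⟩ | z
      · cases b <;> simp [hη0]
      · simp)
  let ψ : (ι × Bool) ⊕ (Fin d × Bool) → E d → ℝ := fun j y => ⟪nv j, y⟫_ℝ - δ j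
  have hgen' : ∀ (T : Finset ((ι × Bool) ⊕ (Fin d × Bool))) y,
      (∀ j ∈ T, ψ j y = 0) → T.card ≤ d :=
    fun T y h => hgen T y fun j hj => by have := h j hj; simp only [ψ] at this; linarith
  let point : Finset ((ι × Bool) ⊕ (Fin d × Bool)) → E d := fun T =>
    if h : ∃ y, (∀ j ∈ T, ψ j y = 0) then h.choose else 0
  let Uniq : Finset ((ι × Bool) ⊕ (Fin d × Bool)) → E d → Prop := fun T y =>
    (∀ j ∈ T, ψ j y = 0) ∧ ∀ y', (∀ j ∈ T, ψ j y' = 0) → y' = y
  have hpoint : ∀ T y, Uniq T y → point T = y := by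
    intro T y hy
    have hex : ∃ y, (∀ j ∈ T, ψ j y = 0) := ⟨y, hy.1⟩
    simp only [point, dif_pos hex]
    exact hy.2 _ hex.choose_spec
  let cand : Finset (E d) := ((Finset.univ : Finset ((ι × Bool) ⊕ (Fin d × Bool))).powerset.filter
    fun T => T.card ≤ d).image point
  -- sampling
  let hit : ι × Bool → E d × E d → Prop := fun i b => ψ (Sum.inl i) b.1 * ψ (Sum.inl i) b.2 < 0
  let B := (cand ×ˢ cand).filter fun b =>
    ε * ∑ _i : ι × Bool, (1 : ℝ) < ∑ i, if hit i b then (1 : ℝ) else 0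
  have hNat : B.card ≤ (2 * Fintype.card ι + 2 * d + 1) ^ (2 * d) := by
    refine (Finset.card_filter_le _ _).trans ?_
    rw [Finset.card_product]
    have hc : cand.card ≤ (2 * Fintype.card ι + 2 * d + 1) ^ d := by
      refine Finset.card_image_le.trans ((card_small_subsets _ d).trans ?_)
      simp only [Finset.card_univ, Fintype.card_sum, Fintype.card_prod, 
        Fintype.card_fin, Fintype.card_bool]
      refine Nat.pow_le_pow_left ?_ d
      omega
    refine (Nat.mul_le_mul hc hc).trans_eq ?_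
    rw [← pow_add, ← two_mul]
  have hW : (0 : ℝ) < ∑ _i : ι × Bool, (1 : ℝ) := by
    simp only [Finset.sum_const, Finset.card_univ, Fintype.card_prod, 
      Fintype.card_bool, nsmul_one]
    exact_mod_cast Nat.mul_pos (Finset.card_pos.2 hP) two_pos
  have hB : (B.card : ℝ) * (1 - ε) ^ s < 1 := by
    by_cases h1 : 0 ≤ (1 - ε) ^ s
    · exact lt_of_le_of_lt (mul_le_mul_of_nonneg_right (by exact_mod_cast hNat) h1) hs
    · exact lt_of_le_of_lt (mul_nonpos_of_nonneg_of_nonpos (Nat.cast_nonneg _) (not_le.1 h1).le)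
        one_pos
  obtain ⟨S, hS⟩ := exists_sample (fun _ : ι × Bool => (1 : ℝ)) (fun _ => zero_le_one) hW B hit
    ε s (fun b hb => (Finset.mem_filter.1 hb).2) hB
  let J : Finset ((ι × Bool) ⊕ (Fin d × Bool)) :=
    Finset.univ.image (fun k => Sum.inl (S k)) ∪ Finset.univ.image Sum.inr
  have hJcard : J.card ≤ s + 2 * d := by
    refine (Finset.card_union_le _ _).trans (Nat.add_le_add ?_ ?_)
    · exact Finset.card_image_le.trans (by simp)
    · refine Finset.card_image_le.trans ?_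
      simp [mul_comm]
  have hbox : ∀ z, Sum.inr z ∈ J := fun z =>
    Finset.mem_union_right _ (Finset.mem_image.2 ⟨z, Finset.mem_univ _, rfl⟩)
  let pat : E d → ((ι × Bool) ⊕ (Fin d × Bool)) → ℝ := fun y j =>
    if j ∈ J then Real.sign (ψ j y) else 1
  have hpat : ∀ y j, j ∈ J → pat y j = Real.sign (ψ j y) := fun y j hj => if_pos hj
  let Q : (((ι × Bool) ⊕ (Fin d × Bool)) → ℝ) → Set (E d) := fun π =>
    {y | ∀ j ∈ J, 0 ≤ π j * ψ j y ∧ (π j = 0 → ψ j y = 0)}
  have hψc : ∀ j, Continuous (ψ j) := fun j =>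
    ((innerSL ℝ (nv j)).continuous).sub continuous_const
  have hψaff : ∀ j (y z : E d) (t : ℝ), ψ j (y + t • (z - y)) = ψ j y + t * (ψ j z - ψ j y) := by
    intro j y z t
    simp only [ψ, inner_add_right, real_inner_smul_right, inner_sub_right]
    ring
  have hQself : ∀ v, v ∈ Q (pat v) := by
    intro v j hj
    rw [hpat v j hj]
    refine ⟨?_, fun h => Real.sign_eq_zero_iff.1 h⟩
    by_cases h : ψ j v = 0
    · simp [h]
    · exact (sign_mul_pos h).le
  have hQsign : ∀ v y, y ∈ Q (pat v) → ∀ j, pat y j = pat v j ∨ (j ∈ J ∧ ψ j y = 0) := by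
    intro v y hy j
    by_cases hj : j ∈ J
    · by_cases h0 : ψ j y = 0
      · exact Or.inr ⟨hj, h0⟩
      · left
        obtain ⟨h1, h2⟩ := hy j hj
        rw [hpat v j hj] at h1 h2
        rw [hpat y j hj, hpat v j hj]
        by_cases hv : ψ j v = 0
        · exact absurd (h2 (by rw [hv, Real.sign_zero])) h0
        rcases lt_or_gt_of_ne hv with hv' | hv' <;> rcases lt_or_gt_of_ne h0 with h0' | h0'
        · rw [Real.sign_of_neg hv', Real.sign_of_neg h0']
        · rw [Real.sign_of_neg hv'] at h1; nlinarith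
        · rw [Real.sign_of_pos hv'] at h1; nlinarith
        · rw [Real.sign_of_pos hv', Real.sign_of_pos h0']
    · left; simp [pat, hj]
  have hQtrans : ∀ v q, q ∈ Q (pat v) → Q (pat q) ⊆ Q (pat v) := by
    intro v q hq y hy j hj
    rcases hQsign v q hq j with h | ⟨-, h⟩
    · rw [← h]; exact hy j hj
    · have := (hy j hj).2 (by rw [hpat q j hj, h, Real.sign_zero])
      exact ⟨by rw [this, mul_zero], fun _ => this⟩
  let inBox : E d → Prop := fun v => ∀ z, ψ (Sum.inr z) v ≤ 0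
  have hQbox : ∀ v, inBox v → ∀ y ∈ Q (pat v), inBox y := by
    intro v hv y hy z
    obtain ⟨h1, h2⟩ := hy _ (hbox z)
    rw [hpat v _ (hbox z)] at h1 h2
    rcases (hv z).lt_or_eq with h | h
    · rw [Real.sign_of_neg h] at h1; linarith
    · exact (h2 (by rw [h, Real.sign_zero])).le
  have hcompact : ∀ v, inBox v → IsCompact (Q (pat v)) := by
    intro v hv
    have hcl : IsClosed (Q (pat v)) := by
      have : Q (pat v) = ⋂ j ∈ J, {y | 0 ≤ pat v j * ψ j y} ∩
          {y | pat v j = 0 → ψ j y = 0} := by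
        ext y; simp [Q]
      rw [this]
      refine isClosed_biInter fun j _ => (isClosed_le continuous_const
        (continuous_const.mul (hψc j))).inter ?_
      by_cases h : pat v j = 0
      · simp only [h, true_implies]; exact isClosed_eq (hψc j) continuous_const
      · simp [h]
    refine (isCompact_closedBall (0 : E d) ((d : ℝ) * (M + 1) + 1)).of_isClosed_subset hcl ?_
    intro y hy
    have hb := hQbox v hv y hy
    have hk : ∀ k, |y k| ≤ M + 1 := by
      intro k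
      have h1 := hb (k, true)
      have h2 := hb (k, false)
      have e1 := hδ (Sum.inr (k, true))
      have e2 := hδ (Sum.inr (k, false))
      simp [ψ, nv, EuclideanSpace.inner_single_left] at h1 h2 e1 e2
      rw [abs_le]
      constructor <;> linarith [e1.2, e2.2]
    rw [Metric.mem_closedBall, dist_zero_right]
    have hM : (0 : ℝ) ≤ M := by positivity
    have h2 : ‖y‖ ^ 2 ≤ d * (M + 1) ^ 2 := by
      rw [EuclideanSpace.norm_sq_eq]
      refine (Finset.sum_le_sum fun k _ => ?_).trans_eq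
        (b := ∑ _k : Fin d, (M + 1) ^ 2) (by simp)
      rw [Real.norm_eq_abs]
      exact pow_le_pow_left₀ (abs_nonneg _) (hk k) 2
    by_contra hc
    have hdd : (d : ℝ) ≤ (d : ℝ) * d := by exact_mod_cast Nat.le_mul_self d
    have hd0 : (0 : ℝ) ≤ (d : ℝ) * (M + 1) := by positivity
    have h3 := pow_lt_pow_left₀ (not_le.1 hc) (by linarith) (two_ne_zero)
    nlinarith [mul_le_mul_of_nonneg_right hdd (sq_nonneg (M + 1))]
  let zs : E d → Finset ((ι × Bool) ⊕ (Fin d × Bool)) := fun y => J.filter fun j => ψ j y = 0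
  -- extreme points of cells are vertices
  have hext : ∀ v, inBox v → ∀ y ∈ Set.extremePoints ℝ (Q (pat v)), Uniq (zs y) y := by
    intro v hv y hy
    refine ⟨fun j hj => (Finset.mem_filter.1 hj).2, fun y' hy' => ?_⟩
    by_contra hne
    have hw : y' - y ≠ 0 := sub_ne_zero.2 hne
    have hev : ∀ᶠ t : ℝ in nhds 0, y + t • (y' - y) ∈ Q (pat v) := by
      refine J.eventually_all.2 fun j hj => ?_
      by_cases h0 : ψ j y = 0
      · have h' := hy' j (Finset.mem_filter.2 ⟨hj, h0⟩)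
        refine Filter.Eventually.of_forall fun t => ?_
        rw [hψaff, h0, h']; simp
      · obtain ⟨h1, h2⟩ := hy.1 j hj
        have hne0 : pat v j ≠ 0 := fun h => h0 (h2 h)
        have hpos : 0 < pat v j * ψ j y := lt_of_le_of_ne h1 (mul_ne_zero hne0 h0).symm
        have hc : Continuous fun t : ℝ => pat v j * ψ j (y + t • (y' - y)) :=
          continuous_const.mul ((hψc j).comp (by fun_prop))
        filter_upwards [hc.continuousAt.eventually (lt_mem_nhds (a := 0) (by simpa using hpos))]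
          with t ht using ⟨ht.le, fun h => absurd h hne0⟩
    obtain ⟨τ, hτ, hball⟩ := Metric.eventually_nhds_iff.1 hev
    have hp := hball (y := τ / 2) (by rw [dist_zero_right, Real.norm_eq_abs, abs_of_pos] <;> linarith)
    have hm := hball (y := -(τ / 2))
      (by rw [dist_zero_right, norm_neg, Real.norm_eq_abs, abs_of_pos] <;> linarith)
    have hseg : y ∈ openSegment ℝ (y + (τ / 2) • (y' - y)) (y + (-(τ / 2)) • (y' - y)) :=
      ⟨1 / 2, 1 / 2, by norm_num, by norm_num, by norm_num, by module⟩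
    have := hy.2 hp hm hseg
    rw [add_eq_left, smul_eq_zero] at this
    exact hw (this.resolve_left (by linarith))
  let vtx : (((ι × Bool) ⊕ (Fin d × Bool)) → ℝ) → E d := fun π =>
    if h : (Set.extremePoints ℝ (Q π)).Nonempty then h.choose else 0
  let ext : Finset ((ι × Bool) ⊕ (Fin d × Bool)) →
      Finset (((ι × Bool) ⊕ (Fin d × Bool)) → ℝ) := fun T =>
    Fintype.piFinset fun j => if j ∈ T then ({-1, 0, 1} : Finset ℝ) else {pat (point T) j}
  let Good : E d → Prop := fun v => ∃ T ∈ J.powerset.filter (fun T => T.card ≤ d),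
    ∃ Sπ ⊆ ext T, v ∈ convexHull ℝ (vtx '' (Sπ : Set (((ι × Bool) ⊕ (Fin d × Bool)) → ℝ))) ∧
      (∀ π ∈ Sπ, vtx π ∈ Q (pat v) ∧ vtx π ∈ cand) ∧
      point T ∈ Q (pat v) ∧ ∀ j ∈ J, ψ j (point T) = 0 → j ∈ T
  have hgood : ∀ k, ∀ v, inBox v → (J.filter fun j => ψ j v ≠ 0).card ≤ k → Good v := by
    intro k
    induction k using Nat.strong_induction_on with
    | _ k ih =>
    intro v hv hk
    have hnon : (Set.extremePoints ℝ (Q (pat v))).Nonempty :=
      (hcompact v hv).extremePoints_nonempty ⟨v, hQself v⟩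
    have hv0e : vtx (pat v) ∈ Set.extremePoints ℝ (Q (pat v)) := by
      simp only [vtx, dif_pos hnon]; exact hnon.choose_spec
    set v0 := vtx (pat v)
    have hu := hext v hv v0 hv0e
    have hzJ : zs v0 ∈ J.powerset.filter (fun T => T.card ≤ d) :=
      Finset.mem_filter.2 ⟨Finset.mem_powerset.2 (Finset.filter_subset _ _),
        hgen' _ v0 hu.1⟩
    have hcand : v0 ∈ cand := Finset.mem_image.2 ⟨zs v0, Finset.mem_filter.2
      ⟨Finset.mem_powerset.2 (Finset.subset_univ _), hgen' _ v0 hu.1⟩, hpoint _ _ hu⟩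
    have hmem : ∀ (T : Finset ((ι × Bool) ⊕ (Fin d × Bool))), point T ∈ Q (pat v) →
        (∀ j ∈ J, ψ j (point T) = 0 → j ∈ T) → pat v ∈ ext T := by
      intro T hT hT2
      refine Fintype.mem_piFinset.2 fun j => ?_
      split_ifs with hj
      · simp only [pat]; split_ifs
        · exact sign_mem _
        · simp
      · rw [Finset.mem_singleton]
        rcases hQsign v _ hT j with h | ⟨h1, h2⟩
        · exact h.symm
        · exact absurd (hT2 j h1 h2) hj
    by_cases hvv : v = v0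
    · refine ⟨zs v0, hzJ, {pat v}, ?_, ?_, ?_, ?_, ?_⟩
      · rw [Finset.singleton_subset_iff]
        refine hmem _ ?_ ?_
        · rw [hpoint _ _ hu]; exact hv0e.1
        · rw [hpoint _ _ hu]; exact fun j hj h => Finset.mem_filter.2 ⟨hj, h⟩
      · rw [Finset.coe_singleton, Set.image_singleton, convexHull_singleton, Set.mem_singleton_iff]
        exact hvv
      · intro π hπ; rw [Finset.mem_singleton.1 hπ]; exact ⟨hv0e.1, hcand⟩
      · rw [hpoint _ _ hu]; exact hv0e.1
      · rw [hpoint _ _ hu]; exact fun j hj h => Finset.mem_filter.2 ⟨hj, h⟩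
    -- exit point of the ray from `v0` through `v`
    have hIc : IsCompact {t : ℝ | 0 ≤ t ∧ v0 + t • (v - v0) ∈ Q (pat v)} := by
      obtain ⟨R, hR⟩ := (hcompact v hv).isBounded.subset_closedBall v0
      have hwpos : 0 < ‖v - v0‖ := norm_pos_iff.2 (sub_ne_zero.2 hvv)
      refine (isCompact_Icc (a := (0 : ℝ)) (b := R / ‖v - v0‖)).of_isClosed_subset ?_ ?_
      · exact (isClosed_Ici (a := (0 : ℝ))).inter
          (((hcompact v hv).isClosed).preimage (by fun_prop))
      · rintro t ⟨ht0, ht⟩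
        refine ⟨ht0, (le_div_iff₀ hwpos).2 ?_⟩
        have := hR ht
        rw [Metric.mem_closedBall, dist_eq_norm, add_sub_cancel_left, norm_smul, Real.norm_eq_abs,
          abs_of_nonneg ht0] at this
        exact this
    have h1mem : (1 : ℝ) ∈ {t : ℝ | 0 ≤ t ∧ v0 + t • (v - v0) ∈ Q (pat v)} :=
      ⟨zero_le_one, by rw [one_smul, add_sub_cancel]; exact hQself v⟩
    obtain ⟨t, ⟨ht0, htQ⟩, htmax⟩ := hIc.exists_isGreatest ⟨1, h1mem⟩
    have ht1 : 1 ≤ t := htmax h1mem
    set q := v0 + t • (v - v0)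
    have hlt : (J.filter fun j => ψ j q ≠ 0).card < (J.filter fun j => ψ j v ≠ 0).card := by
      refine Finset.card_lt_card ((Finset.ssubset_iff_of_subset ?_).2 ?_)
      · intro j hj
        rw [Finset.mem_filter] at hj ⊢
        refine ⟨hj.1, fun h => hj.2 ((htQ j hj.1).2 ?_)⟩
        rw [hpat v j hj.1, h, Real.sign_zero]
      · by_contra hno
        push Not at hno
        have hev : ∀ᶠ t' : ℝ in nhds t, v0 + t' • (v - v0) ∈ Q (pat v) := by
          refine J.eventually_all.2 fun j hj => ?_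
          by_cases h0 : ψ j v = 0
          · have hv00 : ψ j v0 = 0 := (hv0e.1 j hj).2 (by rw [hpat v j hj, h0, Real.sign_zero])
            refine Filter.Eventually.of_forall fun t' => ?_
            rw [hψaff, hv00, h0]; simp
          · have hq0 : ψ j q ≠ 0 :=
              (Finset.mem_filter.1 (hno j (Finset.mem_filter.2 ⟨hj, h0⟩))).2
            obtain ⟨h1, h2⟩ := htQ j hj
            have hne0 : pat v j ≠ 0 := fun h => hq0 (h2 h)
            have hpos : 0 < pat v j * ψ j q := lt_of_le_of_ne h1 (mul_ne_zero hne0 hq0).symm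
            have hc : Continuous fun t' : ℝ => pat v j * ψ j (v0 + t' • (v - v0)) :=
              continuous_const.mul ((hψc j).comp (by fun_prop))
            filter_upwards [hc.continuousAt.eventually (lt_mem_nhds hpos)]
              with t' ht' using ⟨ht'.le, fun h => absurd h hne0⟩
        obtain ⟨τ, hτ, hball⟩ := Metric.eventually_nhds_iff.1 hev
        have := htmax (a := t + τ / 2) ⟨by linarith, hball (by
          rw [Real.dist_eq, add_sub_cancel_left, abs_of_pos] <;> linarith)⟩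
        linarith
    have hqbox : inBox q := hQbox v hv q htQ
    obtain ⟨T, hTJ, Sπ, hSπ, hqconv, hSv, hTQ, hTz⟩ :=
      ih _ (lt_of_lt_of_le hlt hk) q hqbox le_rfl
    refine ⟨T, hTJ, insert (pat v) Sπ, ?_, ?_, ?_, hQtrans v q htQ hTQ, hTz⟩
    · exact Finset.insert_subset (hmem T (hQtrans v q htQ hTQ) hTz) hSπ
    · rw [Finset.coe_insert, Set.image_insert_eq]
      have hq' := convexHull_mono (Set.subset_insert v0 (vtx '' (Sπ : Set _))) hqconv
      have hv' : v0 ∈ convexHull ℝ (insert v0 (vtx '' (Sπ : Set _))) :=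
        subset_convexHull ℝ _ (Set.mem_insert _ _)
      have hveq : v = (1 - 1 / t) • v0 + (1 / t) • q := by
        simp only [q, smul_add, smul_smul]
        rw [one_div_mul_cancel (by linarith : t ≠ 0)]
        module
      have hgoal := (convex_convexHull ℝ _) hv' hq' (sub_nonneg.2 ((div_le_one (by linarith : (0 : ℝ) < t)).2 ht1))
        (one_div_nonneg.2 ht0) (sub_add_cancel (1 : ℝ) (1 / t))
      rwa [← hveq] at hgoal
    · intro π hπ
      rcases Finset.mem_insert.1 hπ with rfl | hπ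
      · exact ⟨hv0e.1, hcand⟩
      · exact ⟨hQtrans v q htQ (hSv π hπ).1, (hSv π hπ).2⟩
  have hHbox : ∀ v ∈ H, inBox v := by
    intro v hv z
    have h1 : |⟪nv (Sum.inr z), v⟫_ℝ| ≤ ‖nv (Sum.inr z)‖ * ‖v‖ := abs_real_inner_le_norm _ _
    have h2 : ‖nv (Sum.inr z)‖ = 1 := by
      simp only [nv, Sum.elim_inr, norm_smul, PiLp.norm_single, norm_one, mul_one]
      split_ifs <;> simp
    have h3 : ‖v‖ ≤ ∑ w ∈ H, ‖w‖ := Finset.single_le_sum (f := fun w : E d => ‖w‖)
      (fun _ _ => norm_nonneg _) hv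
    have h4 := (hδ (Sum.inr z)).1
    simp only [Sum.elim_inr] at h4
    rw [h2, one_mul] at h1
    simp only [ψ]
    have := le_abs_self ⟪nv (Sum.inr z), v⟫_ℝ
    simp only [M] at h4
    linarith
  have hG : ∀ v : ↥H, Good v.1 := fun v => hgood _ v.1 (hHbox v.1 v.2) le_rfl
  choose T hT Sπ hSπ hconv hv hTQ hTz using hG
  let keys := (J.powerset.filter fun T => T.card ≤ d).sigma fun T => (ext T).powerset
  have hext_card : ∀ T ∈ J.powerset.filter (fun T => T.card ≤ d), (ext T).card ≤ 3 ^ d := by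
    intro T hT
    rw [Fintype.card_piFinset]
    calc ∏ j, (if j ∈ T then ({-1, 0, 1} : Finset ℝ) else {pat (point T) j}).card
        ≤ ∏ j, if j ∈ T then 3 else 1 := by
          refine Finset.prod_le_prod' fun j _ => ?_
          split_ifs
          · exact Finset.card_le_three
          · simp
      _ = 3 ^ T.card := by rw [Finset.prod_ite_mem, Finset.univ_inter, Finset.prod_const]
      _ ≤ 3 ^ d := Nat.pow_le_pow_right (by norm_num) (Finset.mem_filter.1 hT).2
  have hkeys : keys.card ≤ (s + 2 * d + 1) ^ d * 2 ^ (3 ^ d) := by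
    rw [Finset.card_sigma]
    refine (Finset.sum_le_card_nsmul _ _ (2 ^ (3 ^ d)) fun T hT => ?_).trans ?_
    · rw [Finset.card_powerset]; exact Nat.pow_le_pow_right two_pos (hext_card T hT)
    · rw [smul_eq_mul]
      exact Nat.mul_le_mul_right _ ((card_small_subsets _ d).trans
        (Nat.pow_le_pow_left (by omega) d))
  have hmaps : ∀ v ∈ H.attach, (⟨T v, Sπ v⟩ : Σ _ : Finset ((ι × Bool) ⊕ (Fin d × Bool)),
      Finset (((ι × Bool) ⊕ (Fin d × Bool)) → ℝ)) ∈ keys :=
    fun v _ => Finset.mem_sigma.2 ⟨hT v, Finset.mem_powerset.2 (hSπ v)⟩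
  obtain ⟨κ, hκ, hmax⟩ := Finset.exists_max_image keys
    (fun κ => (H.attach.filter fun v => (⟨T v, Sπ v⟩ : Σ _ : Finset ((ι × Bool) ⊕ (Fin d × Bool)),
      Finset (((ι × Bool) ⊕ (Fin d × Bool)) → ℝ)) = κ).card)
    ⟨_, hmaps ⟨_, hH.choose_spec⟩ (Finset.mem_attach _ _)⟩
  set Kc := H.attach.filter fun v => (⟨T v, Sπ v⟩ : Σ _ : Finset ((ι × Bool) ⊕ (Fin d × Bool)),
    Finset (((ι × Bool) ⊕ (Fin d × Bool)) → ℝ)) = κ with hKc
  have hcard : H.card ≤ keys.card * Kc.card := by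
    rw [← Finset.card_attach, Finset.card_eq_sum_card_fiberwise hmaps]
    exact Finset.sum_le_card_nsmul _ _ _ fun k hk => hmax k hk
  have hne : Kc.Nonempty := by
    rw [← Finset.card_pos]
    by_contra h
    rw [Nat.eq_zero_of_not_pos h, mul_zero] at hcard
    have := hH.card_pos
    omega
  refine ⟨Kc.image Subtype.val, ?_, ?_, hne.image _, ?_⟩
  · intro v hv'
    obtain ⟨w, -, rfl⟩ := Finset.mem_image.1 hv'
    exact w.2
  · rw [Finset.card_image_of_injective _ Subtype.val_injective]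
    refine hcard.trans (Nat.mul_le_mul_right _ (hkeys.trans ?_))
    rw [dualC, mul_comm]
    exact Nat.mul_le_mul_right _ (Nat.le_mul_of_pos_right _ (by positivity))
  obtain ⟨v1, hv1⟩ := hne
  have hkey : ∀ v ∈ Kc, Sπ v = κ.2 := by
    intro v hv'
    have := (Finset.mem_filter.1 hv').2
    subst this; rfl
  set Vs := κ.2.image vtx with hVs
  have hVscard : Vs.card ≤ 3 ^ d :=
    Finset.card_image_le.trans ((Finset.card_le_card
      (Finset.mem_powerset.1 (Finset.mem_sigma.1 hκ).2)).trans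
      (hext_card _ (Finset.mem_sigma.1 hκ).1))
  have hVsQ : ∀ y ∈ Vs, y ∈ Q (pat v1.1) ∧ y ∈ cand := by
    intro y hy
    obtain ⟨π, hπ, rfl⟩ := Finset.mem_image.1 hy
    exact hv v1 π (by rw [hkey v1 hv1]; exact hπ)
  have hpair : ∀ y ∈ Vs, ∀ y' ∈ Vs,
      (((Finset.univ : Finset (ι × Bool)).filter fun i => hit i (y, y')).card : ℝ)
        ≤ ε * (2 * Fintype.card ι) := by
    intro y hy y' hy'
    have hnot : (y, y') ∉ B := by
      intro hb
      obtain ⟨j, hj⟩ := hS _ hb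
      have hjJ : Sum.inl (S j) ∈ J :=
        Finset.mem_union_left _ (Finset.mem_image.2 ⟨j, Finset.mem_univ _, rfl⟩)
      obtain ⟨a1, a2⟩ := (hVsQ y hy).1 _ hjJ
      obtain ⟨b1, b2⟩ := (hVsQ y' hy').1 _ hjJ
      simp only [hit] at hj
      by_cases h : pat v1.1 (Sum.inl (S j)) = 0
      · rw [a2 h, zero_mul] at hj; exact lt_irrefl _ hj
      · have := mul_nonneg a1 b1
        have := mul_self_pos.2 h
        nlinarith
    simp only [B, Finset.mem_filter, Finset.mem_product, (hVsQ y hy).2, (hVsQ y' hy').2,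
      and_self, true_and, not_lt] at hnot
    rw [Finset.card_filter, Nat.cast_sum]
    refine le_trans (le_of_eq (Finset.sum_congr rfl fun i _ => by split_ifs <;> simp)) (hnot.trans ?_)
    simp [mul_comm]
  have hVs2 : (Vs.card * Vs.card : ℕ) * 2 ≤ dualC d := by
    refine (Nat.mul_le_mul_right 2 (Nat.mul_le_mul hVscard hVscard)).trans ?_
    rw [dualC, ← mul_pow, show (3 : ℕ) * 3 = 9 from rfl, mul_comm]
    exact Nat.le_mul_of_pos_left _ (by positivity)
  refine (hull_crossing nf cf (Kc.image Subtype.val) Vs ?_ η ?_ (fun i => δ (Sum.inl i))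
    (fun x => by simpa using hδ (Sum.inl (x, true)))
    (fun x => by simpa using hδ (Sum.inl (x, false))) (ε * (2 * Fintype.card ι)) hpair).trans ?_
  · intro v hv'
    obtain ⟨w, hw, rfl⟩ := Finset.mem_image.1 hv'
    have := hconv w
    rw [hkey w hw] at this
    rw [hVs, Finset.coe_image]
    exact this
  · intro x v hv'
    obtain ⟨w, -, rfl⟩ := Finset.mem_image.1 hv'
    exact hη x w.1 w.2
  · have h' : ((Vs.card * Vs.card : ℕ) : ℝ) * 2 ≤ (dualC d : ℝ) := by exact_mod_cast hVs2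
    calc ((Vs.card * Vs.card : ℕ) : ℝ) * (ε * (2 * Fintype.card ι))
        = (((Vs.card * Vs.card : ℕ) : ℝ) * 2) * ε * Fintype.card ι := by ring
      _ ≤ _ := mul_le_mul_of_nonneg_right (mul_le_mul_of_nonneg_right h' hε) (Nat.cast_nonneg _)

/-- The cutting lemma for the hyperplanes `⟪x,·⟫ = 1`, `x ∈ P`. -/
theorem dual_cell (P H : Finset (E d)) (hH : H.Nonempty) (s : ℕ) (ε : ℝ) (hε : 0 ≤ ε)
    (hs : (((2 * P.card + 2 * d + 1) ^ (2 * d) : ℕ) : ℝ) * (1 - ε) ^ s < 1) :
    ∃ K ⊆ H, H.card ≤ dualC d * (s + 2 * d + 1) ^ d * K.card ∧ K.Nonempty ∧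
      ((P.filter fun x => ∃ a ∈ K, ⟪x, a⟫_ℝ = 1 ∧ ∃ b ∈ K, ⟪x, b⟫_ℝ ≠ 1).card : ℝ)
        ≤ dualC d * ε * P.card := by
  classical
  obtain ⟨K, h1, h2, h3, h4⟩ := dual_cell_gen (fun x : ↥P => x.1) (fun _ => 1) H hH s ε hε
    (by simpa using hs)
  refine ⟨K, h1, h2, h3, le_trans (le_of_eq ?_) (h4.trans_eq (by simp))⟩
  norm_cast
  refine (Finset.card_bij (fun x _ => x.1) (fun x hx => ?_) (fun x _ y _ h => Subtype.ext h)
    (fun y hy => ?_)).symm
  · exact Finset.mem_filter.2 ⟨x.2, (Finset.mem_filter.1 hx).2⟩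
  · exact ⟨⟨y, (Finset.mem_filter.1 hy).1⟩,
      Finset.mem_filter.2 ⟨Finset.mem_univ _, (Finset.mem_filter.1 hy).2⟩, rfl⟩

end Vale.Agent.P054
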