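import Vale.Agent.P054.Project
import Vale.Agent.P054.Dual

/-!
Incidences of a cell: either few, or many independent tuples, which is impossible.
-/

namespace Vale.Agent.P054

open Module
open scoped InnerProductSpace

variable {d : ℕ}

/-- Sets of size `≥ t` in a universe of size `N` meeting pairwise in `≤ L` points are few. -/
lemma sets_small {α β : Type*} [DecidableEq α] [DecidableEq β] (K : Finset α) (T : α → Finset β)
    (U : Finset β) (t L N : ℝ) (ht : 0 < t) (hL0 : 0 ≤ L)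
    (hTU : ∀ a ∈ K, T a ⊆ U) (hrich : ∀ a ∈ K, t ≤ ((T a).card : ℝ))
    (hL : ∀ a ∈ K, ∀ b ∈ K, a ≠ b → ((T a ∩ T b).card : ℝ) ≤ L)
    (hU : (U.card : ℝ) ≤ N) (hcond : 2 * N * L < t ^ 2) :
    (K.card : ℝ) * t ≤ 2 * N := by
  by_contra hlt
  push Not at hlt
  have hN : 0 ≤ N := (Nat.cast_nonneg _).trans hU
  set z : β → ℝ := fun x => ((K.filter fun a => x ∈ T a).card : ℝ)
  set S : ℝ := ∑ a ∈ K, ((T a).card : ℝ) with hS
  have hK : (0 : ℝ) < K.card := by
    rcases K.eq_empty_or_nonempty with h | h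
    · simp [h] at hlt; linarith
    · exact_mod_cast h.card_pos
  have hSge : (K.card : ℝ) * t ≤ S := by
    rw [hS]
    simpa using Finset.card_nsmul_le_sum K (fun a => ((T a).card : ℝ)) t hrich
  have hfil : ∀ a ∈ K, U.filter (fun x => x ∈ T a) = T a := fun a ha => by
    ext x
    rw [Finset.mem_filter]
    exact ⟨fun h => h.2, fun h => ⟨hTU a ha h, h⟩⟩
  have hzU : ∑ x ∈ U, z x = S := by
    simp only [z, S, Finset.card_filter, Nat.cast_sum]
    rw [Finset.sum_comm]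
    refine Finset.sum_congr rfl fun a ha => ?_
    rw [← Nat.cast_sum, ← Finset.card_filter, hfil a ha]
  have hz2 : ∑ x ∈ U, z x ^ 2 = ∑ a ∈ K, ∑ b ∈ K, ((T a ∩ T b).card : ℝ) := by
    calc ∑ x ∈ U, z x ^ 2
        = ∑ x ∈ U, ∑ a ∈ K, ∑ b ∈ K, (if x ∈ T a ∧ x ∈ T b then (1 : ℝ) else 0) := by
          refine Finset.sum_congr rfl fun x _ => ?_
          simp only [z, Finset.card_filter, Nat.cast_sum, sq, Finset.sum_mul_sum]
          refine Finset.sum_congr rfl fun a _ => Finset.sum_congr rfl fun b _ => ?_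
          by_cases h1 : x ∈ T a <;> by_cases h2 : x ∈ T b <;> simp [h1, h2]
      _ = ∑ a ∈ K, ∑ b ∈ K, ∑ x ∈ U, (if x ∈ T a ∧ x ∈ T b then (1 : ℝ) else 0) := by
          rw [Finset.sum_comm]
          exact Finset.sum_congr rfl fun a _ => Finset.sum_comm
      _ = _ := by
          refine Finset.sum_congr rfl fun a ha => Finset.sum_congr rfl fun b _ => ?_
          rw [Finset.sum_boole]
          congr 2
          ext x
          simp only [Finset.mem_filter, Finset.mem_inter]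
          exact ⟨fun h => h.2, fun h => ⟨hTU a ha h.1, h⟩⟩
  have hz2le : ∑ x ∈ U, z x ^ 2 ≤ S + (K.card : ℝ) * K.card * L := by
    rw [hz2]
    refine (Finset.sum_le_sum (g := fun a => ((T a).card : ℝ) + (K.card : ℝ) * L) fun a ha => ?_).trans ?_
    · rw [← Finset.add_sum_erase _ _ ha]
      refine add_le_add (le_of_eq (by rw [Finset.inter_self])) ?_
      refine (Finset.sum_le_card_nsmul _ _ L fun b hb =>
          hL a ha b (Finset.mem_of_mem_erase hb) (Finset.ne_of_mem_erase hb).symm).trans ?_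
      rw [nsmul_eq_mul]
      exact mul_le_mul_of_nonneg_right (Nat.cast_le.2 (Finset.card_erase_le)) hL0
    · rw [Finset.sum_add_distrib, Finset.sum_const, nsmul_eq_mul, ← hS, mul_assoc]
  have hcs := sq_sum_le_card_mul_sum_sq (s := U) (f := z)
  rw [hzU] at hcs
  have h1 : S ^ 2 ≤ N * (S + (K.card : ℝ) * K.card * L) :=
    hcs.trans (mul_le_mul hU hz2le (Finset.sum_nonneg fun x _ => sq_nonneg _) hN)
  have hS0 : 0 ≤ S := le_trans (by positivity) hSge
  have h2 : ((K.card : ℝ) * t) ^ 2 ≤ S ^ 2 := pow_le_pow_left₀ (by positivity) hSge 2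
  have h3 : N * S ≤ S ^ 2 / 2 := by
    have : N * S * 2 ≤ S * S := by
      have := mul_le_mul_of_nonneg_right (by linarith : 2 * N ≤ S) hS0
      linarith
    rw [sq]; linarith
  have h4 : (K.card : ℝ) ^ 2 * (2 * N * L) < (K.card : ℝ) ^ 2 * t ^ 2 :=
    mul_lt_mul_of_pos_left hcond (by positivity)
  nlinarith

open scoped Classical in
/-- Rich points with respect to arbitrary affine functions. -/
lemma gen_family {e : ℕ} {ι : Type*} [Fintype ι] (nf : ι → E e) (cf : ι → ℝ) (K : Finset (E e))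
    (t L ε : ℝ) (s : ℕ) (ht : 0 < t) (hε : 0 ≤ ε) (hL0 : 0 ≤ L)
    (hs : (((2 * Fintype.card ι + 2 * e + 1) ^ (2 * e) : ℕ) : ℝ) * (1 - ε) ^ s < 1)
    (hrich : ∀ a ∈ K, t ≤ (((Finset.univ : Finset ι).filter fun i => ⟪nf i, a⟫_ℝ = cf i).card : ℝ))
    (hL : ∀ a ∈ K, ∀ b ∈ K, a ≠ b → (((Finset.univ : Finset ι).filter fun i =>
      ⟪nf i, a⟫_ℝ = cf i ∧ ⟪nf i, b⟫_ℝ = cf i).card : ℝ) ≤ L)
    (hcond : 2 * ((dualC e : ℝ) * ε * Fintype.card ι + L) * L < t ^ 2) :
    (K.card : ℝ) ≤ (dualC e : ℝ) * ((s : ℝ) + 2 * e + 1) ^ e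
      * (2 * ((dualC e : ℝ) * ε * Fintype.card ι + L) / t + 1) := by
  set N := (dualC e : ℝ) * ε * Fintype.card ι + L with hN
  have hN0 : 0 ≤ N := by rw [hN]; positivity
  rcases K.eq_empty_or_nonempty with h | hK
  · rw [h, Finset.card_empty, Nat.cast_zero]; positivity
  obtain ⟨K', hsub, hcard, -, hcross⟩ := dual_cell_gen nf cf K hK s ε hε hs
  have hK' : (K'.card : ℝ) ≤ 2 * N / t + 1 := by
    have hnn : 0 ≤ 2 * N / t := by positivity
    rcases le_or_gt K'.card 1 with h1 | h1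
    · have : (K'.card : ℝ) ≤ 1 := by exact_mod_cast h1
      linarith
    obtain ⟨a0, ha0, b0, hb0, hab⟩ := Finset.one_lt_card.1 h1
    let T : E e → Finset ι := fun a => Finset.univ.filter fun i => ⟪nf i, a⟫_ℝ = cf i
    let U : Finset ι := Finset.univ.filter fun i => ∃ a ∈ K', ⟪nf i, a⟫_ℝ = cf i
    have hU : (U.card : ℝ) ≤ N := by
      have h : U ⊆ (Finset.univ.filter fun i => ∃ a ∈ K', ⟪nf i, a⟫_ℝ = cf i ∧
            ∃ b ∈ K', ⟪nf i, b⟫_ℝ ≠ cf i) ∪
          (Finset.univ.filter fun i => ⟪nf i, a0⟫_ℝ = cf i ∧ ⟪nf i, b0⟫_ℝ = cf i) := by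
        intro i hi
        obtain ⟨-, a, ha, hia⟩ := Finset.mem_filter.1 hi
        by_cases hall : ∀ b ∈ K', ⟪nf i, b⟫_ℝ = cf i
        · exact Finset.mem_union_right _ (Finset.mem_filter.2
            ⟨Finset.mem_univ _, hall a0 ha0, hall b0 hb0⟩)
        · push Not at hall
          exact Finset.mem_union_left _ (Finset.mem_filter.2 ⟨Finset.mem_univ _, a, ha, hia, hall⟩)
      refine le_trans (Nat.cast_le.2 ((Finset.card_le_card h).trans (Finset.card_union_le _ _))) ?_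
      rw [Nat.cast_add, hN]
      exact add_le_add hcross (hL a0 (hsub ha0) b0 (hsub hb0) hab)
    have hinter : ∀ a b : E e, T a ∩ T b
        = Finset.univ.filter fun i => ⟪nf i, a⟫_ℝ = cf i ∧ ⟪nf i, b⟫_ℝ = cf i := by
      intro a b; ext i; simp [T]
    have := sets_small K' T U t L N ht hL0
      (fun a ha i hi => Finset.mem_filter.2 ⟨Finset.mem_univ _, a, ha, (Finset.mem_filter.1 hi).2⟩)
      (fun a ha => hrich a (hsub ha))
      (fun a ha b hb hne => by rw [hinter]; exact hL a (hsub ha) b (hsub hb) hne) hU hcond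
    rw [← le_div_iff₀ ht] at this
    linarith
  have h : (K.card : ℝ) ≤ ((dualC e * (s + 2 * e + 1) ^ e * K'.card : ℕ) : ℝ) := Nat.cast_le.2 hcard
  push_cast at h
  exact h.trans (mul_le_mul_of_nonneg_left hK' (by positivity))

/-- A cell: independent tuples are too few, and degenerate pins project to dimension `j`. -/
lemma cell_bound {j : ℕ} (hj : 2 ≤ j) (hjd : j ≤ d) (K U : Finset (E d)) (m : ℕ) (hm : 1 ≤ m)
    (L Lj N : ℝ) (hL0 : 0 ≤ L) (hLj0 : 0 ≤ Lj)
    (hU : (U.card : ℝ) ≤ N)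
    (hrich : ∀ a ∈ K, m ≤ (U.filter fun x => ⟪x, a⟫_ℝ = 1).card)
    (hL : ∀ a ∈ K, ∀ b ∈ K, a ≠ b →
      ((U.filter fun x => ⟪x, a⟫_ℝ = 1 ∧ ⟪x, b⟫_ℝ = 1).card : ℝ) ≤ L)
    (hLj : ∀ f : Fin j → E d, LinearIndependent ℝ f → (∀ i, f i ∈ K) →
      ((U.filter fun x => ∀ i, ⟪x, f i⟫_ℝ = 1).card : ℝ) ≤ Lj)
    (hgood : (8 : ℝ) ^ j * N ^ (j - 1) * Lj < (m : ℝ) ^ j)
    (ε : ℝ) (s : ℕ) (hε : 0 ≤ ε) (hε1 : ε ≤ 1)
    (hs : (((2 * U.card + 2 * j + 1) ^ (2 * j) : ℕ) : ℝ) * (1 - ε) ^ s < 1)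
    (hcond : 2 * ((dualC j : ℝ) * ε * N + L) * L < ((m : ℝ) / 8) ^ 2) :
    (K.card : ℝ) ≤ 8 * ((dualC j : ℝ) * ((s : ℝ) + 2 * j + 1) ^ j
      * (2 * ((dualC j : ℝ) * ε * N + L) / ((m : ℝ) / 8) + 1)) := by
  classical
  have hN0 : 0 ≤ N := (Nat.cast_nonneg _).trans hU
  have hmR : (1 : ℝ) ≤ m := by exact_mod_cast hm
  have hrhs : (0 : ℝ) ≤ 8 * ((dualC j : ℝ) * ((s : ℝ) + 2 * j + 1) ^ j
      * (2 * ((dualC j : ℝ) * ε * N + L) / ((m : ℝ) / 8) + 1)) := by positivity
  rcases K.eq_empty_or_nonempty with h | hKne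
  · rw [h, Finset.card_empty, Nat.cast_zero]; exact hrhs
  -- trim to exactly `m` incidences per member
  have htrim : ∀ a : ↥K, ∃ T ⊆ U.filter (fun x => ⟪x, a.1⟫_ℝ = 1), T.card = m :=
    fun a => Finset.exists_subset_card_eq (hrich a.1 a.2)
  choose T hT hTc using htrim
  let T' : E d → Finset (E d) := fun a => if h : a ∈ K then T ⟨a, h⟩ else ∅
  have hT' : ∀ a ∈ K, T' a ⊆ U.filter (fun x => ⟪x, a⟫_ℝ = 1) ∧ (T' a).card = m := by
    intro a ha
    simp only [T', dif_pos ha]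
    exact ⟨hT ⟨a, ha⟩, hTc ⟨a, ha⟩⟩
  let Z : E d → Finset (E d) := fun x => K.filter fun a => x ∈ T' a
  have hsum : ∀ B ⊆ U, ∑ x ∈ B, ((Z x).card : ℝ) = ∑ a ∈ K, ((B.filter fun x => x ∈ T' a).card : ℝ) := by
    intro B _
    simp only [Z, Finset.card_filter, Nat.cast_sum]
    exact Finset.sum_comm
  have hStot : ∑ x ∈ U, ((Z x).card : ℝ) = (K.card : ℝ) * m := by
    rw [hsum U subset_rfl, Finset.sum_congr rfl (fun a ha => ?_), Finset.sum_const, nsmul_eq_mul]
    rw [← (hT' a ha).2]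
    congr 2
    ext x
    rw [Finset.mem_filter]
    exact ⟨fun h => h.2, fun h => ⟨(Finset.mem_filter.1 ((hT' a ha).1 h)).1, h⟩⟩
  let heavy : E d → Prop := fun x => ∃ W : Submodule ℝ (E d), finrank ℝ W < j ∧
    ∃ B ⊆ Z x, (∀ a ∈ B, a ∈ W) ∧ (Z x).card < 2 * B.card
  let Bad := U.filter heavy
  let Good := U.filter fun x => ¬ heavy x
  -- the good pins carry less than half
  have hgoodpins : ∑ x ∈ Good, ((Z x).card : ℝ) ≤ (K.card : ℝ) * m / 2 := by
    by_contra hlt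
    push Not at hlt
    have hch : ∀ x : ↥Good, ∃ F : Finset (Fin j → E d),
        (∀ f ∈ F, (∀ i, f i ∈ Z x.1) ∧ LinearIndependent ℝ f) ∧
        ((Z x.1).card : ℝ) ^ j ≤ 2 ^ j * F.card := by
      intro x
      refine indep_tuples_or_heavy (Z x.1) j fun W hW B hB hBW => ?_
      by_contra hc
      exact (Finset.mem_filter.1 x.2).2 ⟨W, hW, B, hB, hBW, not_le.1 hc⟩
    choose F hF hFc using hch
    let A := (Fintype.piFinset fun _ : Fin j => K).filter fun f => LinearIndependent ℝ f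
    have hFA : ∀ x : ↥Good, F x ⊆ A.filter fun f => ∀ i, ⟪x.1, f i⟫_ℝ = 1 := by
      intro x f hf
      obtain ⟨hfZ, hli⟩ := hF x f hf
      refine Finset.mem_filter.2 ⟨Finset.mem_filter.2 ⟨Fintype.mem_piFinset.2 fun i =>
        (Finset.mem_filter.1 (hfZ i)).1, hli⟩, fun i => ?_⟩
      obtain ⟨hiK, hix⟩ := Finset.mem_filter.1 (hfZ i)
      exact (Finset.mem_filter.1 ((hT' _ hiK).1 hix)).2
    have h1 : ∑ x ∈ Good, ((Z x).card : ℝ) ^ j
        ≤ 2 ^ j * ((K.card : ℝ) ^ j * Lj) := by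
      calc ∑ x ∈ Good, ((Z x).card : ℝ) ^ j
          = ∑ x : ↥Good, ((Z x.1).card : ℝ) ^ j := (Finset.sum_coe_sort Good _).symm
        _ ≤ ∑ x : ↥Good, 2 ^ j * ((A.filter fun f => ∀ i, ⟪x.1, f i⟫_ℝ = 1).card : ℝ) :=
            Finset.sum_le_sum fun x _ => (hFc x).trans (mul_le_mul_of_nonneg_left
              (Nat.cast_le.2 (Finset.card_le_card (hFA x))) (by positivity))
        _ = 2 ^ j * ∑ f ∈ A, ((Good.filter fun x => ∀ i, ⟪x, f i⟫_ℝ = 1).card : ℝ) := by
            rw [← Finset.mul_sum]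
            congr 1
            rw [Finset.sum_coe_sort Good (fun x => ((A.filter fun f => ∀ i, ⟪x, f i⟫_ℝ = 1).card : ℝ))]
            simp only [Finset.card_filter, Nat.cast_sum]
            exact Finset.sum_comm
        _ ≤ 2 ^ j * ∑ _f ∈ A, Lj := by
            refine mul_le_mul_of_nonneg_left (Finset.sum_le_sum fun f hf => ?_) (by positivity)
            obtain ⟨hfK, hli⟩ := Finset.mem_filter.1 hf
            refine le_trans (Nat.cast_le.2 (Finset.card_le_card ?_))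
              (hLj f hli (Fintype.mem_piFinset.1 hfK))
            exact Finset.filter_subset_filter _ (Finset.filter_subset _ _)
        _ ≤ _ := by
            rw [Finset.sum_const, nsmul_eq_mul]
            refine mul_le_mul_of_nonneg_left (mul_le_mul_of_nonneg_right ?_ hLj0) (by positivity)
            have hA : A.card ≤ K.card ^ j :=
              (Finset.card_filter_le _ _).trans_eq (by simp [Fintype.card_piFinset])
            exact_mod_cast hA
    obtain ⟨j', rfl⟩ : ∃ j', j = j' + 1 := ⟨j - 1, by omega⟩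
    have h2 := pow_sum_le_card_mul_sum_pow (s := Good) (f := fun x => ((Z x).card : ℝ))
      (fun x _ => Nat.cast_nonneg _) j'
    have hG : (Good.card : ℝ) ≤ N :=
      (Nat.cast_le.2 (Finset.card_filter_le _ _)).trans hU
    have h3 : ((K.card : ℝ) * m / 2) ^ (j' + 1)
        ≤ N ^ j' * (2 ^ (j' + 1) * ((K.card : ℝ) ^ (j' + 1) * Lj)) :=
      calc ((K.card : ℝ) * m / 2) ^ (j' + 1) ≤ (∑ x ∈ Good, ((Z x).card : ℝ)) ^ (j' + 1) :=
            pow_le_pow_left₀ (by positivity) hlt.le _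
        _ ≤ _ := h2
        _ ≤ _ := mul_le_mul (pow_le_pow_left₀ (Nat.cast_nonneg _) hG _) h1
            (Finset.sum_nonneg fun x _ => by positivity) (by positivity)
    have hKpos : (0 : ℝ) < (K.card : ℝ) ^ (j' + 1) := pow_pos (by exact_mod_cast hKne.card_pos) _
    simp only [Nat.add_sub_cancel] at hgood
    rw [div_pow, mul_pow, div_le_iff₀ (by positivity)] at h3
    have h4 : (m : ℝ) ^ (j' + 1) ≤ (4 : ℝ) ^ (j' + 1) * N ^ j' * Lj := by
      refine le_of_mul_le_mul_left ?_ hKpos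
      calc (K.card : ℝ) ^ (j' + 1) * (m : ℝ) ^ (j' + 1)
          ≤ N ^ j' * (2 ^ (j' + 1) * ((K.card : ℝ) ^ (j' + 1) * Lj)) * 2 ^ (j' + 1) := h3
        _ = _ := by rw [show (4 : ℝ) = 2 * 2 by norm_num, mul_pow]; ring
    have h5 : (4 : ℝ) ^ (j' + 1) * N ^ j' * Lj ≤ (8 : ℝ) ^ (j' + 1) * N ^ j' * Lj := by
      refine mul_le_mul_of_nonneg_right (mul_le_mul_of_nonneg_right ?_ (by positivity)) hLj0
      exact pow_le_pow_left₀ (by norm_num) (by norm_num) _
    linarith
  have hbadpins : (K.card : ℝ) * m / 2 ≤ ∑ x ∈ Bad, ((Z x).card : ℝ) := by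
    have h := Finset.sum_filter_add_sum_filter_not U heavy (fun x => ((Z x).card : ℝ))
    rw [hStot] at h
    linarith
  -- the flat of a bad pin
  have hch : ∀ x : ↥Bad, ∃ W : Submodule ℝ (E d), finrank ℝ W < j ∧
      ∃ B ⊆ Z x.1, (∀ a ∈ B, a ∈ W) ∧ (Z x.1).card < 2 * B.card :=
    fun x => (Finset.mem_filter.1 x.2).2
  choose W hW B hBZ hBW hBc using hch
  -- generic projection
  let fam : (↥Bad × ↥K) ⊕ (↥K × ↥K) → Submodule ℝ (E d) := Sum.elim
    (fun z => W z.1 ⊔ Submodule.span ℝ {z.2.1})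
    (fun z => Submodule.span ℝ {z.1.1} ⊔ Submodule.span ℝ {z.2.1})
  have hspan1 : ∀ a : E d, finrank ℝ (Submodule.span ℝ ({a} : Set (E d))) ≤ 1 := fun a =>
    (finrank_span_le_card ({a} : Set (E d))).trans (by simp)
  have hfam : ∀ z, finrank ℝ (fam z) ≤ j := by
    rintro (z | z)
    · refine (Submodule.finrank_add_le_finrank_add_finrank _ _).trans ?_
      have := hspan1 z.2.1
      have := hW z.1
      omega
    · refine (Submodule.finrank_add_le_finrank_add_finrank _ _).trans ?_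
      have := hspan1 z.1.1
      have := hspan1 z.2.1
      omega
  obtain ⟨k, rfl⟩ : ∃ k, d = j + k := ⟨d - j, by omega⟩
  obtain ⟨π, hπ⟩ := exists_projection j k fam hfam
  have hπK : Set.InjOn π (K : Set (E (j + k))) := by
    intro a ha b hb h
    refine sub_eq_zero.1 (hπ (Sum.inr (⟨a, ha⟩, ⟨b, hb⟩)) _ ?_ (by rw [map_sub, h, sub_self]))
    exact Submodule.sub_mem _ (Submodule.mem_sup_left (Submodule.mem_span_singleton_self _))
      (Submodule.mem_sup_right (Submodule.mem_span_singleton_self _))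
  have hfun : ∀ x : ↥Bad, ∃ (w : E j) (c : ℝ),
      (∀ b ∈ B x, ⟪w, π b⟫_ℝ = c) ∧ ∀ a ∈ K, ⟪w, π a⟫_ℝ = c → ⟪x.1, a⟫_ℝ = 1 := by
    intro x
    have hBne : (B x).Nonempty := by
      rw [← Finset.card_pos]
      have := hBc x
      omega
    obtain ⟨b0, hb0⟩ := hBne
    have hone : ∀ b ∈ B x, ⟪x.1, b⟫_ℝ = 1 := by
      intro b hb
      obtain ⟨hbK, hbx⟩ := Finset.mem_filter.1 (hBZ x hb)
      exact (Finset.mem_filter.1 ((hT' _ hbK).1 hbx)).2
    let Dir : Submodule ℝ (E (j + k)) := W x ⊓ (Submodule.span ℝ {x.1})ᗮ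
    let out := (K.filter fun a => π a - π b0 ∉ Dir.map π).image π
    obtain ⟨w, c, hwc, hwout⟩ := exists_separating (π b0) (Dir.map π) out (fun p hp => by
      obtain ⟨a, ha, rfl⟩ := Finset.mem_image.1 hp
      exact (Finset.mem_filter.1 ha).2)
    refine ⟨w, c, fun b hb => hwc _ ?_, fun a ha hac => ?_⟩
    · refine ⟨b - b0, ⟨(W x).sub_mem (hBW x b hb) (hBW x b0 hb0), ?_⟩, map_sub π b b0⟩
      rw [SetLike.mem_coe, Submodule.mem_orthogonal_singleton_iff_inner_right, inner_sub_right,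
        hone b hb, hone b0 hb0, sub_self]
    · by_contra hne
      have hmem : π a - π b0 ∈ Dir.map π := by
        by_contra hout
        exact hwout (π a) (Finset.mem_image.2 ⟨a, Finset.mem_filter.2 ⟨ha, hout⟩, rfl⟩) hac
      obtain ⟨v, ⟨hv1, hv2⟩, hve⟩ := hmem
      have hz : a - b0 - v = 0 := by
        refine hπ (Sum.inl (x, ⟨a, ha⟩)) _ ?_ (by rw [map_sub, map_sub, ← hve, sub_self])
        exact Submodule.sub_mem _ (Submodule.sub_mem _
          (Submodule.mem_sup_right (Submodule.mem_span_singleton_self _))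
          (Submodule.mem_sup_left (hBW x b0 hb0))) (Submodule.mem_sup_left hv1)
      rw [SetLike.mem_coe, Submodule.mem_orthogonal_singleton_iff_inner_right] at hv2
      rw [← sub_eq_zero.1 hz, inner_sub_right, hone b0 hb0] at hv2
      exact hne (by linarith)
  choose w c hwB hwK using hfun
  let R : E (j + k) → Finset ↥Bad := fun a => Finset.univ.filter fun x => a ∈ B x
  have hR : ∀ a ∈ K, (R a).card ≤ m := by
    intro a ha
    rw [← (hT' a ha).2]
    refine Finset.card_le_card_of_injOn (fun x => x.1) (fun x hx => ?_) Subtype.val_injective.injOn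
    exact (Finset.mem_filter.1 (hBZ x (Finset.mem_filter.1 hx).2)).2
  have hRsum : (K.card : ℝ) * m / 4 ≤ ∑ a ∈ K, ((R a).card : ℝ) := by
    have e : ∑ a ∈ K, ((R a).card : ℝ) = ∑ x : ↥Bad, ((B x).card : ℝ) := by
      simp only [R, Finset.card_filter, Nat.cast_sum]
      rw [Finset.sum_comm]
      refine Finset.sum_congr rfl fun x _ => ?_
      simp only [Nat.cast_ite, Nat.cast_one, Nat.cast_zero]
      rw [Finset.sum_boole]
      congr 2
      ext a
      rw [Finset.mem_filter]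
      exact ⟨fun h => h.2, fun h => ⟨(Finset.mem_filter.1 (hBZ x h)).1, h⟩⟩
    rw [e]
    have h1 : ∑ x : ↥Bad, ((Z x.1).card : ℝ) ≤ ∑ x : ↥Bad, 2 * ((B x).card : ℝ) :=
      Finset.sum_le_sum fun x _ => by exact_mod_cast (hBc x).le
    rw [Finset.sum_coe_sort Bad (fun x => ((Z x).card : ℝ)), ← Finset.mul_sum] at h1
    linarith
  let K' := K.filter fun a => (m : ℝ) / 8 ≤ ((R a).card : ℝ)
  have hK' : (K.card : ℝ) / 8 ≤ K'.card := by
    have h := Finset.sum_filter_add_sum_filter_not K (fun a => (m : ℝ) / 8 ≤ ((R a).card : ℝ))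
      (fun a => ((R a).card : ℝ))
    have h1 : ∑ a ∈ K', ((R a).card : ℝ) ≤ (K'.card : ℝ) * m := by
      refine (Finset.sum_le_card_nsmul _ _ (m : ℝ) fun a ha =>
        Nat.cast_le.2 (hR a (Finset.mem_filter.1 ha).1)).trans_eq ?_
      rw [nsmul_eq_mul]
    have h2 : ∑ a ∈ K.filter (fun a => ¬ (m : ℝ) / 8 ≤ ((R a).card : ℝ)), ((R a).card : ℝ)
        ≤ (K.card : ℝ) * ((m : ℝ) / 8) := by
      refine (Finset.sum_le_card_nsmul _ _ ((m : ℝ) / 8) fun a ha =>
        (not_le.1 (Finset.mem_filter.1 ha).2).le).trans ?_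
      rw [nsmul_eq_mul]
      exact mul_le_mul_of_nonneg_right (Nat.cast_le.2 (Finset.card_filter_le _ _)) (by positivity)
    refine le_of_mul_le_mul_right ?_ (by linarith : (0 : ℝ) < m)
    linarith
  have hcardι : (Fintype.card ↥Bad : ℝ) ≤ N := by
    rw [Fintype.card_coe]
    exact (Nat.cast_le.2 (Finset.card_filter_le _ _)).trans hU
  have hnat : Fintype.card ↥Bad ≤ U.card := by
    rw [Fintype.card_coe]; exact Finset.card_filter_le _ _
  have hfin := gen_family (fun x : ↥Bad => w x) c (K'.image π) ((m : ℝ) / 8) L ε s (by positivity)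
    hε hL0
    (lt_of_le_of_lt (mul_le_mul_of_nonneg_right (by
      exact_mod_cast Nat.pow_le_pow_left (by omega) (2 * j)) (pow_nonneg (by linarith) s)) hs)
    (fun p hp => by
      obtain ⟨a, ha, rfl⟩ := Finset.mem_image.1 hp
      refine (Finset.mem_filter.1 ha).2.trans (Nat.cast_le.2 (Finset.card_le_card fun x hx => ?_))
      exact Finset.mem_filter.2 ⟨Finset.mem_univ _, hwB x a (Finset.mem_filter.1 hx).2⟩)
    (fun p hp q hq hpq => by
      obtain ⟨a, ha, rfl⟩ := Finset.mem_image.1 hp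
      obtain ⟨b, hb, rfl⟩ := Finset.mem_image.1 hq
      refine le_trans (Nat.cast_le.2 (Finset.card_le_card_of_injOn (fun x => x.1) (fun x hx => ?_)
        Subtype.val_injective.injOn)) (hL a (Finset.mem_filter.1 ha).1 b (Finset.mem_filter.1 hb).1
          fun h => hpq (by rw [h]))
      obtain ⟨-, h1, h2⟩ := Finset.mem_filter.1 hx
      exact Finset.mem_filter.2 ⟨(Finset.mem_filter.1 x.2).1,
        hwK x a (Finset.mem_filter.1 ha).1 h1, hwK x b (Finset.mem_filter.1 hb).1 h2⟩)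
    (lt_of_le_of_lt (by gcongr) hcond)
  rw [Finset.card_image_of_injOn (hπK.mono fun a ha => (Finset.mem_filter.1 ha).1)] at hfin
  have hmono : (dualC j : ℝ) * ((s : ℝ) + 2 * j + 1) ^ j
      * (2 * ((dualC j : ℝ) * ε * Fintype.card ↥Bad + L) / ((m : ℝ) / 8) + 1)
      ≤ (dualC j : ℝ) * ((s : ℝ) + 2 * j + 1) ^ j
      * (2 * ((dualC j : ℝ) * ε * N + L) / ((m : ℝ) / 8) + 1) := by gcongr
  linarith

end Vale.Agent.P054
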