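import Vale.Agent.P054.Step
import Vale.Agent.P054.Family

/-!
The second recursion: from dimensions `d - 2` and `d - j` to dimension `d`.
-/

namespace Vale.Agent.P054

open Module Filter
open scoped InnerProductSpace

variable {d : ℕ}

/-- `j` independent hyperplanes share few points of `P`. -/
lemma common_tuple_le {j : ℕ} {A C : ℝ} (hA : 0 ≤ A) (hC : 0 ≤ C)
    (hB : ∀ P : Finset (E (d - j)), (P.card : ℝ) ≤ C * ((dvals P).card + 1 : ℝ) ^ A)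
    (P : Finset (E d)) (f : Fin j → E d) (hf : LinearIndependent ℝ f) :
    ((P.filter fun x => ∀ i, ⟪x, f i⟫_ℝ = 1).card : ℝ) ≤ C * ((dvals P).card + 1 : ℝ) ^ A := by
  classical
  set Q := P.filter fun x => ∀ i, ⟪x, f i⟫_ℝ = 1
  rcases Q.eq_empty_or_nonempty with h | ⟨x0, h0⟩
  · rw [h, Finset.card_empty, Nat.cast_zero]; positivity
  have hfr : finrank ℝ (Submodule.span ℝ (Set.range f))ᗮ = d - j := by
    have h1 := Submodule.finrank_add_finrank_orthogonal (Submodule.span ℝ (Set.range f))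
    rw [finrank_span_eq_card hf, Fintype.card_fin, finrank_euclideanSpace_fin] at h1
    omega
  refine bd_flat hA hC hB _ hfr P Q (Finset.filter_subset _ _) x0 fun x hx => ?_
  rw [Submodule.mem_orthogonal']
  intro w hw
  induction hw using Submodule.span_induction with
  | mem w hw =>
    obtain ⟨i, rfl⟩ := hw
    rw [inner_sub_left, (Finset.mem_filter.1 hx).2 i, (Finset.mem_filter.1 h0).2 i, sub_self]
  | zero => simp
  | add u v _ _ hu hv => rw [inner_add_right, hu, hv, add_zero]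
  | smul r u _ hu => rw [real_inner_smul_right, hu, mul_zero]

lemma prob_bound {n η : ℝ} {M e : ℕ} (hn : 1 ≤ n) (hM : (M : ℝ) ≤ n) (ε : ℝ) (s : ℕ) (hε1 : ε ≤ 1)
    (hy : n ^ η ≤ ε * s)
    (hsmall : (2 * (e : ℝ) + 3) ^ (2 * e) * n ^ (2 * e) * Real.exp (-n ^ η) < 1) :
    (((2 * M + 2 * e + 1) ^ (2 * e) : ℕ) : ℝ) * (1 - ε) ^ s < 1 := by
  refine lt_of_le_of_lt (mul_le_mul ?_ (one_sub_pow_le_exp s hε1 hy)
    (pow_nonneg (by linarith) s) (by positivity)) hsmall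
  rw [← mul_pow]
  push_cast
  refine pow_le_pow_left₀ (by positivity) ?_ _
  have := mul_le_mul_of_nonneg_left hn (by positivity : (0 : ℝ) ≤ 2 * e + 1)
  linarith

lemma ceil_rpow_add_le {n a : ℝ} (hn : 1 ≤ n) (ha : 0 ≤ a) (e : ℕ) :
    (⌈n ^ a⌉₊ : ℝ) + 2 * e + 1 ≤ (2 * e + 3) * n ^ a := by
  have h1 : (⌈n ^ a⌉₊ : ℝ) < n ^ a + 1 := Nat.ceil_lt_add_one (by positivity)
  have h3 : (1 : ℝ) ≤ n ^ a := Real.one_le_rpow hn ha
  have h4 := mul_le_mul_of_nonneg_left h3 (by positivity : (0 : ℝ) ≤ 2 * e + 1)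
  linarith

set_option maxHeartbeats 1000000 in
/-- The number of `t`-rich bisector hyperplanes, for one `t`. -/
lemma level_bound_cells {j : ℕ} {A2 Aj C2 Cj : ℝ} (hj2 : 2 ≤ j) (hjd : j ≤ d) (hA2 : 0 ≤ A2)
    (hAj : 0 ≤ Aj) (hC2 : 0 ≤ C2) (hCj : 0 ≤ Cj)
    (hB2 : ∀ P : Finset (E (d - 2)), (P.card : ℝ) ≤ C2 * ((dvals P).card + 1 : ℝ) ^ A2)
    (hBj : ∀ P : Finset (E (d - j)), (P.card : ℝ) ≤ Cj * ((dvals P).card + 1 : ℝ) ^ Aj)
    (Q : Finset (E d)) (n δ η σ μ t : ℝ) (hn : 1 ≤ n) (hnQ : (Q.card : ℝ) = n) (hη : 0 < η)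
    (hησ : η < σ) (hμ : 0 ≤ μ)
    (hD : ((dvals Q).card + 1 : ℝ) ≤ n ^ δ) (ht0 : 0 < t) (htn : t ≤ n)
    (q1 : (2 * (d : ℝ) + 3) ^ (2 * d) * n ^ (2 * d) * Real.exp (-n ^ η) < 1)
    (q2 : (2 * (j : ℝ) + 3) ^ (2 * j) * n ^ (2 * j) * Real.exp (-n ^ η) < 1)
    (q3 : C2 * n ^ (δ * A2) ≤ n ^ (1 - σ + η))
    (q4 : (8 : ℝ) ^ j * ((dualC d : ℝ) + 1) ^ (j - 1) * Cj
      * n ^ ((((j - 1 : ℕ) : ℝ)) * (1 - σ + η) + δ * Aj) < t ^ j)
    (q5 : 64 * 2 * C2 * (dualC j : ℝ) * ((dualC d : ℝ) + 1) * n ^ (1 - σ + η - μ + δ * A2)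
      + 64 * 2 * C2 ^ 2 * n ^ (2 * (δ * A2)) < t ^ 2)
    (H : Finset (E d)) (hrichH : ∀ a ∈ H, t ≤ (rich Q a : ℝ)) :
    (H.card : ℝ) ≤ (dualC d : ℝ) * (2 * d + 3) ^ d * (8 * ((dualC j : ℝ) * (2 * j + 3) ^ j
      * (16 * ((dualC j : ℝ) * ((dualC d : ℝ) + 1) + 1) + 1)))
      * n ^ ((d : ℝ) * σ + (j : ℝ) * (μ + η) + 1) / t := by
  classical
  have hnpos : 0 < n := by linarith
  set B : ℝ := 8 * ((dualC j : ℝ) * (2 * j + 3) ^ j
      * (16 * ((dualC j : ℝ) * ((dualC d : ℝ) + 1) + 1) + 1)) with hBdef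
  rcases H.eq_empty_or_nonempty with h | hH
  · rw [h, Finset.card_empty, Nat.cast_zero]; positivity
  set ε : ℝ := n ^ (η - σ) with hε
  have hε0 : 0 < ε := Real.rpow_pos_of_pos hnpos _
  have hε1 : ε ≤ 1 := Real.rpow_le_one_of_one_le_of_nonpos hn (by linarith)
  have hεs : n ^ η ≤ ε * ⌈n ^ σ⌉₊ := by
    calc n ^ η = ε * n ^ σ := by rw [hε, ← Real.rpow_add hnpos, sub_add_cancel]
      _ ≤ _ := mul_le_mul_of_nonneg_left (Nat.le_ceil _) hε0.le
  obtain ⟨K, hKH, hcard, -, hcross⟩ := dual_cell Q H hH ⌈n ^ σ⌉₊ ε hε0.le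
    (prob_bound hn hnQ.le ε _ hε1 hεs q1)
  set X : ℝ := n ^ ((j : ℝ) * (μ + η) + 1) with hX
  have hXn : n ≤ X := by
    calc n = n ^ (1 : ℝ) := (Real.rpow_one n).symm
      _ ≤ X := Real.rpow_le_rpow_of_exponent_le hn (le_add_of_nonneg_left (by positivity))
  -- the bound for one cell
  suffices hK : (K.card : ℝ) ≤ B * X / t by
    have h : (H.card : ℝ) ≤ ((dualC d * (⌈n ^ σ⌉₊ + 2 * d + 1) ^ d * K.card : ℕ) : ℝ) :=
      Nat.cast_le.2 hcard
    push_cast at h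
    refine h.trans ?_
    calc (dualC d : ℝ) * ((⌈n ^ σ⌉₊ : ℝ) + 2 * d + 1) ^ d * K.card
        ≤ (dualC d : ℝ) * ((2 * d + 3) * n ^ σ) ^ d * (B * X / t) := by
          refine mul_le_mul (mul_le_mul_of_nonneg_left (pow_le_pow_left₀ (by positivity)
            (ceil_rpow_add_le hn (by linarith) d) d) (Nat.cast_nonneg _)) hK (Nat.cast_nonneg _)
            (by positivity)
      _ = _ := by
          rw [hX, add_assoc ((d : ℝ) * σ), Real.rpow_add hnpos ((d : ℝ) * σ), mul_comm (d : ℝ) σ,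
            Real.rpow_mul hnpos.le σ, Real.rpow_natCast, mul_pow]
          ring
  have hBge : 1 ≤ B := by
    have h1 : (1 : ℝ) ≤ dualC j := by exact_mod_cast dualC_pos j
    have h2 : (1 : ℝ) ≤ (2 * (j : ℝ) + 3) ^ j :=
      one_le_pow₀ (by linarith [(Nat.cast_nonneg j : (0 : ℝ) ≤ j)])
    have h3 : (1 : ℝ) ≤ 16 * ((dualC j : ℝ) * ((dualC d : ℝ) + 1) + 1) + 1 := by
      linarith [(by positivity : (0 : ℝ) ≤ (dualC j : ℝ) * ((dualC d : ℝ) + 1))]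
    have h4 := one_le_mul_of_one_le_of_one_le (one_le_mul_of_one_le_of_one_le h1 h2) h3
    rw [hBdef]; linarith
  rcases le_or_gt K.card 1 with h1 | h1
  · have : (K.card : ℝ) ≤ 1 := by exact_mod_cast h1
    refine this.trans ((one_le_div ht0).2 ?_)
    calc t ≤ n := htn
      _ ≤ 1 * X := by rw [one_mul]; exact hXn
      _ ≤ B * X := mul_le_mul_of_nonneg_right hBge (by positivity)
  obtain ⟨a0, ha0, b0, hb0, hab⟩ := Finset.one_lt_card.1 h1
  set L : ℝ := C2 * ((dvals Q).card + 1 : ℝ) ^ A2 with hL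
  have hL0 : 0 ≤ L := by rw [hL]; positivity
  have hLn : L ≤ C2 * n ^ (δ * A2) := by
    rw [hL, Real.rpow_mul hnpos.le]
    exact mul_le_mul_of_nonneg_left (Real.rpow_le_rpow (by positivity) hD hA2) hC2
  set N : ℝ := ((dualC d : ℝ) + 1) * n ^ (1 - σ + η) with hN
  let U := Q.filter fun x => ∃ a ∈ K, ⟪x, a⟫_ℝ = 1
  have hU : (U.card : ℝ) ≤ N := by
    have hsub : U ⊆ (Q.filter fun x => ∃ a ∈ K, ⟪x, a⟫_ℝ = 1 ∧ ∃ b ∈ K, ⟪x, b⟫_ℝ ≠ 1) ∪
        (Q.filter fun x => ⟪x, a0⟫_ℝ = 1 ∧ ⟪x, b0⟫_ℝ = 1) := by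
      intro x hx
      obtain ⟨hxP, a, ha, hxa⟩ := Finset.mem_filter.1 hx
      by_cases hall : ∀ b ∈ K, ⟪x, b⟫_ℝ = 1
      · exact Finset.mem_union_right _ (Finset.mem_filter.2 ⟨hxP, hall a0 ha0, hall b0 hb0⟩)
      · push Not at hall
        exact Finset.mem_union_left _ (Finset.mem_filter.2 ⟨hxP, a, ha, hxa, hall⟩)
    refine le_trans (Nat.cast_le.2 ((Finset.card_le_card hsub).trans (Finset.card_union_le _ _))) ?_
    have e : ε * n = n ^ (1 - σ + η) := by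
      rw [hε, ← Real.rpow_add_one hnpos.ne']; ring_nf
    rw [Nat.cast_add, hN, add_mul, one_mul]
    refine add_le_add (hcross.trans_eq (by rw [hnQ, mul_assoc, e])) ?_
    exact (common_le (le_trans hj2 hjd) hA2 hC2 hB2 Q hab).trans (hLn.trans q3)
  have hNnat : U.card ≤ Q.card := Finset.card_filter_le _ _
  set m : ℕ := ⌈t⌉₊ with hm
  have hmt : t ≤ (m : ℝ) := Nat.le_ceil _
  have hm0 : (0 : ℝ) < m := ht0.trans_le hmt
  set ε' : ℝ := n ^ (-μ) with hε'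
  have hε'0 : 0 < ε' := Real.rpow_pos_of_pos hnpos _
  have hε's : n ^ η ≤ ε' * ⌈n ^ (μ + η)⌉₊ := by
    calc n ^ η = ε' * n ^ (μ + η) := by rw [hε', ← Real.rpow_add hnpos, neg_add_cancel_left]
      _ ≤ _ := mul_le_mul_of_nonneg_left (Nat.le_ceil _) hε'0.le
  have hNn : N ≤ ((dualC d : ℝ) + 1) * n := by
    rw [hN]
    refine mul_le_mul_of_nonneg_left ?_ (by positivity)
    calc n ^ (1 - σ + η) ≤ n ^ (1 : ℝ) := Real.rpow_le_rpow_of_exponent_le hn (by linarith)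
      _ = n := Real.rpow_one n
  have hε'1 : ε' ≤ 1 := Real.rpow_le_one_of_one_le_of_nonpos hn (by linarith)
  have hcell := cell_bound (d := d) hj2 hjd K U m (Nat.ceil_pos.2 ht0) L
    (Cj * ((dvals Q).card + 1 : ℝ) ^ Aj) N hL0 (by positivity) hU
    (fun a ha => by
      have e : U.filter (fun x => ⟪x, a⟫_ℝ = 1) = Q.filter (fun x => ⟪x, a⟫_ℝ = 1) := by
        ext x
        simp only [U, Finset.mem_filter]
        exact ⟨fun h => ⟨h.1.1, h.2⟩, fun h => ⟨⟨h.1, a, ha, h.2⟩, h.2⟩⟩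
      rw [e]
      exact Nat.ceil_le.2 (hrichH a (hKH ha)))
    (fun a _ b _ hne => (Nat.cast_le.2 (Finset.card_le_card (Finset.filter_subset_filter _
      (Finset.filter_subset _ _)))).trans (common_le (le_trans hj2 hjd) hA2 hC2 hB2 Q hne))
    (fun f hf _ => (Nat.cast_le.2 (Finset.card_le_card (Finset.filter_subset_filter _
      (Finset.filter_subset _ _)))).trans (common_tuple_le hAj hCj hBj Q f hf))
    (by
      refine lt_of_lt_of_le (lt_of_le_of_lt ?_ q4) (pow_le_pow_left₀ ht0.le hmt j)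
      have h1 : ((dvals Q).card + 1 : ℝ) ^ Aj ≤ n ^ (δ * Aj) := by
        rw [Real.rpow_mul hnpos.le]
        exact Real.rpow_le_rpow (by positivity) hD hAj
      calc (8 : ℝ) ^ j * N ^ (j - 1) * (Cj * ((dvals Q).card + 1 : ℝ) ^ Aj)
          ≤ (8 : ℝ) ^ j * N ^ (j - 1) * (Cj * n ^ (δ * Aj)) := by gcongr
        _ = _ := by
          rw [hN, mul_pow, Real.rpow_add hnpos (((j - 1 : ℕ) : ℝ) * (1 - σ + η)) (δ * Aj),
            mul_comm ((j - 1 : ℕ) : ℝ), Real.rpow_mul hnpos.le (1 - σ + η) ((j - 1 : ℕ) : ℝ),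
            Real.rpow_natCast]
          ring)
    ε' ⌈n ^ (μ + η)⌉₊ hε'0.le hε'1
    (prob_bound hn ((Nat.cast_le.2 hNnat).trans_eq hnQ) ε' _ hε'1 hε's q2)
    (by
      rw [div_pow, lt_div_iff₀ (by norm_num)]
      refine lt_of_le_of_lt ?_ (lt_of_lt_of_le q5 (pow_le_pow_left₀ ht0.le hmt 2))
      calc 2 * ((dualC j : ℝ) * ε' * N + L) * L * (8 : ℝ) ^ 2
          ≤ 2 * ((dualC j : ℝ) * ε' * N + C2 * n ^ (δ * A2)) * (C2 * n ^ (δ * A2)) * (8 : ℝ) ^ 2 := by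
            gcongr
        _ = _ := by
          rw [hN, hε', Real.rpow_add hnpos (1 - σ + η - μ) (δ * A2), sub_eq_add_neg (1 - σ + η) μ,
            Real.rpow_add hnpos (1 - σ + η) (-μ), mul_comm 2 (δ * A2), Real.rpow_mul hnpos.le _ 2,
            Real.rpow_two]
          ring)
  refine hcell.trans ?_
  have hLn' : L ≤ n := hLn.trans (q3.trans (by
    calc n ^ (1 - σ + η) ≤ n ^ (1 : ℝ) := Real.rpow_le_rpow_of_exponent_le hn (by linarith)
      _ = n := Real.rpow_one n))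
  set G : ℝ := (dualC j : ℝ) * ((dualC d : ℝ) + 1) + 1 with hG
  have hbr : 2 * ((dualC j : ℝ) * ε' * N + L) / ((m : ℝ) / 8) + 1 ≤ (16 * G + 1) * n / t := by
    have h2 : (dualC j : ℝ) * ε' * N + L ≤ G * n := by
      have : (dualC j : ℝ) * ε' * N ≤ (dualC j : ℝ) * 1 * (((dualC d : ℝ) + 1) * n) := by gcongr
      rw [hG, add_mul, one_mul]
      linarith
    have h0 : 0 ≤ (dualC j : ℝ) * ε' * N + L := by positivity
    have h3 : 2 * ((dualC j : ℝ) * ε' * N + L) / ((m : ℝ) / 8) ≤ 16 * (G * n) / t := by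
      rw [div_div_eq_mul_div, div_le_div_iff₀ hm0 ht0]
      have := mul_le_mul h2 hmt ht0.le (by positivity)
      linarith
    have h4 : (1 : ℝ) ≤ n / t := (one_le_div ht0).2 htn
    rw [add_mul (16 * G), one_mul, add_div (16 * G * n), mul_assoc 16 G n]
    linarith
  calc 8 * ((dualC j : ℝ) * ((⌈n ^ (μ + η)⌉₊ : ℝ) + 2 * j + 1) ^ j
        * (2 * ((dualC j : ℝ) * ε' * N + L) / ((m : ℝ) / 8) + 1))
      ≤ 8 * ((dualC j : ℝ) * ((2 * j + 3) * n ^ (μ + η)) ^ j * ((16 * G + 1) * n / t)) := by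
        have h1 := pow_le_pow_left₀ (by positivity) (ceil_rpow_add_le hn
          (by linarith : 0 ≤ μ + η) j) j
        gcongr
    _ = B * X / t := by
      rw [hBdef, hX, Real.rpow_add hnpos ((j : ℝ) * (μ + η)) 1, Real.rpow_one, mul_comm (j : ℝ),
        Real.rpow_mul hnpos.le, Real.rpow_natCast, mul_pow, hG]
      ring

set_option maxHeartbeats 1000000 in
/-- The second recursion. -/
theorem step2 {j : ℕ} {A2 Aj δ ρ σ μ : ℝ} (hj2 : 2 ≤ j) (hjd : j ≤ d)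
    (hB2 : Bd (d - 2) A2) (hBj : Bd (d - j) Aj) (hA2 : 0 ≤ A2) (hAj : 0 ≤ Aj)
    (hρ : 0 < ρ) (hσ : 0 < σ) (hμ : 0 ≤ μ)
    (c1 : ((d : ℝ) - 1) * ρ + δ < 1) (c2 : ρ ≤ δ)
    (cL : δ * A2 < 1 - δ + ρ) (cN : δ * A2 < 1 - σ)
    (cμ : 1 - σ + δ * A2 < 2 * (1 - δ + ρ) + μ)
    (cj : ((j : ℝ) - 1) * (1 - σ) + δ * Aj < (j : ℝ) * (1 - δ + ρ))
    (cb : (d : ℝ) * σ + (j : ℝ) * μ < ρ) : Bd d (1 / δ) := by
  classical
  obtain ⟨C2, hC2, hCB2⟩ := hB2
  obtain ⟨Cj, hCj, hCBj⟩ := hBj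
  have hδ : 0 < δ := hρ.trans_le c2
  have hd2 : (2 : ℝ) ≤ d := by exact_mod_cast le_trans hj2 hjd
  obtain ⟨η, hη, e1, eL, eN, eμ, ej, eb, e7, e8⟩ : ∃ η : ℝ, 0 < η ∧
      ((d : ℝ) - 1) * ρ + δ + η < 1 ∧ δ * A2 < 1 - δ + ρ - η ∧ δ * A2 < 1 - σ + η ∧
      1 - σ + η + δ * A2 < 2 * (1 - δ + ρ - η) + μ ∧
      ((j : ℝ) - 1) * (1 - σ + η) + δ * Aj < (j : ℝ) * (1 - δ + ρ - η) ∧
      (d : ℝ) * σ + (j : ℝ) * (μ + η) + 2 * η < ρ ∧ η < ρ ∧ η < σ := by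
    have key : ∀ᶠ η : ℝ in nhds 0,
        ((d : ℝ) - 1) * ρ + δ + η < 1 ∧ δ * A2 < 1 - δ + ρ - η ∧ δ * A2 < 1 - σ + η ∧
        1 - σ + η + δ * A2 < 2 * (1 - δ + ρ - η) + μ ∧
        ((j : ℝ) - 1) * (1 - σ + η) + δ * Aj < (j : ℝ) * (1 - δ + ρ - η) ∧
        (d : ℝ) * σ + (j : ℝ) * (μ + η) + 2 * η < ρ ∧ η < ρ ∧ η < σ := by
      have l : ∀ f g : ℝ → ℝ, Continuous f → Continuous g → f 0 < g 0 →
          ∀ᶠ η in nhds 0, f η < g η := fun f g hf hg h =>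
            hf.continuousAt.eventually_lt hg.continuousAt h
      refine (l _ _ (by fun_prop) (by fun_prop) ?_).and ((l _ _ (by fun_prop) (by fun_prop) ?_).and
        ((l _ _ (by fun_prop) (by fun_prop) ?_).and ((l _ _ (by fun_prop) (by fun_prop) ?_).and
        ((l _ _ (by fun_prop) (by fun_prop) ?_).and ((l _ _ (by fun_prop) (by fun_prop) ?_).and
        ((l _ _ (by fun_prop) (by fun_prop) ?_).and (l _ _ (by fun_prop) (by fun_prop) ?_)))))))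
      all_goals linarith
    obtain ⟨η, h, hp⟩ :=
      ((key.filter_mono nhdsWithin_le_nhds).and (self_mem_nhdsWithin (s := Set.Ioi (0 : ℝ)))).exists
    exact ⟨η, hp, h⟩
  set e : ℝ := 1 - (δ - ρ + η) with he
  set B : ℝ := (dualC d : ℝ) * (2 * d + 3) ^ d * (8 * ((dualC j : ℝ) * (2 * j + 3) ^ j
      * (16 * ((dualC j : ℝ) * ((dualC d : ℝ) + 1) + 1) + 1))) with hB
  have hev : ∀ᶠ x : ℝ in atTop, 1 ≤ x ∧
      (x ^ 2 * Real.exp (-x ^ η) < 1) ∧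
      ((2 * (d : ℝ) + 3) ^ (2 * d) * x ^ (2 * d) * Real.exp (-x ^ η) < 1) ∧
      ((2 * (j : ℝ) + 3) ^ (2 * j) * x ^ (2 * j) * Real.exp (-x ^ η) < 1) ∧
      (4 * 19 * (2 * 2 ^ d * 4 ^ d) * x ^ (δ - ρ + η + (d : ℝ) * ρ) < x ^ (1 : ℝ)) ∧
      (C2 * x ^ (δ * A2) < x ^ (1 - σ + η)) ∧
      ((8 : ℝ) ^ j * ((dualC d : ℝ) + 1) ^ (j - 1) * Cj * 152 ^ j
        * x ^ ((((j - 1 : ℕ) : ℝ)) * (1 - σ + η) + δ * Aj) < x ^ ((j : ℝ) * e)) ∧
      (2 * 152 ^ 2 * (64 * 2 * C2 * (dualC j : ℝ) * ((dualC d : ℝ) + 1))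
        * x ^ (1 - σ + η - μ + δ * A2) < x ^ (2 * e)) ∧
      (2 * 152 ^ 2 * (64 * 2 * C2 ^ 2) * x ^ (2 * (δ * A2)) < x ^ (2 * e)) ∧
      (64 * x ^ (0 : ℝ) < x ^ (1 + ρ - η)) ∧
      (64 * B * (2 + 1 / η) * x ^ ((d : ℝ) * σ + (j : ℝ) * (μ + η) + 1 + η)
        < x ^ (1 + ρ - η)) := by
    refine (eventually_ge_atTop 1).and (Eventually.and ?_ (Eventually.and ?_ (Eventually.and ?_
      ((ev_rpow_lt _ ?_).and ((ev_rpow_lt _ ?_).and ((ev_rpow_lt _ ?_).and ((ev_rpow_lt _ ?_).and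
      ((ev_rpow_lt _ ?_).and ((ev_rpow_lt _ ?_).and (ev_rpow_lt _ ?_))))))))))
    · simpa using ev_exp_small hη 2 1
    · exact ev_exp_small hη (2 * d) _
    · exact ev_exp_small hη (2 * j) _
    · linarith
    · exact eN
    · rw [Nat.cast_sub (by omega : 1 ≤ j), Nat.cast_one, he]
      linarith
    · rw [he]; linarith
    · rw [he]; linarith
    · linarith
    · linarith
  obtain ⟨N0, hN0⟩ := eventually_atTop.1 hev
  refine ⟨max N0 1, lt_max_of_lt_right one_pos, fun P => ?_⟩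
  rcases le_or_gt ((P.card : ℝ)) (max N0 1) with hsmall | hlarge
  · exact hsmall.trans (le_mul_of_one_le_right (le_trans zero_le_one (le_max_right _ _))
      (Real.one_le_rpow (one_le_dvals_add P) (by positivity)))
  suffices h : (P.card : ℝ) ≤ ((dvals P).card + 1 : ℝ) ^ (1 / δ) by
    exact h.trans (le_mul_of_one_le_left (Real.rpow_nonneg (by positivity) _) (le_max_right _ _))
  obtain ⟨Q, hQc, hQd, hQN⟩ := exists_translate P
  by_contra hcon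
  push Not at hcon
  set n : ℝ := (P.card : ℝ) with hn
  obtain ⟨hn1, p2, p2d, p2j, p4, p5, p6, p7, p7', p8, p9⟩ := hN0 n ((le_max_left _ _).trans hlarge.le)
  have hnpos : 0 < n := lt_of_lt_of_le one_pos hn1
  have hnQ : (Q.card : ℝ) = n := by rw [hn, hQc]
  have hQne : Q.Nonempty := by
    rw [← Finset.card_pos, hQc]; rw [hn] at hnpos; exact_mod_cast hnpos
  set D : ℝ := (dvals Q).card + 1 with hD
  have hD0 : 0 ≤ D := by rw [hD]; positivity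
  have hDn : D ≤ n ^ δ := by
    have h1 : D ≤ (dvals P).card + 1 := by rw [hD]; exact_mod_cast Nat.add_le_add_right hQd 1
    have h2 := Real.rpow_le_rpow (Real.rpow_nonneg (by positivity) _) hcon.le hδ.le
    rw [← Real.rpow_mul (by positivity), one_div_mul_cancel hδ.ne', Real.rpow_one] at h2
    exact h1.trans h2
  set ε : ℝ := n ^ (η - ρ) with hε
  set s : ℕ := ⌈n ^ ρ⌉₊ with hs
  set V : ℕ := ⌈8 * ε * D⌉₊ with hV
  have hε0 : 0 < ε := Real.rpow_pos_of_pos hnpos _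
  have hε1 : ε ≤ 1 := Real.rpow_le_one_of_one_le_of_nonpos hn1 (by linarith)
  have hεs : n ^ η ≤ ε * s := by
    calc n ^ η = ε * n ^ ρ := by rw [hε, ← Real.rpow_add hnpos, sub_add_cancel]
      _ ≤ _ := mul_le_mul_of_nonneg_left (Nat.le_ceil _) hε0.le
  set W : ℝ := 2 * (V : ℝ) + 1 with hW
  have hW19 : W ≤ 19 * n ^ (δ - ρ + η) := by
    have h1 : (V : ℝ) < 8 * ε * D + 1 := Nat.ceil_lt_add_one (by positivity)
    have h2 : ε * D ≤ n ^ (δ - ρ + η) := by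
      rw [show δ - ρ + η = (η - ρ) + δ by ring, Real.rpow_add hnpos]
      exact mul_le_mul_of_nonneg_left hDn hε0.le
    have h3 : (1 : ℝ) ≤ n ^ (δ - ρ + η) := Real.one_le_rpow hn1 (by linarith)
    linarith
  have hW0 : 0 < W := by positivity
  have hforced := forced_incidences Q hQne hQN s V ε hε0 hε1
    (by
      rw [hnQ]
      exact lt_of_le_of_lt (mul_le_mul_of_nonneg_left (one_sub_pow_le_exp s hε1 hεs) (sq_nonneg n)) p2)
    (by
      have : 8 * ε * D ≤ V := Nat.le_ceil _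
      linarith)
    (by
      rw [hnQ, ← hW]
      have hs4 : (s : ℝ) + 2 ≤ 4 * n ^ ρ := by
        have h1 : (s : ℝ) < n ^ ρ + 1 := Nat.ceil_lt_add_one (by positivity)
        have h3 : (1 : ℝ) ≤ n ^ ρ := Real.one_le_rpow hn1 hρ.le
        linarith
      calc 4 * W * (2 * 2 ^ d * ((s : ℝ) + 2) ^ d)
          ≤ 4 * (19 * n ^ (δ - ρ + η)) * (2 * 2 ^ d * (4 * n ^ ρ) ^ d) := by gcongr
        _ = 4 * 19 * (2 * 2 ^ d * 4 ^ d) * n ^ (δ - ρ + η + (d : ℝ) * ρ) := by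
          rw [Real.rpow_add hnpos (δ - ρ + η) ((d : ℝ) * ρ), mul_comm (d : ℝ) ρ,
            Real.rpow_mul hnpos.le, Real.rpow_natCast]
          ring
        _ ≤ n := by rw [Real.rpow_one] at p4; exact p4.le)
  rw [hnQ, ← hW] at hforced
  set κ : ℝ := n / (8 * W) with hκ
  have hκge : n ^ e / 152 ≤ κ := by
    rw [he, Real.rpow_sub hnpos, Real.rpow_one, hκ, div_div]
    exact div_le_div_of_nonneg_left hnpos.le (by positivity) (by linarith)
  have hκ0 : 0 < κ := by positivity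
  set M : ℝ := B * n ^ ((d : ℝ) * σ + (j : ℝ) * (μ + η) + 1) with hM
  have hM0 : 0 ≤ M := by positivity
  have hlev : ∀ t : ℝ, κ ≤ t → t ≤ n →
      (((richBis Q κ).filter fun v => t ≤ (rich Q v : ℝ)).card : ℝ) ≤ M / t := by
    intro t hκt htn
    have ht0 : 0 < t := hκ0.trans_le hκt
    have hpow : ∀ k : ℕ, n ^ ((k : ℝ) * e) ≤ t ^ k * 152 ^ k := by
      intro k
      rw [mul_comm (k : ℝ), Real.rpow_mul hnpos.le, Real.rpow_natCast, ← mul_pow]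
      refine pow_le_pow_left₀ (by positivity) ?_ k
      rw [← div_le_iff₀ (by norm_num)]
      exact hκge.trans hκt
    refine level_bound_cells hj2 hjd hA2 hAj hC2.le hCj.le hCB2 hCBj Q n δ η σ μ t hn1 hnQ hη e8 hμ
      hDn ht0 htn p2d p2j p5.le ?_ ?_ _ (fun a ha => (Finset.mem_filter.1 ha).2)
    · refine lt_of_mul_lt_mul_right ?_ (pow_nonneg (by norm_num : (0 : ℝ) ≤ 152) j)
      refine lt_of_le_of_lt (le_of_eq ?_) (lt_of_lt_of_le p6 (hpow j))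
      ring
    · have h2 := hpow 2
      push_cast at h2
      refine lt_of_mul_lt_mul_right ?_ (pow_nonneg (by norm_num : (0 : ℝ) ≤ 152) 2)
      linarith
  have hI := sum_rich_le Q (richBis Q κ) κ M hκ0 hM0
    (fun v hv => (Finset.mem_filter.1 hv).2) (by rw [hnQ]; exact hlev)
  rw [hnQ] at hI
  have hup : M * (2 + Real.log n)
      ≤ B * (2 + 1 / η) * n ^ ((d : ℝ) * σ + (j : ℝ) * (μ + η) + 1 + η) := by
    have h1 : (1 : ℝ) ≤ n ^ η := Real.one_le_rpow hn1 hη.le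
    have h2 : Real.log n ≤ n ^ η / η := Real.log_le_rpow_div hnpos.le hη
    have h3 : 2 + Real.log n ≤ (2 + 1 / η) * n ^ η := by
      rw [add_mul, div_mul_eq_mul_div, one_mul]; linarith
    calc M * (2 + Real.log n) ≤ M * ((2 + 1 / η) * n ^ η) :=
          mul_le_mul_of_nonneg_left h3 hM0
      _ = _ := by
        rw [hM, Real.rpow_add hnpos ((d : ℝ) * σ + (j : ℝ) * (μ + η) + 1) η]; ring
  have hlow : n ^ (1 + ρ - η) / 32 - 1 ≤ n / (32 * ε) - 1 := by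
    refine sub_le_sub_right (le_of_eq ?_) 1
    rw [show 1 + ρ - η = 1 - (η - ρ) by ring, Real.rpow_sub hnpos, Real.rpow_one, ← hε, div_div,
      mul_comm]
  rw [Real.rpow_zero] at p8
  linarith

end Vale.Agent.P054
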