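import Vale.Agent.P054.Exponents
import Vale.Agent.P054.Step2

/-!
Solving the second recursion: `n = O((D+1)^(d/2 + 8/√d))`.
-/

namespace Vale.Agent.P054

open Filter

/-- The gap between `C/√(d-i)` and `C/√d`. -/
lemma inv_gap {u v i : ℝ} (hu : 0 < u) (hv : 24 / 25 * u ≤ v) (hi : 0 ≤ i)
    (hi2 : v ^ 2 = u ^ 2 - i) : 8 / v - 8 / u ≤ 64 * i / (15 * u ^ 3) := by
  have hv0 : 0 < v := lt_of_lt_of_le (by positivity) hv
  have hden : 15 / 8 * u ^ 3 ≤ u * v * (u + v) := by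
    have h1 : u * (24 / 25 * u) * (u + 24 / 25 * u) ≤ u * v * (u + v) := by gcongr
    nlinarith [pow_pos hu 3]
  have e : 8 / v - 8 / u = 8 * i / (u * v * (u + v)) := by
    field_simp
    linear_combination -hi2
  rw [e]
  calc 8 * i / (u * v * (u + v)) ≤ 8 * i / (15 / 8 * u ^ 3) :=
        div_le_div_of_nonneg_left (by positivity) (by positivity) hden
    _ = 64 * i / (15 * u ^ 3) := by ring

set_option maxHeartbeats 1000000 in
/-- The recursion step in dimension `d > 256`, with `j = ⌊√d⌋`. -/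
lemma bd_big_step (d : ℕ) (hu16 : 16 < Real.sqrt d)
    (ih : ∀ e < d, 2 ≤ e → Bd e ((e : ℝ) / 2 + 8 / Real.sqrt e)) :
    Bd d ((d : ℝ) / 2 + 8 / Real.sqrt d) := by
  set u : ℝ := Real.sqrt d with hu
  have hu0 : 0 < u := by linarith
  have hu2 : u ^ 2 = d := Real.sq_sqrt (Nat.cast_nonneg d)
  set j : ℕ := ⌊u⌋₊ with hj
  have hju : (j : ℝ) ≤ u := Nat.floor_le hu0.le
  have huj : u < (j : ℝ) + 1 := Nat.lt_floor_add_one u
  have hd256 : (256 : ℝ) < d := by nlinarith
  have hj15 : (15 : ℝ) < j := by linarith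
  have hjd' : (j : ℝ) + 2 ≤ d := by nlinarith
  have hjd : j + 2 ≤ d := by exact_mod_cast hjd'
  have hj2 : 2 ≤ j := by
    have : ((15 : ℕ) : ℝ) < j := by push_cast; exact hj15
    have := Nat.cast_lt.1 this
    omega
  have h2 := ih (d - 2) (by omega) (by omega)
  have hjj := ih (d - j) (by omega) (by omega)
  rw [Nat.cast_sub (by omega : 2 ≤ d), Nat.cast_two] at h2
  rw [Nat.cast_sub (by omega : j ≤ d)] at hjj
  set v : ℝ := Real.sqrt ((d : ℝ) - 2) with hv
  set v' : ℝ := Real.sqrt ((d : ℝ) - j) with hv'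
  have hvge : 24 / 25 * u ≤ v := Real.le_sqrt_of_sq_le (by nlinarith)
  have hv'ge : 24 / 25 * u ≤ v' := Real.le_sqrt_of_sq_le (by nlinarith)
  have gy : 8 / v - 8 / u ≤ 8 / 15 / (d : ℝ) := by
    refine (inv_gap hu0 hvge (by norm_num : (0 : ℝ) ≤ 2)
      (by rw [hv, Real.sq_sqrt (by linarith), hu2])).trans ?_
    rw [← hu2, div_div, div_le_div_iff₀ (by positivity) (by positivity)]
    nlinarith [mul_le_mul_of_nonneg_left hu16.le (pow_nonneg hu0.le 2)]
  have gz : 8 / v' - 8 / u ≤ 64 / 15 / (d : ℝ) := by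
    refine (inv_gap hu0 hv'ge (Nat.cast_nonneg j)
      (by rw [hv', Real.sq_sqrt (by linarith), hu2])).trans ?_
    rw [← hu2, div_div, div_le_div_iff₀ (by positivity) (by positivity)]
    nlinarith [mul_le_mul_of_nonneg_left hju (pow_nonneg hu0.le 2)]
  have gy0 : 0 ≤ 8 / v - 8 / u :=
    sub_nonneg.2 (div_le_div_of_nonneg_left (by norm_num) (by linarith)
      (Real.sqrt_le_sqrt (by linarith)))
  set x : ℝ := 8 / u with hx
  set y : ℝ := 8 / v with hy
  set z : ℝ := 8 / v' with hz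
  have hx0 : 0 < x := by rw [hx]; positivity
  have hxh : x < 1 / 2 := by rw [hx, div_lt_iff₀ hu0]; linarith
  set A : ℝ := (d : ℝ) / 2 + x with hA
  have hApos : 0 < A := by linarith
  set w : ℝ := (1 / 2 - x) / ((d : ℝ) - 1) with hw
  have hw0 : 0 ≤ w := div_nonneg (by linarith) (by linarith)
  have hwd : ((d : ℝ) - 1) * w = 1 / 2 - x := by
    rw [hw]; exact mul_div_cancel₀ _ (by linarith)
  have hw256 : 255 * w ≤ ((d : ℝ) - 1) * w := mul_le_mul_of_nonneg_right (by linarith) hw0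
  have hw1 : (d : ℝ) * w ≤ 51 / 100 := by linarith
  set m : ℝ := y - x + 2 * w with hm
  have hm0 : 0 ≤ m := by linarith
  have hm1 : (d : ℝ) * m ≤ 156 / 100 := by
    have : (d : ℝ) * (y - x) ≤ 8 / 15 := by rw [← le_div_iff₀' (by linarith)]; exact gy
    rw [hm]; linarith
  have hjjm : (j : ℝ) * j * m ≤ 156 / 100 := by
    refine le_trans (mul_le_mul_of_nonneg_right ?_ hm0) hm1
    rw [← hu2, sq]; exact mul_le_mul hju hju (Nat.cast_nonneg j) hu0.le
  have hjm : (j : ℝ) * m ≤ 156 / 1500 := by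
    have := mul_le_mul_of_nonneg_right hj15.le (mul_nonneg (Nat.cast_nonneg (α := ℝ) j) hm0)
    linarith
  have hw2 : w ≤ 1 / 400 := by linarith
  have hyx : y - x ≤ 1 / 4 := by
    refine gy.trans ?_
    rw [div_le_iff₀ (by linarith)]; linarith
  set r : ℝ := 1 / 2 - w with hr
  set s : ℝ := (r - (j : ℝ) * m) / d with hs
  have hsd : (d : ℝ) * s = r - (j : ℝ) * m := by rw [hs]; exact mul_div_cancel₀ _ (by linarith)
  have hs0 : 0 < s := div_pos (by linarith) (by linarith)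
  have hs1 : s ≤ 1 / 2 := by
    have := mul_le_mul_of_nonneg_right hd256.le hs0.le
    linarith [mul_nonneg (Nat.cast_nonneg (α := ℝ) j) hm0]
  -- the key inequality
  have hkey : z - x + (j : ℝ) * w < ((j : ℝ) - 1) * s := by
    have h1 : (d : ℝ) * (z - x) ≤ 64 / 15 := by rw [← le_div_iff₀' (by linarith)]; exact gz
    have h3 : (15 : ℝ) / 2 ≤ (j : ℝ) * x := by
      have : (u - 1) * x ≤ (j : ℝ) * x := mul_le_mul_of_nonneg_right (by linarith) hx0.le
      have e : u * x = 8 := by rw [hx]; exact mul_div_cancel₀ _ hu0.ne'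
      linarith
    have h4 : (j : ℝ) * w ≤ 51 / 1000 := by
      have : (16 : ℝ) * j ≤ d := by
        rw [← hu2, sq]; exact mul_le_mul hu16.le hju (Nat.cast_nonneg j) hu0.le
      linarith [mul_le_mul_of_nonneg_right this hw0]
    have h5 : (d : ℝ) * ((j : ℝ) * w) = (j : ℝ) / 2 - (j : ℝ) * x + (j : ℝ) * w := by
      linear_combination (j : ℝ) * hwd
    have h6 : (j : ℝ) / 2 - 1 / 2 - (j : ℝ) * w - (j : ℝ) * j * m
        ≤ (d : ℝ) * (((j : ℝ) - 1) * s) := by
      rw [mul_left_comm, hsd, hr]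
      linarith [mul_nonneg (Nat.cast_nonneg (α := ℝ) j) hm0]
    refine lt_of_mul_lt_mul_left ?_ (Nat.cast_nonneg d)
    rw [mul_add]
    linarith
  -- perturb
  obtain ⟨θ, hθ, p1, p2, p3, p4, p5, p6⟩ : ∃ θ : ℝ, 0 < θ ∧ 0 < r - θ ∧ 0 < s - θ ∧
      y - x + (s - θ) < 1 ∧ y - x + θ < r ∧
      y - x + 2 * w + 2 * θ < (s - θ) + m ∧
      z - x + (j : ℝ) * w + (j : ℝ) * θ < ((j : ℝ) - 1) * (s - θ) := by
    have key : ∀ᶠ θ : ℝ in nhds 0, 0 < r - θ ∧ 0 < s - θ ∧
        y - x + (s - θ) < 1 ∧ y - x + θ < r ∧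
        y - x + 2 * w + 2 * θ < (s - θ) + m ∧
        z - x + (j : ℝ) * w + (j : ℝ) * θ < ((j : ℝ) - 1) * (s - θ) := by
      have l : ∀ f g : ℝ → ℝ, Continuous f → Continuous g → f 0 < g 0 →
          ∀ᶠ θ in nhds 0, f θ < g θ := fun f g hf hg h =>
            hf.continuousAt.eventually_lt hg.continuousAt h
      refine (l _ _ (by fun_prop) (by fun_prop) ?_).and ((l _ _ (by fun_prop) (by fun_prop) ?_).and
        ((l _ _ (by fun_prop) (by fun_prop) ?_).and ((l _ _ (by fun_prop) (by fun_prop) ?_).and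
        ((l _ _ (by fun_prop) (by fun_prop) ?_).and (l _ _ (by fun_prop) (by fun_prop) ?_)))))
      all_goals linarith
    obtain ⟨θ, h, hp⟩ :=
      ((key.filter_mono nhdsWithin_le_nhds).and (self_mem_nhdsWithin (s := Set.Ioi (0 : ℝ)))).exists
    exact ⟨θ, hp, h⟩
  set δ : ℝ := 1 / A with hδ
  have hδ0 : 0 < δ := by rw [hδ]; positivity
  have hδA : δ * A = 1 := by rw [hδ]; field_simp
  have hy0 : 0 ≤ y := by linarith
  have hz0 : 0 ≤ z := by rw [hz]; positivity
  have main := step2 (δ := δ) (ρ := δ * (r - θ)) (σ := δ * (s - θ)) (μ := δ * m) hj2 (by omega)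
    h2 hjj (by linarith) (by linarith [Real.sqrt_nonneg ((d : ℝ) - j)]) (mul_pos hδ0 p1)
    (mul_pos hδ0 p2) (mul_nonneg hδ0.le hm0) ?_ ?_ ?_ ?_ ?_ ?_ ?_
  · rw [hδ, one_div_one_div] at main; exact main
  · have h := mul_lt_mul_of_pos_left (show ((d : ℝ) - 1) * (r - θ) + 1 < A by
      have := mul_pos (show (0 : ℝ) < (d : ℝ) - 1 by linarith) hθ
      rw [hr, hA]; linarith) hδ0
    linarith
  · exact mul_le_of_le_one_right hδ0.le (by linarith)
  · have h := mul_lt_mul_of_pos_left (show ((d : ℝ) - 2) / 2 + y < A - 1 + (r - θ) by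
      rw [hA]; linarith) hδ0
    linarith
  · have h := mul_lt_mul_of_pos_left (show ((d : ℝ) - 2) / 2 + y < A - (s - θ) by
      rw [hA]; linarith) hδ0
    linarith
  · have h := mul_lt_mul_of_pos_left (show A - (s - θ) + (((d : ℝ) - 2) / 2 + y)
      < 2 * (A - 1 + (r - θ)) + m by rw [hA]; linarith) hδ0
    linarith
  · have h := mul_lt_mul_of_pos_left (show ((j : ℝ) - 1) * (A - (s - θ)) + (((d : ℝ) - j) / 2 + z)
      < (j : ℝ) * (A - 1 + (r - θ)) by rw [hA, hr]; linarith) hδ0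
    linear_combination h + hδA
  · have h := mul_lt_mul_of_pos_left (show (d : ℝ) * (s - θ) + (j : ℝ) * m < r - θ by
      have := mul_lt_mul_of_pos_right (show (1 : ℝ) < d by linarith) hθ
      linarith) hδ0
    linarith

/-- `n = O((D+1)^(d/2 + 8/√d))` for every `d ≥ 2`. -/
theorem bd_sharp : ∀ d : ℕ, 2 ≤ d → Bd d ((d : ℝ) / 2 + 8 / Real.sqrt d) := by
  intro d
  induction d using Nat.strong_induction_on with
  | _ d ih =>
  intro hd
  rcases lt_or_ge 16 (Real.sqrt d) with hbig | hsmall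
  · exact bd_big_step d hbig ih
  · refine (bd_asymptotic d hd).mono ?_
    have hs : 0 < Real.sqrt d := Real.sqrt_pos.2 (by exact_mod_cast (by omega : 0 < d))
    have e : 8 / Real.sqrt d = 1 / (2 * Real.sqrt d) + 15 / 2 / Real.sqrt d := by
      field_simp; ring
    have : (1 : ℝ) / 4 ≤ 15 / 2 / Real.sqrt d := by
      rw [le_div_iff₀ hs]; linarith
    linarith

end Vale.Agent.P054
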