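import Vale.Agent.P054.Generic

/-!
Distance sets, and transporting bounds to affine subspaces.
-/

namespace Vale.Agent.P054

open Module
open scoped InnerProductSpace

/-- The set of nonzero distances determined by `P`. -/
noncomputable def dvals {d : ℕ} (P : Finset (E d)) : Finset ℝ := P.offDiag.image fun z => dist z.1 z.2

/-- Every finite point set of `ℝ^d` with `D` distances has `O((D+1)^A)` points. -/
def Bd (d : ℕ) (A : ℝ) : Prop :=
  ∃ C : ℝ, 0 < C ∧ ∀ P : Finset (E d), (P.card : ℝ) ≤ C * ((dvals P).card + 1 : ℝ) ^ A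

lemma one_le_dvals_add {d : ℕ} (P : Finset (E d)) : (1 : ℝ) ≤ (dvals P).card + 1 := by
  have : (0 : ℝ) ≤ (dvals P).card := Nat.cast_nonneg _
  linarith

lemma bd_zero : Bd 0 0 := by
  refine ⟨1, one_pos, fun P => ?_⟩
  rw [Real.rpow_zero, mul_one]
  exact_mod_cast Finset.card_le_one_of_subsingleton P

lemma bd_one : Bd 1 1 := by
  refine ⟨1, one_pos, fun P => ?_⟩
  rw [Real.rpow_one, one_mul]
  rcases P.eq_empty_or_nonempty with h | h
  · simp [h]; positivity
  obtain ⟨p, hp, hmin⟩ := P.exists_min_image (fun x : E 1 => x 0) h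
  have hinj : Set.InjOn (fun x : E 1 => dist p x) P := by
    intro x hx y hy hxy
    have e : ∀ z : E 1, dist p z = |p 0 - z 0| := by
      intro z
      rw [EuclideanSpace.dist_eq]
      simp [Real.sqrt_sq_eq_abs, Real.dist_eq]
    simp only [e] at hxy
    rw [abs_of_nonpos (by linarith [hmin x hx]), abs_of_nonpos (by linarith [hmin y hy])] at hxy
    ext i
    fin_cases i
    exact neg_inj.1 hxy |> fun h => by simpa using (sub_right_inj.1 h)
  have hsub : P.image (fun x => dist p x) ⊆ insert 0 (dvals P) := by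
    intro v hv
    obtain ⟨x, hx, rfl⟩ := Finset.mem_image.1 hv
    by_cases hpx : p = x
    · simp [hpx]
    · exact Finset.mem_insert_of_mem (Finset.mem_image.2 ⟨(p, x), by simp [hp, hx, hpx], rfl⟩)
  have := (Finset.card_image_of_injOn hinj).symm.le.trans
    ((Finset.card_le_card hsub).trans (Finset.card_insert_le _ _))
  exact_mod_cast this

/-- A bound in dimension `e` applies inside every `e`-dimensional flat. -/
lemma bd_flat {d e : ℕ} {A C : ℝ} (hA : 0 ≤ A) (hC : 0 ≤ C)
    (hB : ∀ P : Finset (E e), (P.card : ℝ) ≤ C * ((dvals P).card + 1 : ℝ) ^ A)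
    (V : Submodule ℝ (E d)) (hV : finrank ℝ V = e) (P Q : Finset (E d)) (hQ : Q ⊆ P) (x0 : E d)
    (hflat : ∀ x ∈ Q, x - x0 ∈ V) :
    (Q.card : ℝ) ≤ C * ((dvals P).card + 1 : ℝ) ^ A := by
  classical
  let φ : V ≃ₗᵢ[ℝ] E e := ((stdOrthonormalBasis ℝ V).reindex (finCongr hV)).repr
  let f : E d → E e := fun x => if h : x - x0 ∈ V then φ ⟨x - x0, h⟩ else 0
  have hd : ∀ x ∈ Q, ∀ y ∈ Q, dist (f x) (f y) = dist x y := by
    intro x hx y hy
    simp only [f, dif_pos (hflat x hx), dif_pos (hflat y hy), LinearIsometryEquiv.dist_map]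
    rw [Subtype.dist_eq, dist_eq_norm, dist_eq_norm, sub_sub_sub_cancel_right]
  have hinj : Set.InjOn f Q := fun x hx y hy h => dist_eq_zero.1 (by rw [← hd x hx y hy, h, dist_self])
  have hsub : dvals (Q.image f) ⊆ dvals P := by
    intro v hv
    obtain ⟨⟨a, b⟩, hab, rfl⟩ := Finset.mem_image.1 hv
    obtain ⟨ha, hb, hne⟩ := Finset.mem_offDiag.1 hab
    obtain ⟨x, hx, rfl⟩ := Finset.mem_image.1 ha
    obtain ⟨y, hy, rfl⟩ := Finset.mem_image.1 hb
    exact Finset.mem_image.2 ⟨(x, y), Finset.mem_offDiag.2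
      ⟨hQ hx, hQ hy, fun h => hne (by simp only at h; rw [h])⟩, (hd x hx y hy).symm⟩
  have := hB (Q.image f)
  rw [Finset.card_image_of_injOn hinj] at this
  refine this.trans (mul_le_mul_of_nonneg_left (Real.rpow_le_rpow (by positivity) ?_ hA) hC)
  have := Finset.card_le_card hsub
  exact_mod_cast Nat.add_le_add_right this 1

/-- Two different affine hyperplanes `⟪x,a⟫ = 1`, `⟪x,b⟫ = 1` meet in a `(d-2)`-flat. -/
lemma finrank_orth_pair {d : ℕ} {a b x0 : E d} (hab : a ≠ b) (ha : ⟪x0, a⟫_ℝ = 1)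
    (hb : ⟪x0, b⟫_ℝ = 1) :
    finrank ℝ (Submodule.span ℝ (Set.range ![a, b]))ᗮ = d - 2 := by
  have hli : LinearIndependent ℝ ![a, b] := by
    rw [LinearIndependent.pair_iff' (fun h => by simp [h] at ha)]
    intro c hc
    rw [← hc, real_inner_smul_right, ha, mul_one] at hb
    exact hab (by rw [← hc, hb, one_smul])
  have h1 := Submodule.finrank_add_finrank_orthogonal (Submodule.span ℝ (Set.range ![a, b]))
  rw [finrank_span_eq_card hli, Fintype.card_fin, finrank_euclideanSpace_fin] at h1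
  omega

end Vale.Agent.P054
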