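import Vale.Agent.P054.Patterns
import Vale.Agent.P054.Flats

/-!
Few distances force many incidences between the points and rich bisector hyperplanes.
-/

namespace Vale.Agent.P054

open Module
open scoped InnerProductSpace

variable {d : ℕ}

/-- The vector `v` with `⟪x,v⟫ = 1` the bisector of `q, q'`. -/
noncomputable def bv (q q' : E d) : E d := (2 / (‖q'‖ ^ 2 - ‖q‖ ^ 2)) • (q' - q)

/-- Number of points of `P` on the hyperplane `⟪x,v⟫ = 1`. -/
noncomputable def rich (P : Finset (E d)) (v : E d) : ℕ := (P.filter fun x => ⟪x, v⟫_ℝ = 1).card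

/-- The `κ`-rich bisector hyperplanes. -/
noncomputable def richBis (P : Finset (E d)) (κ : ℝ) : Finset (E d) :=
  (P.offDiag.image fun z => bv z.1 z.2).filter fun v => κ ≤ (rich P v : ℝ)

/-- No two points are equidistant from the origin. -/
def DistinctNorms (P : Finset (E d)) : Prop := ∀ q ∈ P, ∀ q' ∈ P, q ≠ q' → ‖q‖ ≠ ‖q'‖

lemma sq_norm_sub_ne {q q' : E d} (h : ‖q‖ ≠ ‖q'‖) : ‖q'‖ ^ 2 - ‖q‖ ^ 2 ≠ 0 := by
  intro h0
  exact h ((sq_eq_sq₀ (norm_nonneg _) (norm_nonneg _)).1 (by linarith))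

lemma mem_bisector {q q' : E d} (h : ‖q‖ ≠ ‖q'‖) (x : E d) :
    ‖q - x‖ ^ 2 = ‖q' - x‖ ^ 2 ↔ ⟪x, bv q q'⟫_ℝ = 1 := by
  have h0 := sq_norm_sub_ne h
  rw [bv, real_inner_smul_right, inner_sub_right, norm_sub_sq_real, norm_sub_sq_real,
    real_inner_comm x q, real_inner_comm x q', div_mul_eq_mul_div, div_eq_one_iff_eq h0]
  constructor <;> intro hh <;> linarith

lemma bv_comm (q q' : E d) : bv q q' = bv q' q := by
  rw [bv, bv, ← neg_sub (‖q‖ ^ 2), div_neg, neg_smul, ← smul_neg, neg_sub]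

lemma bv_opposite {q q' : E d} (h : ‖q‖ ≠ ‖q'‖) :
    ⟪q, bv q q'⟫_ℝ + ⟪q', bv q q'⟫_ℝ = 2 ∧ ⟪q, bv q q'⟫_ℝ ≠ 1 := by
  have h0 := sq_norm_sub_ne h
  have e : ⟪q, bv q q'⟫_ℝ + ⟪q', bv q q'⟫_ℝ = 2 := by
    rw [bv, real_inner_smul_right, real_inner_smul_right, inner_sub_right, inner_sub_right,
      real_inner_self_eq_norm_sq, real_inner_self_eq_norm_sq, real_inner_comm q q']
    field_simp; ring
  refine ⟨e, fun h1 => ?_⟩
  have h2 := (mem_bisector h q).2 h1
  rw [sub_self, norm_zero, zero_pow two_ne_zero] at h2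
  have h3 : q' = q := sub_eq_zero.1 (norm_eq_zero.1 ((pow_eq_zero_iff two_ne_zero).1 h2.symm))
  exact h (by rw [h3])

/-- The reflection of `q` in the bisector determines the partner. -/
lemma bv_injective {q q1 q2 : E d} (h1 : ‖q‖ ≠ ‖q1‖) (h2 : ‖q‖ ≠ ‖q2‖)
    (h : bv q q1 = bv q q2) : q1 = q2 := by
  have e1 := (bv_opposite h1).1
  have e2 := (bv_opposite h2).1
  set v := bv q q1 with hv
  rw [← h] at e2
  have d1 := sq_norm_sub_ne h1
  have d2 := sq_norm_sub_ne h2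
  have r1 : q1 - q = ((‖q1‖ ^ 2 - ‖q‖ ^ 2) / 2) • v := by
    rw [hv, bv, smul_smul, show (‖q1‖ ^ 2 - ‖q‖ ^ 2) / 2 * (2 / (‖q1‖ ^ 2 - ‖q‖ ^ 2)) = 1 by
      field_simp, one_smul]
  have r2 : q2 - q = ((‖q2‖ ^ 2 - ‖q‖ ^ 2) / 2) • v := by
    rw [h, bv, smul_smul, show (‖q2‖ ^ 2 - ‖q‖ ^ 2) / 2 * (2 / (‖q2‖ ^ 2 - ‖q‖ ^ 2)) = 1 by
      field_simp, one_smul]
  have hv0 : v ≠ 0 := by
    intro hv0
    rw [hv0] at e1
    simp at e1
  have i1 := congrArg (fun z => ⟪z, v⟫_ℝ) r1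
  have i2 := congrArg (fun z => ⟪z, v⟫_ℝ) r2
  simp only [inner_sub_left, real_inner_smul_left] at i1 i2
  have hvv : ⟪v, v⟫_ℝ ≠ 0 := fun h0 => hv0 (inner_self_eq_zero.1 h0)
  have hc : (‖q1‖ ^ 2 - ‖q‖ ^ 2) / 2 = (‖q2‖ ^ 2 - ‖q‖ ^ 2) / 2 :=
    mul_right_cancel₀ hvv (by linarith)
  rw [← hc, ← r1] at r2
  exact (sub_left_inj.1 r2).symm

open scoped Classical in
/-- The thresholds: squared distances and `0`. -/
noncomputable def thr (P : Finset (E d)) : Finset ℝ := insert 0 ((dvals P).image fun t => t ^ 2)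

lemma card_thr_le (P : Finset (E d)) : (thr P).card ≤ (dvals P).card + 1 := by
  classical
  exact (Finset.card_insert_le _ _).trans (Nat.add_le_add_right Finset.card_image_le 1)

lemma mem_thr {P : Finset (E d)} {x q : E d} (hx : x ∈ P) (hq : q ∈ P) :
    ‖q - x‖ ^ 2 ∈ thr P := by
  classical
  by_cases h : q = x
  · simp [thr, h]
  · exact Finset.mem_insert_of_mem (Finset.mem_image.2 ⟨dist q x,
      Finset.mem_image.2 ⟨(q, x), by simp [hq, hx, h], rfl⟩, by simp [dist_eq_norm]⟩)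

/-- Index of a squared distance among the thresholds. -/
noncomputable def idx (P : Finset (E d)) (x q : E d) : ℕ :=
  ((thr P).filter fun τ => τ < ‖q - x‖ ^ 2).card

lemma idx_eq_iff {P : Finset (E d)} {x q q' : E d} (hx : x ∈ P) (hq : q ∈ P) (hq' : q' ∈ P) :
    idx P x q = idx P x q' ↔ ‖q - x‖ ^ 2 = ‖q' - x‖ ^ 2 := by
  refine ⟨fun h => ?_, fun h => by rw [idx, idx, h]⟩
  by_contra hne
  have key : ∀ a b : ℝ, a ∈ thr P → a < b →
      ((thr P).filter fun τ => τ < a).card < ((thr P).filter fun τ => τ < b).card := by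
    intro a b ha hab
    refine Finset.card_lt_card ((Finset.ssubset_iff_of_subset ?_).2 ⟨a, ?_, ?_⟩)
    · intro τ hτ
      simp only [Finset.mem_filter] at hτ ⊢
      exact ⟨hτ.1, hτ.2.trans hab⟩
    · simp [ha, hab]
    · simp
  rcases lt_or_gt_of_ne hne with hh | hh
  · exact (key _ _ (mem_thr hx hq) hh).ne h
  · exact (key _ _ (mem_thr hx hq') hh).ne' h

/-- Few separating spheres keep the indices close. -/
lemma idx_diff_le (P : Finset (E d)) (x q p : E d) :
    |(idx P x q : ℝ) - idx P x p| ≤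
      (((thr P).filter fun τ => decide (‖q - x‖ ^ 2 ≤ τ) ≠ decide (‖p - x‖ ^ 2 ≤ τ)).card : ℝ) := by
  classical
  set S := (thr P).filter fun τ => decide (‖q - x‖ ^ 2 ≤ τ) ≠ decide (‖p - x‖ ^ 2 ≤ τ)
  have key : ∀ a b : E d, (∀ τ ∈ thr P, τ < ‖a - x‖ ^ 2 → ¬ τ < ‖b - x‖ ^ 2 → τ ∈ S) →
      idx P x a ≤ idx P x b + S.card := by
    intro a b h
    refine (Finset.card_le_card (t := ((thr P).filter fun τ => τ < ‖b - x‖ ^ 2) ∪ S) ?_).trans
      (Finset.card_union_le _ _)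
    intro τ hτ
    rw [Finset.mem_filter] at hτ
    by_cases hb : τ < ‖b - x‖ ^ 2
    · exact Finset.mem_union_left _ (Finset.mem_filter.2 ⟨hτ.1, hb⟩)
    · exact Finset.mem_union_right _ (h τ hτ.1 hτ.2 hb)
  have h1 := key q p fun τ hτ h1 h2 => by
    simp only [S, Finset.mem_filter]
    refine ⟨hτ, ?_⟩
    rw [decide_eq_false (not_le.2 h1), decide_eq_true (not_lt.1 h2)]
    exact Bool.false_ne_true
  have h2 := key p q fun τ hτ h1 h2 => by
    simp only [S, Finset.mem_filter]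
    refine ⟨hτ, ?_⟩
    rw [decide_eq_false (not_le.2 h1), decide_eq_true (not_lt.1 h2)]
    exact Bool.noConfusion
  have h1' : (idx P x q : ℝ) ≤ idx P x p + S.card := by exact_mod_cast h1
  have h2' : (idx P x p : ℝ) ≤ idx P x q + S.card := by exact_mod_cast h2
  rw [abs_le]; constructor <;> linarith

open scoped Classical in
/-- Packing: a big class whose pairs are separated by little weight. -/
lemma packing {ι : Type*} [Fintype ι] (a : ι → ℝ) (b : ι → E d) (c : ι → ℝ) (w : ι → ℝ)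
    (hw : ∀ i, 0 ≤ w i) (hW : 0 < ∑ i, w i) (P : Finset (E d)) (hP : P.Nonempty) (s : ℕ) (ε : ℝ)
    (hs : (P.card : ℝ) ^ 2 * (1 - ε) ^ s < 1) (hε : ε ≤ 1) :
    ∃ K ⊆ P, P.card ≤ 2 * 2 ^ d * (s + 2) ^ d * K.card ∧ K.Nonempty ∧ ∀ p ∈ K, ∀ q ∈ K,
      (∑ i, if decide (quad (a i) (b i) (c i) q ≤ 0) ≠ decide (quad (a i) (b i) (c i) p ≤ 0)
        then w i else 0) ≤ ε * ∑ i, w i := by
  let σ : ι → E d → Bool := fun i y => decide (quad (a i) (b i) (c i) y ≤ 0)
  let B := (P ×ˢ P).filter fun z => ε * ∑ i, w i < ∑ i, if σ i z.2 ≠ σ i z.1 then w i else 0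
  have hB : (B.card : ℝ) * (1 - ε) ^ s < 1 := by
    refine lt_of_le_of_lt (mul_le_mul_of_nonneg_right ?_ (pow_nonneg (by linarith) s)) hs
    have := (Finset.card_filter_le _ _ : B.card ≤ _).trans_eq (Finset.card_product P P)
    rw [sq]
    exact_mod_cast this
  obtain ⟨S, hS⟩ := exists_sample w hw hW B (fun i z => σ i z.2 ≠ σ i z.1) ε s
    (fun z hz => (Finset.mem_filter.1 hz).2) hB
  let key : E d → (Fin s → Bool) := fun y j => σ (S j) y
  have himg : (P.image key).card ≤ 2 * 2 ^ d * (s + 2) ^ d :=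
    pattern_bound (fun j => a (S j)) (fun j => b (S j)) (fun j => c (S j)) P
  have hmaps : ∀ x ∈ P, key x ∈ P.image key := fun x hx => Finset.mem_image_of_mem _ hx
  obtain ⟨π, hπ, hmax⟩ := (P.image key).exists_max_image
    (fun π => (P.filter fun x => key x = π).card) (hP.image _)
  refine ⟨P.filter fun x => key x = π, Finset.filter_subset _ _, ?_, ?_, ?_⟩
  · rw [Finset.card_eq_sum_card_fiberwise hmaps]
    exact (Finset.sum_le_card_nsmul _ _ _ fun k hk => hmax k hk).trans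
      (Nat.mul_le_mul_right _ himg)
  · obtain ⟨x, hx, rfl⟩ := Finset.mem_image.1 hπ
    exact ⟨x, by simp [hx]⟩
  · intro p hp q hq
    rw [Finset.mem_filter] at hp hq
    by_contra hc
    obtain ⟨j, hj⟩ := hS (p, q) (Finset.mem_filter.2
      ⟨Finset.mem_product.2 ⟨hp.1, hq.1⟩, not_le.1 hc⟩)
    exact hj (congrFun (hq.2.trans hp.2.symm) j)

/-- Collisions inside a set of points whose indices lie in windows of radius `V`. -/
lemma collisions_ge (P K : Finset (E d)) (p : E d) (V : ℕ) (hP : P.Nonempty)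
    (hgood : ∑ x ∈ P, ((K.filter fun q => (V : ℝ) < |(idx P x q : ℝ) - idx P x p|).card : ℝ)
      ≤ (P.card : ℝ) * K.card / 4)
    (hm : 4 * (2 * (V : ℝ) + 1) ≤ K.card) :
    (P.card : ℝ) * (K.card : ℝ) ^ 2 / (4 * (2 * V + 1))
      ≤ ∑ x ∈ P, ((K.offDiag.filter fun z => idx P x z.1 = idx P x z.2).card : ℝ) := by
  classical
  have hV : (0 : ℝ) < 2 * V + 1 := by positivity
  let c : E d → ℝ := fun x =>
    ((K.filter fun q => ¬ (V : ℝ) < |(idx P x q : ℝ) - idx P x p|).card : ℝ)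
  have hc0 : ∀ x, 0 ≤ c x := fun x => Nat.cast_nonneg _
  have hcK : ∀ x, c x ≤ K.card := fun x => Nat.cast_le.2 (Finset.card_filter_le _ _)
  have hcsum : (P.card : ℝ) * K.card * (3 / 4) ≤ ∑ x ∈ P, c x := by
    have : ∑ x ∈ P, c x + ∑ x ∈ P,
        ((K.filter fun q => (V : ℝ) < |(idx P x q : ℝ) - idx P x p|).card : ℝ)
        = (P.card : ℝ) * K.card := by
      rw [← Finset.sum_add_distrib]
      refine (Finset.sum_congr rfl fun x _ => ?_).trans
        ((Finset.sum_const _).trans (nsmul_eq_mul _ _))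
      simp only [c]
      rw [← Nat.cast_add, add_comm]
      exact_mod_cast K.card_filter_add_card_filter_not _
    linarith
  have hx : ∀ x ∈ P, c x ^ 2 / (2 * V + 1) - c x
      ≤ ((K.offDiag.filter fun z => idx P x z.1 = idx P x z.2).card : ℝ) := by
    intro x _
    set Kx := K.filter fun q => ¬ (V : ℝ) < |(idx P x q : ℝ) - idx P x p| with hKx
    let img := Kx.image fun q => idx P x q
    have himg : img.card ≤ 2 * V + 1 := by
      refine (Finset.card_le_card (t := Finset.Icc (idx P x p - V) (idx P x p + V)) ?_).trans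
        (by rw [Nat.card_Icc]; omega)
      intro k hk
      obtain ⟨q, hq, rfl⟩ := Finset.mem_image.1 hk
      have h := abs_le.1 (not_lt.1 (Finset.mem_filter.1 hq).2)
      have h1 : (idx P x q : ℝ) ≤ (idx P x p + V : ℕ) := by push_cast; linarith [h.2]
      have h2 : (idx P x p : ℝ) ≤ (idx P x q + V : ℕ) := by push_cast; linarith [h.1]
      have h1' := Nat.cast_le.1 h1
      have h2' := Nat.cast_le.1 h2
      exact Finset.mem_Icc.2 ⟨by omega, h1'⟩
    let f : ℕ → ℝ := fun k => ((Kx.filter fun q => idx P x q = k).card : ℝ)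
    have hf : ∑ k ∈ img, f k = c x := by
      simp only [f, c, ← hKx]
      rw [← Nat.cast_sum, ← Finset.card_eq_sum_card_fiberwise
        (fun q hq => Finset.mem_image_of_mem _ hq)]
    have hsq : ∑ k ∈ img, f k ^ 2 = c x
        + ((Kx.offDiag.filter fun z => idx P x z.1 = idx P x z.2).card : ℝ) := by
      have e : ∑ k ∈ img, f k ^ 2
          = (((Kx ×ˢ Kx).filter fun z => idx P x z.1 = idx P x z.2).card : ℝ) := by
        rw [Finset.card_eq_sum_card_fiberwise (f := fun z => idx P x z.1) (t := img)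
          (fun z hz => Finset.mem_image_of_mem _
            (Finset.mem_product.1 (Finset.mem_filter.1 hz).1).1), Nat.cast_sum]
        refine Finset.sum_congr rfl fun k _ => ?_
        simp only [f]
        rw [sq, ← Nat.cast_mul, ← Finset.card_product]
        congr 2
        ext z
        simp only [Finset.mem_product, Finset.mem_filter]
        constructor
        · rintro ⟨⟨a1, a2⟩, b1, b2⟩; exact ⟨⟨⟨a1, b1⟩, a2.trans b2.symm⟩, a2⟩
        · rintro ⟨⟨⟨a1, b1⟩, h⟩, a2⟩; exact ⟨⟨a1, a2⟩, b1, h ▸ a2⟩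
      rw [e, ← Kx.diag_union_offDiag, Finset.filter_union,
        Finset.card_union_of_disjoint (Finset.disjoint_filter_filter Kx.disjoint_diag_offDiag),
        Nat.cast_add]
      congr 2
      rw [Finset.filter_true_of_mem (fun z hz => by rw [(Finset.mem_diag.1 hz).2]), Finset.diag_card]
    have hsub : ((Kx.offDiag.filter fun z => idx P x z.1 = idx P x z.2).card : ℝ)
        ≤ ((K.offDiag.filter fun z => idx P x z.1 = idx P x z.2).card : ℝ) :=
      Nat.cast_le.2 (Finset.card_le_card (Finset.filter_subset_filter _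
        (Finset.offDiag_mono (Finset.filter_subset _ _))))
    have hcs := sq_sum_le_card_mul_sum_sq (s := img) (f := f)
    rw [hf] at hcs
    have hi : (img.card : ℝ) ≤ 2 * V + 1 := by exact_mod_cast himg
    have hfs : 0 ≤ ∑ k ∈ img, f k ^ 2 := Finset.sum_nonneg fun k _ => sq_nonneg _
    have : c x ^ 2 / (2 * V + 1) ≤ ∑ k ∈ img, f k ^ 2 := by
      rw [div_le_iff₀ hV]
      nlinarith
    linarith
  have hn : (0 : ℝ) < P.card := by exact_mod_cast hP.card_pos
  have h2 := sq_sum_le_card_mul_sum_sq (s := P) (f := c)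
  have h3 : ∑ x ∈ P, c x ≤ (P.card : ℝ) * K.card := by
    refine (Finset.sum_le_sum fun x _ => hcK x).trans_eq ?_
    simp
  have h4 : (P.card : ℝ) * (K.card : ℝ) ^ 2 * (9 / 16) ≤ ∑ x ∈ P, c x ^ 2 := by
    have h5 : ((P.card : ℝ) * K.card * (3 / 4)) ^ 2 ≤ (∑ x ∈ P, c x) ^ 2 :=
      pow_le_pow_left₀ (by positivity) hcsum 2
    refine le_of_mul_le_mul_left ?_ hn
    calc (P.card : ℝ) * ((P.card : ℝ) * (K.card : ℝ) ^ 2 * (9 / 16))
        = ((P.card : ℝ) * K.card * (3 / 4)) ^ 2 := by ring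
      _ ≤ (∑ x ∈ P, c x) ^ 2 := h5
      _ ≤ _ := h2
  refine le_trans ?_ (Finset.sum_le_sum hx)
  rw [Finset.sum_sub_distrib, ← Finset.sum_div]
  have h6 : (∑ x ∈ P, c x) ≤ (P.card : ℝ) * (K.card : ℝ) ^ 2 / (4 * (2 * V + 1)) := by
    refine h3.trans ?_
    rw [le_div_iff₀ (by positivity)]
    have := mul_le_mul_of_nonneg_left hm (by positivity : (0 : ℝ) ≤ (P.card : ℝ) * K.card)
    linarith
  have h7 : (P.card : ℝ) * (K.card : ℝ) ^ 2 / (2 * V + 1) * (9 / 16)
      ≤ (∑ x ∈ P, c x ^ 2) / (2 * V + 1) := by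
    rw [div_mul_eq_mul_div]
    exact (div_le_div_iff_of_pos_right hV).2 h4
  have h8 : (P.card : ℝ) * (K.card : ℝ) ^ 2 / (4 * (2 * V + 1))
      = (P.card : ℝ) * (K.card : ℝ) ^ 2 / (2 * V + 1) / 4 := by
    rw [div_div, mul_comm (2 * (V : ℝ) + 1) 4]
  have h9 : 0 ≤ (P.card : ℝ) * (K.card : ℝ) ^ 2 / (2 * V + 1) := by positivity
  linarith

set_option maxHeartbeats 1000000 in
open scoped Classical in
/-- Few distances force many incidences with `κ`-rich bisectors. -/
theorem forced_incidences (P : Finset (E d)) (hP : P.Nonempty) (hN : DistinctNorms P) (s V : ℕ)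
    (ε : ℝ) (hε0 : 0 < ε) (hε1 : ε ≤ 1) (hs : (P.card : ℝ) ^ 2 * (1 - ε) ^ s < 1)
    (hV : 8 * ε * ((dvals P).card + 1) ≤ (V : ℝ) + 1)
    (hbig : 4 * (2 * (V : ℝ) + 1) * (2 * 2 ^ d * ((s : ℝ) + 2) ^ d) ≤ P.card) :
    (P.card : ℝ) / (32 * ε) - 1 ≤
      ∑ v ∈ richBis P ((P.card : ℝ) / (8 * (2 * V + 1))), (rich P v : ℝ) := by
  set κ : ℝ := (P.card : ℝ) / (8 * (2 * V + 1)) with hκ
  set H := richBis P κ
  set n : ℝ := (P.card : ℝ) with hn
  set D : ℝ := (dvals P).card + 1 with hD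
  set I : ℝ := ∑ v ∈ H, (rich P v : ℝ) with hI
  have hnpos : 0 < n := by rw [hn]; exact_mod_cast hP.card_pos
  have hDpos : 0 < D := by rw [hD]; positivity
  have hI0 : 0 ≤ I := Finset.sum_nonneg fun v _ => Nat.cast_nonneg _
  let a : (↥P × ↥(thr P)) ⊕ ↥H → ℝ := Sum.elim (fun _ => 1) (fun _ => 0)
  let b : (↥P × ↥(thr P)) ⊕ ↥H → E d := Sum.elim (fun i => (-2 : ℝ) • i.1.1) (fun v => v.1)
  let c : (↥P × ↥(thr P)) ⊕ ↥H → ℝ := Sum.elim (fun i => ‖i.1.1‖ ^ 2 - i.2.1) (fun _ => -1)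
  let w : (↥P × ↥(thr P)) ⊕ ↥H → ℝ :=
    Sum.elim (fun _ => 1 / (n * D)) (fun v => (rich P v.1 : ℝ) / (I + 1))
  have hw : ∀ i, 0 ≤ w i := by rintro (i | i) <;> simp only [w, Sum.elim_inl, Sum.elim_inr] <;> positivity
  have hW2 : ∑ i, w i ≤ 2 := by
    rw [Fintype.sum_sum_type]
    simp only [w, Sum.elim_inl, Sum.elim_inr, Finset.sum_const, Finset.card_univ,
      Fintype.card_prod, Fintype.card_coe, nsmul_eq_mul, Nat.cast_mul, ← Finset.sum_div]
    rw [Finset.sum_coe_sort H (fun v => (rich P v : ℝ)), ← hI, ← hn]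
    have h1 : n * ((thr P).card : ℝ) * (1 / (n * D)) ≤ 1 := by
      rw [mul_one_div, div_le_one (by positivity)]
      exact mul_le_mul_of_nonneg_left (by rw [hD]; exact_mod_cast card_thr_le P) hnpos.le
    have h2 : I / (I + 1) ≤ 1 := by rw [div_le_one (by linarith)]; linarith
    linarith
  have hW0 : 0 < ∑ i, w i := by
    obtain ⟨x, hx⟩ := hP
    refine Finset.sum_pos' (fun i _ => hw i) ⟨Sum.inl (⟨x, hx⟩, ⟨0, by simp [thr]⟩),
      Finset.mem_univ _, ?_⟩
    simp only [w, Sum.elim_inl]; positivity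
  obtain ⟨K, hKP, hKcard, ⟨p, hp⟩, hsep⟩ := packing a b c w hw hW0 P hP s ε hs hε1
  set m : ℝ := (K.card : ℝ) with hm
  have hm4 : 4 * (2 * (V : ℝ) + 1) ≤ m := by
    have h : n ≤ 2 * 2 ^ d * ((s : ℝ) + 2) ^ d * m := by rw [hn, hm]; exact_mod_cast hKcard
    have hΦ : (0 : ℝ) < 2 * 2 ^ d * ((s : ℝ) + 2) ^ d := by positivity
    refine le_of_mul_le_mul_right ?_ hΦ
    linarith
  -- per point, spheres
  have hsph : ∀ q ∈ K, ∑ x ∈ P, |(idx P x q : ℝ) - idx P x p| ≤ 2 * ε * (n * D) := by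
    intro q hq
    have h := hsep p hp q hq
    rw [Fintype.sum_sum_type] at h
    have h' := (le_add_of_nonneg_right (Finset.sum_nonneg fun i _ => by
      split_ifs <;> first | exact hw _ | exact le_rfl)).trans (h.trans
      (mul_le_mul_of_nonneg_left hW2 hε0.le))
    have hval : ∀ (i : ↥P × ↥(thr P)) (y : E d),
        decide (quad (a (Sum.inl i)) (b (Sum.inl i)) (c (Sum.inl i)) y ≤ 0)
          = decide (‖y - i.1.1‖ ^ 2 ≤ i.2.1) := by
      intro i y
      congr 1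
      simp only [quad, a, b, c, Sum.elim_inl, real_inner_smul_left]
      rw [norm_sub_sq_real, real_inner_comm y i.1.1]
      exact propext ⟨fun h => by linarith, fun h => by linarith⟩
    simp only [hval, w, Sum.elim_inl] at h'
    rw [← Finset.sum_filter, Finset.sum_const, nsmul_eq_mul] at h'
    have hcard : ∑ x ∈ P, ((((thr P).filter fun τ =>
        decide (‖q - x‖ ^ 2 ≤ τ) ≠ decide (‖p - x‖ ^ 2 ≤ τ)).card : ℝ))
        = (((Finset.univ : Finset (↥P × ↥(thr P))).filter fun i =>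
            decide (‖q - i.1.1‖ ^ 2 ≤ i.2.1) ≠ decide (‖p - i.1.1‖ ^ 2 ≤ i.2.1)).card : ℝ) := by
      simp only [Finset.card_filter, Nat.cast_sum, Fintype.sum_prod_type]
      rw [← Finset.sum_coe_sort P]
      refine Finset.sum_congr rfl fun x _ => ?_
      rw [← Finset.sum_coe_sort (thr P)]
    refine (Finset.sum_le_sum fun x _ => idx_diff_le P x q p).trans ?_
    rw [hcard]
    rw [mul_one_div, div_le_iff₀ (by positivity)] at h'
    linarith
  -- hyperplanes
  have hhyp : ∀ q ∈ K, ∑ v ∈ H, (if decide (⟪q, v⟫_ℝ ≤ 1) ≠ decide (⟪p, v⟫_ℝ ≤ 1)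
      then (rich P v : ℝ) else 0) ≤ 2 * ε * (I + 1) := by
    intro q hq
    have h := hsep p hp q hq
    rw [Fintype.sum_sum_type] at h
    have h' := (le_add_of_nonneg_left (Finset.sum_nonneg fun i _ => by
      split_ifs <;> first | exact hw _ | exact le_rfl)).trans (h.trans
      (mul_le_mul_of_nonneg_left hW2 hε0.le))
    have hval : ∀ (v : ↥H) (y : E d),
        decide (quad (a (Sum.inr v)) (b (Sum.inr v)) (c (Sum.inr v)) y ≤ 0)
          = decide (⟪y, v.1⟫_ℝ ≤ 1) := by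
      intro v y
      congr 1
      simp only [quad, a, b, c, Sum.elim_inr, zero_mul, zero_add]
      rw [real_inner_comm y v.1]
      exact propext ⟨fun h => by linarith, fun h => by linarith⟩
    simp only [hval, w, Sum.elim_inr] at h'
    rw [← Finset.sum_coe_sort H (fun v => if decide (⟪q, v⟫_ℝ ≤ 1) ≠ decide (⟪p, v⟫_ℝ ≤ 1)
      then (rich P v : ℝ) else 0)]
    have e : (∑ v : ↥H, if decide (⟪q, v.1⟫_ℝ ≤ 1) ≠ decide (⟪p, v.1⟫_ℝ ≤ 1)
        then (rich P v.1 : ℝ) / (I + 1) else 0)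
        = (∑ v : ↥H, if decide (⟪q, v.1⟫_ℝ ≤ 1) ≠ decide (⟪p, v.1⟫_ℝ ≤ 1)
        then (rich P v.1 : ℝ) else 0) / (I + 1) := by
      rw [Finset.sum_div]
      exact Finset.sum_congr rfl fun v _ => by split_ifs <;> simp
    rw [e, div_le_iff₀ (by linarith)] at h'
    linarith
  -- the windows
  have hgood : ∑ x ∈ P, ((K.filter fun q => (V : ℝ) < |(idx P x q : ℝ) - idx P x p|).card : ℝ)
      ≤ n * m / 4 := by
    have h1 : ((V : ℝ) + 1) * ∑ x ∈ P,
        ((K.filter fun q => (V : ℝ) < |(idx P x q : ℝ) - idx P x p|).card : ℝ)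
        ≤ ∑ q ∈ K, ∑ x ∈ P, |(idx P x q : ℝ) - idx P x p| := by
      rw [Finset.sum_comm, Finset.mul_sum]
      refine Finset.sum_le_sum fun x _ => ?_
      rw [Finset.card_filter, Nat.cast_sum, Finset.mul_sum]
      refine Finset.sum_le_sum fun q _ => ?_
      split_ifs with hlt
      · have e : |(idx P x q : ℝ) - idx P x p| = ((|(idx P x q : ℤ) - idx P x p| : ℤ) : ℝ) := by
          push_cast; rfl
        rw [e] at hlt ⊢
        have : (V : ℤ) + 1 ≤ |(idx P x q : ℤ) - idx P x p| := by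
          have : (V : ℤ) < |(idx P x q : ℤ) - idx P x p| := by exact_mod_cast hlt
          omega
        have := (Int.cast_le (R := ℝ)).2 this
        push_cast at this ⊢
        linarith
      · simp
    have h2 := h1.trans (Finset.sum_le_sum hsph)
    rw [Finset.sum_const, nsmul_eq_mul, ← hm] at h2
    refine le_of_mul_le_mul_left (h2.trans ?_) (by positivity : (0 : ℝ) < (V : ℝ) + 1)
    have := mul_le_mul_of_nonneg_left hV (by positivity : (0 : ℝ) ≤ n * m)
    linarith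
  have hcol := collisions_ge P K p V hP hgood hm4
  have hne : ∀ z ∈ K.offDiag, ‖z.1‖ ≠ ‖z.2‖ := fun z hz =>
    hN _ (hKP (Finset.mem_offDiag.1 hz).1) _ (hKP (Finset.mem_offDiag.1 hz).2.1)
      (Finset.mem_offDiag.1 hz).2.2
  have hswap : ∑ x ∈ P, ((K.offDiag.filter fun z => idx P x z.1 = idx P x z.2).card : ℝ)
      = ∑ z ∈ K.offDiag, (rich P (bv z.1 z.2) : ℝ) := by
    simp only [rich, Finset.card_filter, Nat.cast_sum]
    rw [Finset.sum_comm]
    refine Finset.sum_congr rfl fun z hz => Finset.sum_congr rfl fun x hx => ?_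
    have hz' := Finset.mem_offDiag.1 hz
    congr 1
    exact if_congr ((idx_eq_iff hx (hKP hz'.1) (hKP hz'.2.1)).trans
      (mem_bisector (hne z hz) x)) rfl rfl
  rw [hswap] at hcol
  set hi := K.offDiag.filter fun z => κ ≤ (rich P (bv z.1 z.2) : ℝ) with hhi
  have hlow : ∑ z ∈ K.offDiag, (rich P (bv z.1 z.2) : ℝ)
      ≤ m * m * κ + ∑ z ∈ hi, (rich P (bv z.1 z.2) : ℝ) := by
    rw [← Finset.sum_filter_add_sum_filter_not K.offDiag
      (fun z => κ ≤ (rich P (bv z.1 z.2) : ℝ)), add_comm, ← hhi]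
    refine add_le_add_left ((Finset.sum_le_card_nsmul _ _ κ fun z hz =>
      (not_le.1 (Finset.mem_filter.1 hz).2).le).trans ?_) _
    rw [nsmul_eq_mul]
    refine mul_le_mul_of_nonneg_right ?_ (by positivity)
    rw [hm, ← Nat.cast_mul, ← Finset.card_product]
    exact Nat.cast_le.2 (Finset.card_le_card ((Finset.filter_subset _ _).trans
      (fun z hz => Finset.mem_product.2
        ⟨(Finset.mem_offDiag.1 hz).1, (Finset.mem_offDiag.1 hz).2.1⟩)))
  -- every rich pair pays for a separation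
  let g : E d × E d → E d → ℝ := fun z y =>
    if decide (⟪y, bv z.1 z.2⟫_ℝ ≤ 1) ≠ decide (⟪p, bv z.1 z.2⟫_ℝ ≤ 1)
    then (rich P (bv z.1 z.2) : ℝ) else 0
  have hpay : ∀ z ∈ hi, (rich P (bv z.1 z.2) : ℝ) ≤ g z z.1 + g z z.2 := by
    intro z hz
    obtain ⟨e, hne1⟩ := bv_opposite (hne z (Finset.mem_filter.1 hz).1)
    have hdiff : decide (⟪z.1, bv z.1 z.2⟫_ℝ ≤ 1) ≠ decide (⟪z.2, bv z.1 z.2⟫_ℝ ≤ 1) := by
      rcases lt_or_gt_of_ne hne1 with h | h
      · rw [decide_eq_true h.le, decide_eq_false (by intro h'; linarith)]; simp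
      · rw [decide_eq_false (not_le.2 h), decide_eq_true (by linarith)]; simp
    simp only [g]
    by_cases h1 : decide (⟪z.1, bv z.1 z.2⟫_ℝ ≤ 1) ≠ decide (⟪p, bv z.1 z.2⟫_ℝ ≤ 1)
    · rw [if_pos h1]; split_ifs <;> simp
    · rw [if_neg h1, if_pos (fun h2 => hdiff ((not_ne_iff.1 h1).trans h2.symm)), zero_add]
  have hone : ∑ z ∈ hi, g z z.1 ≤ m * (2 * ε * (I + 1)) := by
    rw [← Finset.sum_fiberwise_of_maps_to (g := fun z : E d × E d => z.1) (t := K)
      (fun z hz => (Finset.mem_offDiag.1 (Finset.mem_filter.1 hz).1).1)]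
    refine (Finset.sum_le_card_nsmul _ _ _ fun q hq => ?_).trans_eq (by rw [nsmul_eq_mul])
    have hinj : Set.InjOn (fun z : E d × E d => bv z.1 z.2) (hi.filter fun z => z.1 = q) := by
      intro z hz z' hz' h
      simp only [Finset.coe_filter, Set.mem_ofPred_eq] at hz hz'
      have n1 := hne z (Finset.mem_filter.1 hz.1).1
      have n2 := hne z' (Finset.mem_filter.1 hz'.1).1
      rw [hz.2] at n1
      rw [hz'.2] at n2
      simp only [hz.2, hz'.2] at h
      exact Prod.ext (hz.2.trans hz'.2.symm) (bv_injective n1 n2 h)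
    refine le_trans ?_ (hhyp q hq)
    have e : ∑ z ∈ hi.filter (fun z => z.1 = q), g z z.1 =
        ∑ v ∈ (hi.filter fun z => z.1 = q).image (fun z => bv z.1 z.2),
          (if decide (⟪q, v⟫_ℝ ≤ 1) ≠ decide (⟪p, v⟫_ℝ ≤ 1) then (rich P v : ℝ) else 0) := by
      rw [Finset.sum_image hinj]
      refine Finset.sum_congr rfl fun z hz => ?_
      simp only [g, (Finset.mem_filter.1 hz).2]
    rw [e]
    refine Finset.sum_le_sum_of_subset_of_nonneg ?_ (fun v _ _ => by split_ifs <;> simp)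
    intro v hv
    obtain ⟨z, hz, rfl⟩ := Finset.mem_image.1 hv
    have hz1 := Finset.mem_filter.1 (Finset.mem_filter.1 hz).1
    exact Finset.mem_filter.2 ⟨Finset.mem_image.2 ⟨z, Finset.offDiag_mono hKP hz1.1, rfl⟩, hz1.2⟩
  have htwo : ∑ z ∈ hi, g z z.2 ≤ m * (2 * ε * (I + 1)) := by
    refine le_trans (le_of_eq ?_) hone
    refine Finset.sum_equiv (Equiv.prodComm _ _) (fun z => ?_) (fun z _ => ?_)
    · simp only [hhi, Finset.mem_filter, Finset.mem_offDiag, Equiv.prodComm_apply, Prod.fst_swap,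
        Prod.snd_swap, bv_comm z.2 z.1, ne_comm (a := z.2)]
      tauto
    · simp only [g, Equiv.prodComm_apply, Prod.fst_swap, Prod.snd_swap, bv_comm z.2 z.1]
  have hbound := (Finset.sum_le_sum hpay).trans_eq Finset.sum_add_distrib
  have hlo : n * m / 2 ≤ n * m ^ 2 / (4 * (2 * V + 1)) - m * m * κ := by
    have h0 : n * m ^ 2 / (4 * (2 * V + 1)) - m * m * κ = n * m * m / (8 * (2 * V + 1)) := by
      rw [hκ]; field_simp; ring
    rw [h0, le_div_iff₀ (by positivity)]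
    have := mul_le_mul_of_nonneg_left hm4 (by positivity : (0 : ℝ) ≤ n * m)
    linarith
  have hmain : n * m / 2 ≤ m * (4 * ε * (I + 1)) := by linarith
  have hm0 : 0 < m := lt_of_lt_of_le (by positivity) hm4
  have : n / 2 ≤ 4 * ε * (I + 1) := le_of_mul_le_mul_left (by linarith) hm0
  rw [div_sub_one (by positivity), div_le_iff₀ (by positivity)]
  nlinarith

end Vale.Agent.P054
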