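import Vale.Agent.P054.Step

/-!
Solving the recursion.
-/

namespace Vale.Agent.P054

open Module Filter
open scoped InnerProductSpace

variable {d : ℕ}

lemma Bd.mono {A A' : ℝ} (h : Bd d A) (hAA : A ≤ A') : Bd d A' := by
  obtain ⟨C, hC, hB⟩ := h
  exact ⟨C, hC, fun P => (hB P).trans
    (mul_le_mul_of_nonneg_left (Real.rpow_le_rpow_of_exponent_le (one_le_dvals_add P) hAA) hC.le)⟩

/-- One step of the recursion `d - 2 → d`. -/
theorem bd_next {A' A : ℝ} (hd : 2 ≤ d) (hB : Bd (d - 2) A') (hA' : 0 ≤ A') (hA1 : 1 < A)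
    (hAd : A < d) (h4 : A' * ((d : ℝ) - 1) < (A - 1) * d)
    (h6 : A' * ((d : ℝ) - 1) ^ 2 + (A - 1) < A * ((d : ℝ) - 1) ^ 2)
    (hcond : (A' + 2) * ((d : ℝ) - 1) ^ 2 + (2 * d - 1) < A * (d : ℝ) ^ 2) : Bd d A := by
  have hd2 : (2 : ℝ) ≤ d := by exact_mod_cast hd
  set δ : ℝ := 1 / A with hδ
  set e : ℝ := (d : ℝ) - 1 with he
  have he1 : 1 ≤ e := by rw [he]; linarith
  have hδA : δ * A = 1 := by rw [hδ]; field_simp
  have hδ0 : 0 < δ := by rw [hδ]; positivity
  have hδ1 : δ < 1 := by rw [hδ, div_lt_one (by linarith)]; exact hA1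
  -- `ρ` and `σ` slightly below their extremal values
  have key : ∀ᶠ θ : ℝ in nhds 0,
      0 < (1 - δ) / e - θ ∧ 0 < ((1 - δ) / e - θ) / e - θ ∧ (1 - δ) / e - θ < δ ∧
      δ * A' < 1 - δ + ((1 - δ) / e - θ) ∧
      1 - (((1 - δ) / e - θ) / e - θ) + δ * A' < 2 * (1 - δ + ((1 - δ) / e - θ)) ∧
      δ * A' + (((1 - δ) / e - θ) / e - θ) < 1 := by
    have l : ∀ f g : ℝ → ℝ, Continuous f → Continuous g → f 0 < g 0 →
        ∀ᶠ θ in nhds 0, f θ < g θ := fun f g hf hg h => hf.continuousAt.eventually_lt hg.continuousAt h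
    refine (l _ _ (by fun_prop) (by fun_prop) ?_).and ((l _ _ (by fun_prop) (by fun_prop) ?_).and
      ((l _ _ (by fun_prop) (by fun_prop) ?_).and ((l _ _ (by fun_prop) (by fun_prop) ?_).and
      ((l _ _ (by fun_prop) (by fun_prop) ?_).and (l _ _ (by fun_prop) (by fun_prop) ?_)))))
    all_goals simp only [sub_zero]
    · exact div_pos (by linarith) (by linarith)
    · exact div_pos (div_pos (by linarith) (by linarith)) (by linarith)
    · rw [div_lt_iff₀ (by linarith)]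
      have := mul_lt_mul_of_pos_left hAd hδ0
      rw [he]; linarith
    · have h1 := mul_lt_mul_of_pos_left h4 hδ0
      have h1' : δ * ((A - 1) * (d : ℝ)) = (1 - δ) * (e + 1) := by
        rw [he]; linear_combination (d : ℝ) * hδA
      rw [← sub_pos, show 1 - δ + (1 - δ) / e - δ * A' = ((1 - δ) * (e + 1) - δ * A' * e) / e by
        field_simp]
      exact div_pos (by linarith) (by linarith)
    · have h1 : δ * ((A' + 2) * e ^ 2 + (2 * e + 1)) < δ * (A * (e + 1) ^ 2) := by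
        refine mul_lt_mul_of_pos_left ?_ hδ0
        rw [he]; linarith
      rw [← sub_pos]
      have e0 : 2 * (1 - δ + (1 - δ) / e) - (1 - (1 - δ) / e / e + δ * A')
          = ((2 * (1 - δ) - 1 - δ * A') * e ^ 2 + 2 * (1 - δ) * e + (1 - δ)) / e ^ 2 := by
        field_simp; ring
      rw [e0]
      refine div_pos ?_ (by positivity)
      rw [← mul_assoc, hδA] at h1
      linarith
    · have h1 := mul_lt_mul_of_pos_left h6 hδ0
      have h1' : δ * (A * e ^ 2) = e ^ 2 := by linear_combination (e ^ 2) * hδA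
      have h1'' : δ * (A - 1) = 1 - δ := by linear_combination hδA
      rw [mul_add] at h1
      rw [← sub_pos, show 1 - (δ * A' + (1 - δ) / e / e)
        = (e ^ 2 - δ * A' * e ^ 2 - (1 - δ)) / e ^ 2 by field_simp; ring]
      exact div_pos (by linarith) (by positivity)
  obtain ⟨θ, h, hθ⟩ :=
    ((key.filter_mono nhdsWithin_le_nhds).and (self_mem_nhdsWithin (s := Set.Ioi (0 : ℝ)))).exists
  obtain ⟨p1, p2, p3, p4, p5, p6⟩ := h
  have hθ0 : (0 : ℝ) < θ := hθ
  have c1 : e * ((1 - δ) / e - θ) + δ < 1 := by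
    have : e * ((1 - δ) / e - θ) = 1 - δ - e * θ := by field_simp
    rw [this]; nlinarith
  have c3 : e * (((1 - δ) / e - θ) / e - θ) < (1 - δ) / e - θ := by
    have : e * (((1 - δ) / e - θ) / e - θ) = (1 - δ) / e - θ - e * θ := by field_simp
    rw [this]; nlinarith
  have := step hd hB hA' p1 p2 c1 p3.le c3 p4 p5 p6
  rwa [hδ, one_div_one_div] at this

/-- In dimension 3: bisector planes hold few points. -/
theorem bd_three_of_two {A' A : ℝ} (hB : Bd 2 A') (hA' : 0 ≤ A') (hA1 : 1 < A) (hA3 : A < 3)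
    (hcond : A' + 3 / 2 < 3 / 2 * A) : Bd 3 A := by
  classical
  obtain ⟨C, hC, hCB⟩ := hB
  set δ : ℝ := 1 / A with hδ
  have hδA : δ * A = 1 := by rw [hδ]; field_simp
  have hδ0 : 0 < δ := by rw [hδ]; positivity
  have h1 := mul_lt_mul_of_pos_left hcond hδ0
  have h2 := mul_lt_mul_of_pos_left hA3 hδ0
  obtain ⟨η, hη, e1, e2, e4⟩ : ∃ η : ℝ, 0 < η ∧ η < (1 - δ) / 2 - η ∧
      (1 - δ) / 2 - η < δ ∧ δ * A' < 1 - δ + ((1 - δ) / 2 - η) - η / 2 := by
    set g := min ((1 - δ) / 4) (min (δ - (1 - δ) / 2) (1 - δ + (1 - δ) / 2 - δ * A')) with hg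
    have hδ1 : δ < 1 := by rw [hδ, div_lt_one (by linarith)]; exact hA1
    have hg0 : 0 < g := lt_min (by linarith) (lt_min (by linarith) (by linarith))
    refine ⟨g / 2, by positivity, ?_, ?_, ?_⟩
    · have := min_le_left ((1 - δ) / 4) (min (δ - (1 - δ) / 2) (1 - δ + (1 - δ) / 2 - δ * A'))
      rw [← hg] at this; linarith
    · have := (min_le_right ((1 - δ) / 4) (min (δ - (1 - δ) / 2)
        (1 - δ + (1 - δ) / 2 - δ * A'))).trans (min_le_left _ _)
      rw [← hg] at this; linarith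
    · have := (min_le_right ((1 - δ) / 4) (min (δ - (1 - δ) / 2)
        (1 - δ + (1 - δ) / 2 - δ * A'))).trans (min_le_right _ _)
      rw [← hg] at this; linarith
  set ρ : ℝ := (1 - δ) / 2 - η with hρ
  have hev : ∀ᶠ x : ℝ in atTop, 1 ≤ x ∧
      (x ^ 2 * Real.exp (-x ^ (η / 2)) < 1) ∧
      (4 * 19 * (2 * 2 ^ 3 * 4 ^ 3) * x ^ (δ - ρ + η / 2 + 3 * ρ) < x ^ (1 : ℝ)) ∧
      (152 * C * x ^ (δ * A') < x ^ (1 - (δ - ρ + η / 2))) ∧
      (64 * x ^ (0 : ℝ) < x ^ (1 + ρ - η / 2)) := by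
    refine (eventually_ge_atTop 1).and (Eventually.and ?_ ((ev_rpow_lt _ ?_).and
      ((ev_rpow_lt _ ?_).and (ev_rpow_lt _ ?_))))
    · simpa using ev_exp_small (η := η / 2) (by positivity) 2 1
    all_goals linarith
  obtain ⟨N0, hN0⟩ := eventually_atTop.1 hev
  refine ⟨max N0 1, lt_max_of_lt_right one_pos, fun P => ?_⟩
  rcases le_or_gt ((P.card : ℝ)) (max N0 1) with hsmall | hlarge
  · exact hsmall.trans (le_mul_of_one_le_right (le_trans zero_le_one (le_max_right _ _))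
      (Real.one_le_rpow (one_le_dvals_add P) (by linarith)))
  suffices h : (P.card : ℝ) ≤ ((dvals P).card + 1 : ℝ) ^ A from
    h.trans (le_mul_of_one_le_left (Real.rpow_nonneg (by positivity) _) (le_max_right _ _))
  obtain ⟨Q, hQc, hQd, hQN⟩ := exists_translate P
  by_contra hcon
  push Not at hcon
  set n : ℝ := (P.card : ℝ) with hn
  obtain ⟨hn1, q2, q4, q6, q8⟩ := hN0 n ((le_max_left _ _).trans hlarge.le)
  have hnpos : 0 < n := lt_of_lt_of_le one_pos hn1
  have hnQ : (Q.card : ℝ) = n := by rw [hn, hQc]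
  have hQne : Q.Nonempty := by
    rw [← Finset.card_pos, hQc]; rw [hn] at hnpos; exact_mod_cast hnpos
  set D : ℝ := (dvals Q).card + 1 with hD
  have hD0 : 0 ≤ D := by rw [hD]; positivity
  have hDn : D ≤ n ^ δ := by
    have h1 : D ≤ (dvals P).card + 1 := by rw [hD]; exact_mod_cast Nat.add_le_add_right hQd 1
    have h2 := Real.rpow_le_rpow (Real.rpow_nonneg (by positivity) _) hcon.le hδ0.le
    rw [← Real.rpow_mul (by positivity), mul_comm, hδA, Real.rpow_one] at h2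
    exact h1.trans h2
  set ε : ℝ := n ^ (η / 2 - ρ) with hε
  set s : ℕ := ⌈n ^ ρ⌉₊ with hs
  set V : ℕ := ⌈8 * ε * D⌉₊ with hV
  have hε0 : 0 < ε := Real.rpow_pos_of_pos hnpos _
  have hε1 : ε ≤ 1 := Real.rpow_le_one_of_one_le_of_nonpos hn1 (by linarith)
  have hεs : n ^ (η / 2) ≤ ε * s := by
    calc n ^ (η / 2) = ε * n ^ ρ := by rw [hε, ← Real.rpow_add hnpos, sub_add_cancel]
      _ ≤ _ := mul_le_mul_of_nonneg_left (Nat.le_ceil _) hε0.le
  set W : ℝ := 2 * (V : ℝ) + 1 with hW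
  have hW19 : W ≤ 19 * n ^ (δ - ρ + η / 2) := by
    have h1 : (V : ℝ) < 8 * ε * D + 1 := Nat.ceil_lt_add_one (by positivity)
    have h2 : ε * D ≤ n ^ (δ - ρ + η / 2) := by
      rw [show δ - ρ + η / 2 = (η / 2 - ρ) + δ by ring, Real.rpow_add hnpos]
      exact mul_le_mul_of_nonneg_left hDn hε0.le
    have h3 : (1 : ℝ) ≤ n ^ (δ - ρ + η / 2) := Real.one_le_rpow hn1 (by linarith)
    linarith
  have hW0 : 0 < W := by positivity
  have hforced := forced_incidences Q hQne hQN s V ε hε0 hε1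
    (by
      rw [hnQ]
      exact lt_of_le_of_lt (mul_le_mul_of_nonneg_left (one_sub_pow_le_exp s hε1 hεs) (sq_nonneg n)) q2)
    (by
      have : 8 * ε * D ≤ V := Nat.le_ceil _
      linarith)
    (by
      rw [hnQ, ← hW]
      have hs4 : (s : ℝ) + 2 ≤ 4 * n ^ ρ := by
        have h1 : (s : ℝ) < n ^ ρ + 1 := Nat.ceil_lt_add_one (by positivity)
        have h3 : (1 : ℝ) ≤ n ^ ρ := Real.one_le_rpow hn1 (by linarith)
        linarith
      calc 4 * W * (2 * 2 ^ 3 * ((s : ℝ) + 2) ^ 3)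
          ≤ 4 * (19 * n ^ (δ - ρ + η / 2)) * (2 * 2 ^ 3 * (4 * n ^ ρ) ^ 3) := by gcongr
        _ = 4 * 19 * (2 * 2 ^ 3 * 4 ^ 3) * n ^ (δ - ρ + η / 2 + 3 * ρ) := by
          rw [Real.rpow_add hnpos (δ - ρ + η / 2) (3 * ρ), mul_comm 3 ρ,
            show (3 : ℝ) = ((3 : ℕ) : ℝ) by norm_num, Real.rpow_mul hnpos.le, Real.rpow_natCast]
          push_cast
          ring
        _ ≤ n := by rw [Real.rpow_one] at q4; exact q4.le)
  rw [hnQ, ← hW] at hforced
  have hκge : n ^ (1 - (δ - ρ + η / 2)) / 152 ≤ n / (8 * W) := by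
    rw [Real.rpow_sub hnpos, Real.rpow_one, div_div]
    exact div_le_div_of_nonneg_left hnpos.le (by positivity) (by linarith)
  have hempty : richBis Q (n / (8 * W)) = ∅ := by
    rw [richBis, Finset.filter_eq_empty_iff]
    intro v _ hv
    rcases (Q.filter fun x => ⟪x, v⟫_ℝ = 1).eq_empty_or_nonempty with h | ⟨x0, h0⟩
    · rw [rich, h, Finset.card_empty, Nat.cast_zero] at hv
      linarith [(by positivity : (0 : ℝ) < n / (8 * W))]
    have hx0 := (Finset.mem_filter.1 h0).2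
    have hv0 : v ≠ 0 := fun h => by rw [h, inner_zero_right] at hx0; exact zero_ne_one hx0
    have hfr : finrank ℝ (Submodule.span ℝ {v})ᗮ = 2 := by
      have h1 := Submodule.finrank_add_finrank_orthogonal (Submodule.span ℝ ({v} : Set (E 3)))
      rw [finrank_span_singleton hv0, finrank_euclideanSpace_fin] at h1
      omega
    have h3 := bd_flat hA' hC.le hCB _ hfr Q (Q.filter fun x => ⟪x, v⟫_ℝ = 1)
      (Finset.filter_subset _ _) x0 fun x hx => by
        rw [Submodule.mem_orthogonal_singleton_iff_inner_right, inner_sub_right,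
          real_inner_comm x v, real_inner_comm x0 v, (Finset.mem_filter.1 hx).2, hx0, sub_self]
    rw [← rich, ← hD] at h3
    have h4 : D ^ A' ≤ n ^ (δ * A') := by
      rw [Real.rpow_mul hnpos.le]; exact Real.rpow_le_rpow hD0 hDn hA'
    have h5 := mul_le_mul_of_nonneg_left h4 hC.le
    linarith
  rw [hempty, Finset.sum_empty] at hforced
  have hlow : n ^ (1 + ρ - η / 2) / 32 - 1 ≤ n / (32 * ε) - 1 := by
    refine sub_le_sub_right (le_of_eq ?_) 1
    rw [show 1 + ρ - η / 2 = 1 - (η / 2 - ρ) by ring, Real.rpow_sub hnpos, Real.rpow_one, ← hε,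
      div_div, mul_comm]
  rw [Real.rpow_zero] at q8
  linarith

lemma bd_two : Bd 2 (251 / 200) :=
  bd_next le_rfl bd_zero le_rfl (by norm_num) (by norm_num) (by norm_num) (by norm_num)
    (by norm_num)

lemma bd_three : Bd 3 (37 / 20) :=
  bd_three_of_two bd_two (by norm_num) (by norm_num) (by norm_num) (by norm_num)

lemma bd_four : Bd 4 (25 / 11) :=
  bd_next (by norm_num) bd_two (by norm_num) (by norm_num) (by norm_num) (by norm_num) (by norm_num)
    (by norm_num)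

lemma bd_five : Bd 5 (17 / 6) :=
  bd_next (by norm_num) bd_three (by norm_num) (by norm_num) (by norm_num) (by norm_num)
    (by norm_num) (by norm_num)

/-- `n = O((D+1)^((3d+2)/6))` for every `d ≥ 4`. -/
theorem bd_uniform : ∀ d : ℕ, 4 ≤ d → Bd d ((3 * (d : ℝ) + 2) / 6) := by
  intro d
  induction d using Nat.strong_induction_on with
  | _ d ih =>
  intro hd
  rcases eq_or_ne d 4 with rfl | h4
  · exact bd_four.mono (by norm_num)
  rcases eq_or_ne d 5 with rfl | h5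
  · exact bd_five.mono (by norm_num)
  have hd6 : 6 ≤ d := by omega
  have h := ih (d - 2) (by omega) (by omega)
  rw [Nat.cast_sub (by omega : 2 ≤ d)] at h
  have hd6' : (6 : ℝ) ≤ d := by exact_mod_cast hd6
  push_cast at h
  refine bd_next (by omega) h (by linarith) (by linarith) (by linarith) (by nlinarith) (by nlinarith) ?_
  nlinarith

/-- `n = O((D+1)^(d/2 + 1/4 + 1/(2√d)))` for every `d ≥ 2`. -/
theorem bd_asymptotic : ∀ d : ℕ, 2 ≤ d → Bd d ((d : ℝ) / 2 + 1 / 4 + 1 / (2 * Real.sqrt d)) := by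
  intro d
  induction d using Nat.strong_induction_on with
  | _ d ih =>
  intro hd
  rcases eq_or_ne d 2 with rfl | h2
  · refine bd_two.mono ?_
    have hs : Real.sqrt ((2 : ℕ) : ℝ) ≤ 3 / 2 := by
      rw [Real.sqrt_le_left (by norm_num)]; norm_num
    have : 1 / 3 ≤ 1 / (2 * Real.sqrt ((2 : ℕ) : ℝ)) :=
      one_div_le_one_div_of_le (by positivity) (by push_cast at hs ⊢; linarith)
    push_cast at this ⊢; linarith
  rcases eq_or_ne d 3 with rfl | h3
  · refine bd_three.mono ?_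
    have hs : Real.sqrt ((3 : ℕ) : ℝ) ≤ 2 := by
      rw [Real.sqrt_le_left (by norm_num)]; norm_num
    have : 1 / 4 ≤ 1 / (2 * Real.sqrt ((3 : ℕ) : ℝ)) :=
      one_div_le_one_div_of_le (by positivity) (by push_cast at hs ⊢; linarith)
    push_cast at this ⊢; linarith
  have hd4 : 4 ≤ d := by omega
  have h := ih (d - 2) (by omega) (by omega)
  rw [Nat.cast_sub (by omega : 2 ≤ d)] at h
  push_cast at h
  have hd4' : (4 : ℝ) ≤ d := by exact_mod_cast hd4
  set u : ℝ := Real.sqrt d with hu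
  set v : ℝ := Real.sqrt ((d : ℝ) - 2) with hv
  have hu2 : u ^ 2 = d := Real.sq_sqrt (by linarith)
  have hv2 : v ^ 2 = (d : ℝ) - 2 := Real.sq_sqrt (by linarith)
  have hv0 : 0 < v := Real.sqrt_pos.2 (by linarith)
  have hu0 : 0 < u := Real.sqrt_pos.2 (by linarith)
  have huv : v ≤ u := Real.sqrt_le_sqrt (by linarith)
  have hv1 : 1 < v := by nlinarith
  have hgap : 1 / (2 * v) - 1 / (2 * u) ≤ 1 := by
    have h1 : 1 / (2 * v) ≤ 1 / 2 := by
      rw [div_le_div_iff₀ (by positivity) (by norm_num)]; linarith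
    have : 0 ≤ 1 / (2 * u) := by positivity
    linarith
  have hv0' : 0 ≤ 1 / (2 * v) := by positivity
  refine bd_next (by omega) h (by linarith) ?_ ?_ ?_ ?_ ?_
  · have : 0 ≤ 1 / (2 * u) := by positivity
    linarith
  · have : 1 / (2 * u) ≤ 1 / 2 := by
      rw [div_le_div_iff₀ (by positivity) (by norm_num)]; linarith
    linarith
  · have hv14 : 7 / 5 ≤ v := by nlinarith
    have h1 : 1 / (2 * v) ≤ 5 / 14 := by
      rw [div_le_div_iff₀ (by positivity) (by norm_num)]; linarith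
    have hb : 0 ≤ (d : ℝ) * (1 / (2 * u)) := by positivity
    have h2 := mul_le_mul_of_nonneg_left h1 (by linarith : (0 : ℝ) ≤ (d : ℝ) - 1)
    nlinarith
  · have hv14 : 7 / 5 ≤ v := by nlinarith
    have h1 : 1 / (2 * v) ≤ 5 / 14 := by
      rw [div_le_div_iff₀ (by positivity) (by norm_num)]; linarith
    have hb : 0 ≤ 1 / (2 * u) := by positivity
    have hb1 : 1 / (2 * u) ≤ 1 / 2 := by
      rw [div_le_div_iff₀ (by positivity) (by norm_num)]; linarith
    have he : 9 ≤ ((d : ℝ) - 1) ^ 2 := by nlinarith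
    have hlin : (d : ℝ) / 2 ≤ 1 / 2 * ((d : ℝ) - 1) ^ 2 := by nlinarith
    nlinarith [mul_nonneg hb (le_trans (by norm_num : (0 : ℝ) ≤ 9) he),
      mul_le_mul_of_nonneg_left h1 (le_trans (by norm_num : (0 : ℝ) ≤ 9) he)]
  · have key : (d : ℝ) - 3 / 2 ≤ u * v := by
      have : ((d : ℝ) - 3 / 2) ^ 2 ≤ (u * v) ^ 2 := by rw [mul_pow, hu2, hv2]; nlinarith
      exact (pow_le_pow_iff_left₀ (by linarith) (by positivity) two_ne_zero).1 this
    have hmain : v < 2 * ((d : ℝ) * (u * v) - ((d : ℝ) - 1) ^ 2) := by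
      have h1 := mul_le_mul_of_nonneg_left key (by linarith : (0 : ℝ) ≤ d)
      nlinarith
    have hsplit : ((d : ℝ) / 2 + 1 / 4 + 1 / (2 * u)) * (d : ℝ) ^ 2
        - ((((d : ℝ) - 2) / 2 + 1 / 4 + 1 / (2 * v) + 2) * ((d : ℝ) - 1) ^ 2 + (2 * d - 1))
        = ((d : ℝ) * (u * v) - ((d : ℝ) - 1) ^ 2) / (2 * v) - 1 / 4 := by
      field_simp
      linear_combination (4 * v * (d : ℝ)) * hu2.symm
    rw [← sub_pos, hsplit, sub_pos, lt_div_iff₀ (by positivity)]
    linarith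

/-- From `n = O((D+1)^A)` to a lower bound for the number of distances. -/
theorem bd_lower {A : ℝ} (hA : 0 < A) (h : Bd d A) :
    ∃ c : ℝ, 0 < c ∧ ∀ P : Finset (EuclideanSpace ℝ (Fin d)), 2 ≤ P.card →
      c * (P.card : ℝ) ^ (1 / A) ≤ ((P.offDiag.image fun z => dist z.1 z.2).card : ℝ) := by
  obtain ⟨C, hC, hB⟩ := h
  refine ⟨(C⁻¹) ^ (1 / A) / 2, by positivity, fun P hP => ?_⟩
  have h1 : (1 : ℝ) ≤ (dvals P).card := by
    obtain ⟨a, ha, b, hb, hab⟩ := Finset.one_lt_card.1 hP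
    exact Nat.one_le_cast.2 (Finset.card_pos.2
      ⟨dist a b, Finset.mem_image.2 ⟨(a, b), Finset.mem_offDiag.2 ⟨ha, hb, hab⟩, rfl⟩⟩)
  have h2 : C⁻¹ * (P.card : ℝ) ≤ ((dvals P).card + 1 : ℝ) ^ A := by
    rw [inv_mul_le_iff₀ hC]; exact hB P
  have h3 := Real.rpow_le_rpow (by positivity) h2 (by positivity : (0 : ℝ) ≤ 1 / A)
  rw [← Real.rpow_mul (by positivity), mul_one_div_cancel hA.ne', Real.rpow_one,
    Real.mul_rpow (by positivity) (Nat.cast_nonneg _)] at h3
  change _ ≤ ((dvals P).card : ℝ)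
  linarith

end Vale.Agent.P054
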