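import Mathlib

/-!
Generic offsets for finitely many smooth functions, and a weighted sampling lemma.
-/

namespace Vale.Agent.P054

open Module Set

/-- Euclidean `d`-space. -/
abbrev E (d : ℕ) : Type := EuclideanSpace ℝ (Fin d)

/-- Generic offsets: no point is a common zero of more than `d` of the shifted functions. -/
lemma exists_generic_offsets {d : ℕ} {ι : Type*} [Fintype ι] [DecidableEq ι] (F : ι → E d → ℝ)
    (hF : ∀ i, ContDiff ℝ 1 (F i)) (lo hi : ι → ℝ) (hlh : ∀ i, lo i < hi i) :
    ∃ δ : ι → ℝ, (∀ i, δ i ∈ Ioo (lo i) (hi i)) ∧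
      ∀ (T : Finset ι) (x : E d), (∀ i ∈ T, F i x = δ i) → T.card ≤ d := by
  let g : (T : {T : Finset ι // d < T.card}) → E d × ({i // i ∉ T.1} → ℝ) → (ι → ℝ) :=
    fun T z i => if h : i ∈ T.1 then F i z.1 else z.2 ⟨i, h⟩
  have hg : ∀ T, ContDiff ℝ 1 (g T) := by
    intro T
    refine contDiff_pi.2 fun i => ?_
    by_cases h : i ∈ T.1
    · simp only [g, dif_pos h]
      exact (hF i).comp contDiff_fst
    · simp only [g, dif_neg h]
      exact (contDiff_apply ℝ ℝ (⟨i, h⟩ : {i // i ∉ T.1})).comp contDiff_snd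
  have hdim : ∀ T, dimH (range (g T)) ≤ ((Fintype.card ι - 1 : ℕ) : ENNReal) := by
    intro T
    refine (hg T).dimH_range_le.trans ?_
    rw [finrank_prod, finrank_euclideanSpace_fin, finrank_fintype_fun_eq_card,
      Fintype.card_subtype_compl, Fintype.card_coe]
    have := T.2
    have := T.1.card_le_univ
    exact_mod_cast (by omega : d + (Fintype.card ι - T.1.card) ≤ Fintype.card ι - 1)
  have hdense : Dense (⋃ T, range (g T))ᶜ := by
    rcases isEmpty_or_nonempty {T : Finset ι // d < T.card} with h | h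
    · simp [Set.iUnion_of_empty]
    refine dense_compl_of_dimH_lt_finrank ?_
    rw [dimH_iUnion, finrank_fintype_fun_eq_card]
    refine (iSup_le hdim).trans_lt ?_
    obtain ⟨T, hT⟩ := h
    have := T.card_le_univ
    exact_mod_cast (by omega : Fintype.card ι - 1 < Fintype.card ι)
  obtain ⟨δ, hδ, hδ'⟩ := hdense.inter_open_nonempty (Set.univ.pi fun i => Ioo (lo i) (hi i))
    (isOpen_set_pi Set.finite_univ fun i _ => isOpen_Ioo)
    ⟨fun i => (lo i + hi i) / 2, fun i _ => ⟨by linarith [hlh i], by linarith [hlh i]⟩⟩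
  refine ⟨δ, fun i => hδ i (mem_univ i), fun T x hT => ?_⟩
  by_contra hc
  exact hδ' (Set.mem_iUnion.2 ⟨⟨T, not_le.1 hc⟩, (x, fun i => δ i.1), funext fun i => by
    by_cases h : i ∈ T
    · simp only [g, dif_pos h]; exact hT i h
    · simp only [g, dif_neg h]⟩)

/-- Sampling: if every element of `B` is hit by more than an `ε`-fraction of the weight, some
`s`-tuple hits every element of `B`. -/
lemma exists_sample {ι β : Type*} [Fintype ι] (w : ι → ℝ) (hw : ∀ i, 0 ≤ w i)
    (hW : 0 < ∑ i, w i) (B : Finset β) (hit : ι → β → Prop) [∀ i b, Decidable (hit i b)]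
    (ε : ℝ) (s : ℕ) (hB : ∀ b ∈ B, ε * ∑ i, w i < ∑ i, if hit i b then w i else 0)
    (hs : (B.card : ℝ) * (1 - ε) ^ s < 1) :
    ∃ S : Fin s → ι, ∀ b ∈ B, ∃ j, hit (S j) b := by
  classical
  by_contra hne
  push Not at hne
  set W := ∑ i, w i with hWdef
  have h1 : W ^ s ≤ ∑ S : Fin s → ι,
      (∏ j, w (S j)) * ((B.filter fun b => ∀ j, ¬ hit (S j) b).card : ℝ) := by
    rw [hWdef, Fintype.sum_pow]
    refine Finset.sum_le_sum fun S _ => le_mul_of_one_le_right (Finset.prod_nonneg fun j _ => hw _) ?_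
    obtain ⟨b, hb, hb'⟩ := hne S
    exact_mod_cast Finset.card_pos.2 ⟨b, Finset.mem_filter.2 ⟨hb, hb'⟩⟩
  have h2 : ∑ S : Fin s → ι,
      (∏ j, w (S j)) * ((B.filter fun b => ∀ j, ¬ hit (S j) b).card : ℝ)
      = ∑ b ∈ B, (∑ i, if hit i b then 0 else w i) ^ s := by
    simp only [Fintype.sum_pow]
    rw [Finset.sum_comm]
    refine Finset.sum_congr rfl fun S _ => ?_
    rw [Finset.card_filter, Nat.cast_sum, Finset.mul_sum]
    refine Finset.sum_congr rfl fun b _ => ?_
    by_cases h : ∀ j, ¬ hit (S j) b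
    · simp [h]
    · rw [if_neg h]
      push Not at h
      obtain ⟨j, hj⟩ := h
      rw [Nat.cast_zero, mul_zero]
      symm
      exact Finset.prod_eq_zero (f := fun j => if hit (S j) b then 0 else w (S j))
        (Finset.mem_univ j) (if_pos hj)
  have h3 : ∀ b ∈ B, (∑ i, if hit i b then 0 else w i) ^ s ≤ ((1 - ε) * W) ^ s := by
    intro b hb
    refine pow_le_pow_left₀ (Finset.sum_nonneg fun i _ => by split_ifs <;> simp [hw i]) ?_ s
    have : (∑ i, if hit i b then 0 else w i) + (∑ i, if hit i b then w i else 0) = W := by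
      rw [← Finset.sum_add_distrib]
      exact Finset.sum_congr rfl fun i _ => by split_ifs <;> simp
    have := hB b hb
    linarith
  have h4 := (h1.trans_eq h2).trans (Finset.sum_le_sum h3)
  rw [Finset.sum_const, nsmul_eq_mul, mul_pow, ← mul_assoc] at h4
  have h5 : 0 < W ^ s := pow_pos hW s
  nlinarith

/-- Subsets of size at most `d` are at most `(N+1)^d` many. -/
lemma card_small_subsets {ι : Type*} [Fintype ι] [DecidableEq ι] (J : Finset ι) (d : ℕ) :
    (J.powerset.filter fun A => A.card ≤ d).card ≤ (J.card + 1) ^ d := by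
  have hsub : (J.powerset.filter fun A => A.card ≤ d) ⊆
      (Fintype.piFinset fun _ : Fin d => insert none (J.map ⟨some, Option.some_injective _⟩)).image
        fun f => Finset.univ.filter fun i => ∃ k, f k = some i := by
    intro A hA
    rw [Finset.mem_filter, Finset.mem_powerset] at hA
    refine Finset.mem_image.2 ⟨fun k => if h : k.1 < A.card then some (A.equivFin.symm ⟨k.1, h⟩).1
      else none, Fintype.mem_piFinset.2 fun k => ?_, ?_⟩
    · split_ifs with h
      · exact Finset.mem_insert_of_mem (Finset.mem_map.2 ⟨_, hA.1 (A.equivFin.symm _).2, rfl⟩)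
      · exact Finset.mem_insert_self _ _
    · ext i
      simp only [Finset.mem_filter, Finset.mem_univ, true_and]
      constructor
      · rintro ⟨k, hk⟩
        split_ifs at hk with h
        rw [← Option.some_injective _ hk]
        exact (A.equivFin.symm _).2
      · intro hi
        refine ⟨⟨(A.equivFin ⟨i, hi⟩).1, (A.equivFin ⟨i, hi⟩).2.trans_le hA.2⟩, ?_⟩
        rw [dif_pos (A.equivFin ⟨i, hi⟩).2]
        simp
  refine (Finset.card_le_card hsub).trans (Finset.card_image_le.trans ?_)
  simp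

end Vale.Agent.P054
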