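import Vale.Agent.P054.Generic

/-!
Sign patterns of `s` functions `a‖x‖² + ⟪b,x⟫ + c` on `ℝ^d` number `O(s^d)`.
-/

namespace Vale.Agent.P054

open Module Set
open scoped InnerProductSpace

variable {d : ℕ} {ι : Type*}

/-- The function `a‖x‖² + ⟪b,x⟫ + c`. -/
noncomputable def quad (a : ℝ) (b : E d) (c : ℝ) (x : E d) : ℝ := a * ‖x‖ ^ 2 + ⟪b, x⟫_ℝ + c

lemma contDiff_quad (a : ℝ) (b : E d) (c : ℝ) : ContDiff ℝ 1 (quad a b c) := by
  have h : ContDiff ℝ 1 (fun x : E d => ⟪b, x⟫_ℝ) := (innerSL ℝ b).contDiff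
  exact ((contDiff_const.mul (contDiff_norm_sq ℝ)).add h).add contDiff_const

lemma continuous_quad (a : ℝ) (b : E d) (c : ℝ) : Continuous (quad a b c) :=
  (contDiff_quad a b c).continuous

/-- The directions along which the common zero set of the functions in `A` extends. -/
noncomputable def dirs (a : ι → ℝ) (b : ι → E d) (A : Finset ι) : Submodule ℝ (E d) :=
  (Submodule.span ℝ
    ({w | ∃ i ∈ A, ∃ j ∈ A, w = a i • b j - a j • b i} ∪ {w | ∃ i ∈ A, a i = 0 ∧ w = b i}))ᗮ

lemma mem_dirs {a : ι → ℝ} {b : ι → E d} {A : Finset ι} {v : E d} :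
    v ∈ dirs a b A ↔ (∀ i ∈ A, ∀ j ∈ A, a i * ⟪b j, v⟫_ℝ = a j * ⟪b i, v⟫_ℝ) ∧
      ∀ i ∈ A, a i = 0 → ⟪b i, v⟫_ℝ = 0 := by
  rw [dirs, Submodule.mem_orthogonal]
  constructor
  · intro h
    constructor
    · intro i hi j hj
      have := h _ (Submodule.subset_span (Or.inl ⟨i, hi, j, hj, rfl⟩))
      rw [inner_sub_left, real_inner_smul_left, real_inner_smul_left] at this
      linarith
    · intro i hi h0
      exact h _ (Submodule.subset_span (Or.inr ⟨i, hi, h0, rfl⟩))
  · rintro ⟨h1, h2⟩ w hw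
    induction hw using Submodule.span_induction with
    | mem w hw =>
      rcases hw with ⟨i, hi, j, hj, rfl⟩ | ⟨i, hi, h0, rfl⟩
      · rw [inner_sub_left, real_inner_smul_left, real_inner_smul_left, h1 i hi j hj, sub_self]
      · exact h2 i hi h0
    | zero => simp
    | add x y _ _ hx hy => rw [inner_add_left, hx, hy, add_zero]
    | smul r x _ hx => rw [real_inner_smul_left, hx, mul_zero]

/-- A linear functional has at most two local maxima on such a zero set. -/
lemma localMax_two_points (a : ι → ℝ) (b : ι → E d) (c : ι → ℝ) (A : Finset ι) (l : E d)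
    (hl : dirs a b A ≠ ⊥ → l ∉ (dirs a b A)ᗮ) :
    ∃ F : Finset (E d), F.card ≤ 2 ∧ ∀ p : E d, (∀ i ∈ A, quad (a i) (b i) (c i) p = 0) →
      IsLocalMaxOn (fun y => ⟪l, y⟫_ℝ) {y | ∀ i ∈ A, quad (a i) (b i) (c i) y = 0} p → p ∈ F := by
  classical
  set V := dirs a b A with hV
  set Z := {y : E d | ∀ i ∈ A, quad (a i) (b i) (c i) y = 0} with hZ
  by_cases hex : ∃ p, p ∈ Z ∧ IsLocalMaxOn (fun y => ⟪l, y⟫_ℝ) Z p
  swap
  · exact ⟨∅, by simp, fun p hp hm => absurd ⟨p, hp, hm⟩ hex⟩
  obtain ⟨p0, hp0, hm0⟩ := hex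
  have hsub : ∀ p ∈ Z, p - p0 ∈ V := by
    intro p hp
    have key : ∀ i ∈ A, ⟪b i, p - p0⟫_ℝ = -a i * (‖p‖ ^ 2 - ‖p0‖ ^ 2) := by
      intro i hi
      have h1 := hp i hi
      have h2 := hp0 i hi
      simp only [quad] at h1 h2
      rw [inner_sub_right]; linarith
    rw [hV, mem_dirs]
    exact ⟨fun i hi j hj => by rw [key i hi, key j hj]; ring,
      fun i hi h0 => by rw [key i hi, h0]; ring⟩
  by_cases hbot : V = ⊥
  · refine ⟨{p0}, by simp, fun p hp _ => ?_⟩
    have := hsub p hp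
    rw [hbot, Submodule.mem_bot, sub_eq_zero] at this
    simp [this]
  set g : E d := V.starProjection l with hg
  have hgV : g ∈ V := V.starProjection_apply_mem l
  have hlg : ∀ v ∈ V, ⟪l, v⟫_ℝ = ⟪g, v⟫_ℝ := by
    intro v hv
    have := V.starProjection_inner_eq_zero l v hv
    rw [inner_sub_left] at this
    linarith
  have hg0 : g ≠ 0 := fun h0 => hl hbot (by
    rw [Submodule.mem_orthogonal]
    intro v hv
    rw [real_inner_comm, hlg v hv, h0, inner_zero_left])
  by_cases hlin : ∀ i ∈ A, a i = 0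
  · exfalso
    have hline : ∀ t : ℝ, p0 + t • g ∈ Z := by
      intro t i hi
      have h1 := hp0 i hi
      have h2 := (mem_dirs.1 (hV ▸ hgV)).2 i hi (hlin i hi)
      simp only [quad, hlin i hi, zero_mul, zero_add] at h1 ⊢
      rw [inner_add_right, real_inner_smul_right, h2]; linarith
    have hc : Continuous fun t : ℝ => p0 + t • g := by fun_prop
    have htend : Filter.Tendsto (fun t : ℝ => p0 + t • g) (nhds 0) (nhdsWithin p0 Z) := by
      refine tendsto_nhdsWithin_iff.2 ⟨?_, Filter.Eventually.of_forall hline⟩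
      simpa using hc.tendsto 0
    have hmax : IsLocalMax (fun t : ℝ => ⟪l, p0 + t • g⟫_ℝ) 0 := by
      have := htend.eventually hm0
      simpa [IsLocalMax, IsMaxFilter] using this
    have hd : HasDerivAt (fun t : ℝ => ⟪l, p0 + t • g⟫_ℝ) ⟪l, g⟫_ℝ 0 := by
      simpa [inner_add_right, real_inner_smul_right] using
        ((hasDerivAt_id (0 : ℝ)).mul_const ⟪l, g⟫_ℝ).const_add ⟪l, p0⟫_ℝ
    have := hmax.hasDerivAt_eq_zero hd
    rw [hlg g hgV, inner_self_eq_zero] at this
    exact hg0 this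
  push Not at hlin
  obtain ⟨i0, hi0, ha0⟩ := hlin
  set γ : E d := V.starProjection (p0 + (2 * a i0)⁻¹ • b i0) with hγ
  have hiff : ∀ v ∈ V, (p0 + v ∈ Z ↔ ‖v + γ‖ = ‖γ‖) := by
    intro v hv
    have hγv : ⟪p0 + (2 * a i0)⁻¹ • b i0, v⟫_ℝ = ⟪γ, v⟫_ℝ := by
      have := V.starProjection_inner_eq_zero (p0 + (2 * a i0)⁻¹ • b i0) v hv
      rw [inner_sub_left] at this
      linarith
    rw [inner_add_left, real_inner_smul_left] at hγv
    have hnorm : ‖v + γ‖ = ‖γ‖ ↔ a i0 * (‖v‖ ^ 2 + 2 * ⟪γ, v⟫_ℝ) = 0 := by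
      rw [← sq_eq_sq₀ (norm_nonneg _) (norm_nonneg _), norm_add_sq_real, real_inner_comm γ v,
        mul_eq_zero, or_iff_right ha0]
      constructor <;> intro h <;> linarith
    have hval : ∀ i ∈ A, quad (a i) (b i) (c i) (p0 + v)
        = a i * (‖v‖ ^ 2 + 2 * ⟪p0, v⟫_ℝ) + ⟪b i, v⟫_ℝ := by
      intro i hi
      have h := hp0 i hi
      simp only [quad] at h ⊢
      rw [norm_add_sq_real, inner_add_right]; linarith
    have hexp : a i0 * (‖v‖ ^ 2 + 2 * ⟪γ, v⟫_ℝ)
        = a i0 * (‖v‖ ^ 2 + 2 * ⟪p0, v⟫_ℝ) + ⟪b i0, v⟫_ℝ := by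
      rw [← hγv]; field_simp; ring
    rw [hnorm, hexp, ← hval i0 hi0]
    refine ⟨fun h => h i0 hi0, fun h i hi => ?_⟩
    have h2 := (mem_dirs.1 (hV ▸ hv)).1 i0 hi0 i hi
    rw [hval i0 hi0] at h
    have h3 : a i0 * quad (a i) (b i) (c i) (p0 + v) = 0 := by
      rw [hval i hi]; linear_combination h2 + a i * h
    exact (mul_eq_zero.1 h3).resolve_left ha0
  refine ⟨{(p0 - γ) + (‖γ‖ / ‖g‖) • g, (p0 - γ) - (‖γ‖ / ‖g‖) • g}, Finset.card_le_two,
    fun p hp hm => ?_⟩
  set u : E d := p - p0 + γ with hu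
  have huV : u ∈ V := V.add_mem (hsub p hp) (V.starProjection_apply_mem _)
  have hun : ‖u‖ = ‖γ‖ := (hiff _ (hsub p hp)).1
    (show p0 + (p - p0) ∈ Z by rw [add_sub_cancel]; exact hp)
  have hp' : p = (p0 - γ) + u := by rw [hu]; abel
  by_cases hu0 : u = 0
  · have : ‖γ‖ = 0 := by rw [← hun, hu0, norm_zero]
    rw [hp', hu0, this]; simp
  set w : E d := g - (⟪g, u⟫_ℝ / ‖u‖ ^ 2) • u with hw
  have hwu : ⟪w, u⟫_ℝ = 0 := by
    have : ‖u‖ ≠ 0 := norm_ne_zero_iff.2 hu0
    rw [hw, inner_sub_left, real_inner_smul_left, real_inner_self_eq_norm_sq]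
    field_simp; ring
  have hwV : w ∈ V := V.sub_mem hgV (V.smul_mem _ huV)
  have hw0 : w = 0 := by
    by_contra hne
    set k : ℝ := ‖u‖ / ‖w‖ with hk
    set y : ℝ → E d := fun t => (p0 - γ) + (Real.cos t • u + (Real.sin t * k) • w) with hy
    have hyZ : ∀ t, y t ∈ Z := by
      intro t
      have hv : Real.cos t • u + (Real.sin t * k) • w - γ ∈ V :=
        V.sub_mem (V.add_mem (V.smul_mem _ huV) (V.smul_mem _ hwV)) (V.starProjection_apply_mem _)
      have he : y t = p0 + (Real.cos t • u + (Real.sin t * k) • w - γ) := by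
        simp only [hy]; abel
      rw [he, hiff _ hv, sub_add_cancel, ← sq_eq_sq₀ (norm_nonneg _) (norm_nonneg _),
        norm_add_sq_real, real_inner_smul_left, real_inner_smul_right, real_inner_comm w u, hwu,
        norm_smul, norm_smul, mul_pow, mul_pow, Real.norm_eq_abs, Real.norm_eq_abs, sq_abs, sq_abs,
        ← hun]
      have : ‖w‖ ≠ 0 := norm_ne_zero_iff.2 hne
      have hk2 : k ^ 2 * ‖w‖ ^ 2 = ‖u‖ ^ 2 := by rw [hk]; field_simp
      linear_combination (Real.sin t) ^ 2 * hk2 + (‖u‖ ^ 2) * Real.sin_sq_add_cos_sq t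
    have hy0 : y 0 = p := by simp [hy, hp']
    have hc : Continuous y := by simp only [hy]; fun_prop
    have htend : Filter.Tendsto y (nhds 0) (nhdsWithin p Z) := by
      refine tendsto_nhdsWithin_iff.2 ⟨?_, Filter.Eventually.of_forall hyZ⟩
      simpa [hy0] using hc.tendsto 0
    have hmax : IsLocalMax (fun t : ℝ => ⟪l, y t⟫_ℝ) 0 := by
      have := htend.eventually hm
      simpa [IsLocalMax, IsMaxFilter, hy0] using this
    have hd : HasDerivAt (fun t : ℝ => ⟪l, y t⟫_ℝ) (k * ⟪l, w⟫_ℝ) 0 := by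
      have h1 := (Real.hasDerivAt_cos 0).mul_const ⟪l, u⟫_ℝ
      have h2 := ((Real.hasDerivAt_sin 0).mul_const k).mul_const ⟪l, w⟫_ℝ
      have h3 := (h1.add h2).const_add ⟪l, p0 - γ⟫_ℝ
      simpa [hy, inner_add_right, real_inner_smul_right] using h3
    have h := hmax.hasDerivAt_eq_zero hd
    rw [hlg w hwV] at h
    have hgw : ⟪g, w⟫_ℝ = ‖w‖ ^ 2 := by
      have h1 : g = w + (⟪g, u⟫_ℝ / ‖u‖ ^ 2) • u := by rw [hw]; abel
      conv_lhs => rw [h1, inner_add_left, real_inner_smul_left, real_inner_comm w u, hwu]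
      rw [real_inner_self_eq_norm_sq, mul_zero, add_zero]
    rw [hgw, hk] at h
    rcases mul_eq_zero.1 h with h' | h'
    · exact (div_ne_zero (norm_ne_zero_iff.2 hu0) (norm_ne_zero_iff.2 hne)) h'
    · exact pow_ne_zero 2 (norm_ne_zero_iff.2 hne) h'
  set κ := ⟪g, u⟫_ℝ / ‖u‖ ^ 2 with hκ
  have hgu : g = κ • u := sub_eq_zero.1 hw0
  have hκ0 : κ ≠ 0 := fun h => hg0 (by rw [hgu, h, zero_smul])
  have hrep : (‖γ‖ / ‖g‖) • g = (κ / |κ|) • u := by
    rw [hgu, smul_smul, norm_smul, Real.norm_eq_abs, ← hun]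
    congr 1
    have : ‖u‖ ≠ 0 := norm_ne_zero_iff.2 hu0
    have : |κ| ≠ 0 := abs_ne_zero.2 hκ0
    field_simp
  rw [hrep, hp']
  rcases lt_or_gt_of_ne hκ0 with h | h
  · rw [abs_of_neg h, div_neg, div_self hκ0, neg_one_smul, sub_neg_eq_add]; simp
  · rw [abs_of_pos h, div_self hκ0, one_smul]; simp

/-- `s` functions `a‖x‖² + ⟪b,x⟫ + c` have at most `2·2^d·(s+2)^d` sign patterns. -/
theorem pattern_bound {s : ℕ} (a : Fin s → ℝ) (b : Fin s → E d) (c : Fin s → ℝ)
    (P : Finset (E d)) :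
    (P.image fun x i => decide (quad (a i) (b i) (c i) x ≤ 0)).card
      ≤ 2 * 2 ^ d * (s + 2) ^ d := by
  classical
  -- a threshold below all positive values
  obtain ⟨η, hη0, hη⟩ : ∃ η : ℝ, 0 < η ∧ ∀ x ∈ P, ∀ i,
      0 < quad (a i) (b i) (c i) x → η < quad (a i) (b i) (c i) x := by
    let S : Finset ℝ := ((P ×ˢ (Finset.univ : Finset (Fin s))).image
      fun z => quad (a z.2) (b z.2) (c z.2) z.1).filter (0 < ·)
    rcases S.eq_empty_or_nonempty with hS | hS
    · exact ⟨1, one_pos, fun x hx i h => absurd (Finset.mem_filter.2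
        ⟨Finset.mem_image.2 ⟨(x, i), by simp [hx], rfl⟩, h⟩ :
          quad (a i) (b i) (c i) x ∈ S)
          (show quad (a i) (b i) (c i) x ∉ S by rw [hS]; exact Finset.notMem_empty _)⟩
    · have hpos : 0 < S.min' hS := (Finset.mem_filter.1 (S.min'_mem hS)).2
      refine ⟨S.min' hS / 2, by linarith, fun x hx i h => ?_⟩
      have := S.min'_le _ (Finset.mem_filter.2
        ⟨Finset.mem_image.2 ⟨(x, i), by simp [hx], rfl⟩, h⟩ : quad (a i) (b i) (c i) x ∈ S)
      linarith
  -- add one large ball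
  let M : ℝ := ∑ x ∈ P, ‖x‖ ^ 2 + 1
  let a' : Option (Fin s) → ℝ := fun o => o.elim 1 a
  let b' : Option (Fin s) → E d := fun o => o.elim 0 b
  let c0 : Option (Fin s) → ℝ := fun o => o.elim 0 c
  obtain ⟨δ, hδ, hgen⟩ := exists_generic_offsets (fun o => quad (a' o) (b' o) (c0 o))
    (fun o => contDiff_quad _ _ _) (fun o => o.elim M (fun _ => 0))
    (fun o => o.elim (M + 1) (fun _ => η)) (fun o => by cases o <;> simp [hη0])
  let c' : Option (Fin s) → ℝ := fun o => c0 o - δ o
  let G : Option (Fin s) → E d → ℝ := fun o => quad (a' o) (b' o) (c' o)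
  have hG : ∀ o y, G o y = quad (a' o) (b' o) (c0 o) y - δ o := by
    intro o y; simp only [G, c', quad]; ring
  have hgen' : ∀ (T : Finset (Option (Fin s))) y, (∀ o ∈ T, G o y = 0) → T.card ≤ d :=
    fun T y h => hgen T y fun o ho => by have := h o ho; rw [hG] at this; linarith
  obtain ⟨l, hl⟩ : ∃ l : E d, ∀ A, dirs a' b' A ≠ ⊥ → l ∉ (dirs a' b' A)ᗮ := by
    obtain ⟨l, hl⟩ := Submodule.exists_forall_notMem_of_forall_ne_top
      (fun A : {A : Finset (Option (Fin s)) // dirs a' b' A ≠ ⊥} => (dirs a' b' A.1)ᗮ)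
      (fun A => by rw [Ne, Submodule.orthogonal_eq_top_iff]; exact A.2)
    exact ⟨l, fun A hA => hl ⟨A, hA⟩⟩
  choose F hF2 hF using fun A => localMax_two_points a' b' c' A l (hl A)
  let keys : Finset (Σ _ : Finset (Option (Fin s)), E d × Finset (Option (Fin s))) :=
    ((Finset.univ : Finset (Option (Fin s))).powerset.filter fun A => A.card ≤ d).sigma
      fun A => F A ×ˢ A.powerset
  let Φ : (Σ _ : Finset (Option (Fin s)), E d × Finset (Option (Fin s))) → (Fin s → Bool) :=
    fun k i => decide (if some i ∈ k.1 then some i ∈ k.2.2 else G (some i) k.2.1 < 0)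
  have hsub : (P.image fun x i => decide (quad (a i) (b i) (c i) x ≤ 0)) ⊆ keys.image Φ := by
    intro π hπ
    obtain ⟨x, hx, rfl⟩ := Finset.mem_image.1 hπ
    have hne : ∀ o, G o x ≠ 0 ∧ (∀ i, o = some i → (G o x < 0 ↔ quad (a i) (b i) (c i) x ≤ 0))
        ∧ (o = none → G o x < 0) := by
      intro o
      have hd := hδ o
      cases o with
      | none =>
        have hle : ‖x‖ ^ 2 ≤ ∑ z ∈ P, ‖z‖ ^ 2 :=
          Finset.single_le_sum (f := fun z : E d => ‖z‖ ^ 2) (fun _ _ => sq_nonneg _) hx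
        have : G none x < 0 := by
          rw [hG]; simp [quad, a', b', c0, M] at hd ⊢; linarith [hd.1]
        exact ⟨this.ne, by simp, fun _ => this⟩
      | some i =>
        have e : G (some i) x = quad (a i) (b i) (c i) x - δ (some i) := hG _ _
        simp only [Option.elim_some] at hd
        rcases le_or_gt (quad (a i) (b i) (c i) x) 0 with h | h
        · have : G (some i) x < 0 := by linarith [hd.1]
          refine ⟨this.ne, ?_, by simp⟩
          rintro j ⟨⟩
          exact iff_of_true this h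
        · have h2 := hη x hx i h
          have : 0 < G (some i) x := by linarith [hd.2]
          refine ⟨this.ne', ?_, by simp⟩
          rintro j ⟨⟩
          exact iff_of_false (not_lt.2 this.le) (not_le.2 h)
    let K : Set (E d) := {y | ∀ o, 0 ≤ G o x * G o y}
    have hKc : IsClosed K := by
      simp only [K, Set.ofPred_forall]
      exact isClosed_iInter fun o =>
        isClosed_le continuous_const (continuous_const.mul (continuous_quad _ _ _))
    have hKb : K ⊆ Metric.closedBall 0 (M + 2) := by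
      intro y hy
      have h1 := hy none
      have h2 : G none x < 0 := (hne none).2.2 rfl
      have h3 : G none y ≤ 0 := by nlinarith
      rw [hG] at h3
      have hd := hδ none
      simp [quad, a', b', c0] at h3 hd
      have hM : (0 : ℝ) ≤ M := by positivity
      rw [Metric.mem_closedBall, dist_zero_right]
      nlinarith [norm_nonneg y, hd.2]
    obtain ⟨p, hpK, hpmax⟩ := ((isCompact_closedBall _ _).of_isClosed_subset hKc hKb).exists_isMaxOn
      ⟨x, fun o => mul_self_nonneg _⟩ (f := fun y => ⟪l, y⟫_ℝ) (by fun_prop)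
    let A := (Finset.univ : Finset (Option (Fin s))).filter fun o => G o p = 0
    have hA : ∀ o ∈ A, G o p = 0 := fun o ho => (Finset.mem_filter.1 ho).2
    have hloc : IsLocalMaxOn (fun y => ⟪l, y⟫_ℝ) {y | ∀ o ∈ A, G o y = 0} p := by
      have hev : ∀ᶠ y in nhds p, ∀ o, o ∉ A → 0 ≤ G o x * G o y := by
        refine Filter.eventually_all.2 fun o => ?_
        by_cases ho : o ∈ A
        · exact Filter.Eventually.of_forall fun y h => absurd ho h
        · have h0 : G o p ≠ 0 := fun h => ho (Finset.mem_filter.2 ⟨Finset.mem_univ _, h⟩)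
          have hpos : 0 < G o x * G o p :=
            lt_of_le_of_ne (hpK o) (mul_ne_zero (hne o).1 h0).symm
          filter_upwards [(continuous_const.mul (continuous_quad _ _ _)).continuousAt.eventually
            (lt_mem_nhds hpos)] with y hy _ using le_of_lt hy
      refine Filter.eventually_of_mem (Filter.inter_mem (mem_nhdsWithin_of_mem_nhds hev)
        self_mem_nhdsWithin) ?_
      rintro y ⟨hy1, hy2⟩
      refine hpmax (a := y) ?_
      intro o
      by_cases ho : o ∈ A
      · rw [hy2 o ho, mul_zero]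
      · exact hy1 o ho
    have hpF : p ∈ F A := hF A p hA hloc
    refine Finset.mem_image.2 ⟨⟨A, (p, A.filter fun o => G o x < 0)⟩, Finset.mem_sigma.2
      ⟨Finset.mem_filter.2 ⟨Finset.mem_powerset.2 (Finset.subset_univ _), hgen' A p hA⟩,
       Finset.mem_product.2 ⟨hpF, Finset.mem_powerset.2 (Finset.filter_subset _ _)⟩⟩, ?_⟩
    funext i
    simp only [Φ]
    congr 1
    apply propext
    rw [← (hne (some i)).2.1 i rfl]
    by_cases ho : some i ∈ A
    · rw [if_pos ho, Finset.mem_filter]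
      exact and_iff_right ho
    · rw [if_neg ho]
      have h0 : G (some i) p ≠ 0 := fun h => ho (Finset.mem_filter.2 ⟨Finset.mem_univ _, h⟩)
      have hpos : 0 < G (some i) x * G (some i) p :=
        lt_of_le_of_ne (hpK _) (mul_ne_zero (hne _).1 h0).symm
      rcases lt_or_gt_of_ne h0 with h | h
      · exact iff_of_true h (by nlinarith)
      · exact iff_of_false (not_lt.2 h.le) (by nlinarith)
  refine (Finset.card_le_card hsub).trans (Finset.card_image_le.trans ?_)
  rw [Finset.card_sigma]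
  calc ∑ A ∈ (Finset.univ : Finset (Option (Fin s))).powerset.filter (fun A => A.card ≤ d),
        (F A ×ˢ A.powerset).card
      ≤ ∑ _A ∈ (Finset.univ : Finset (Option (Fin s))).powerset.filter (fun A => A.card ≤ d),
        2 * 2 ^ d := by
        refine Finset.sum_le_sum fun A hA => ?_
        rw [Finset.card_product, Finset.card_powerset]
        exact Nat.mul_le_mul (hF2 A) (Nat.pow_le_pow_right two_pos (Finset.mem_filter.1 hA).2)
    _ ≤ (s + 2) ^ d * (2 * 2 ^ d) := by
        rw [Finset.sum_const, smul_eq_mul]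
        refine Nat.mul_le_mul_right _ ((card_small_subsets _ d).trans ?_)
        simp
    _ = _ := by ring

end Vale.Agent.P054
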