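import Vale.Agent.P054.Flats

/-!
Generic projections, and counting independent tuples.
-/

namespace Vale.Agent.P054

open Module
open scoped InnerProductSpace

/-- A projection to `ℝ^j` that is injective on finitely many subspaces of dimension at most `j`. -/
lemma exists_projection {κ : Type*} [Finite κ] (j : ℕ) : ∀ (k : ℕ) (V : κ → Submodule ℝ (E (j + k))),
    (∀ i, finrank ℝ (V i) ≤ j) →
      ∃ π : E (j + k) →ₗ[ℝ] E j, ∀ i, ∀ v ∈ V i, π v = 0 → v = 0 := by
  intro k
  induction k with
  | zero => exact fun V _ => ⟨LinearMap.id, fun i v _ h => h⟩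
  | succ k ih =>
    intro V hV
    obtain ⟨w, hw⟩ := Submodule.exists_forall_notMem_of_forall_ne_top V (fun i h => by
      have := hV i
      rw [h, finrank_top, finrank_euclideanSpace_fin] at this
      omega)
    rcases isEmpty_or_nonempty κ with hκ | ⟨⟨i0⟩⟩
    · exact ⟨0, fun i => isEmptyElim i⟩
    have hw0 : w ≠ 0 := fun h => hw i0 (h ▸ (V i0).zero_mem)
    let U : Submodule ℝ (E (j + (k + 1))) := (Submodule.span ℝ {w})ᗮ
    have hU : finrank ℝ U = j + k := by
      have h1 := Submodule.finrank_add_finrank_orthogonal (Submodule.span ℝ {w})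
      rw [finrank_span_singleton hw0, finrank_euclideanSpace_fin] at h1
      simp only [U]
      omega
    let π0 : E (j + (k + 1)) →ₗ[ℝ] E (j + k) :=
      (((stdOrthonormalBasis ℝ U).reindex (finCongr hU)).repr).toLinearEquiv.toLinearMap ∘ₗ
        U.orthogonalProjectionOnto.toLinearMap
    have hker : ∀ i, ∀ v ∈ V i, π0 v = 0 → v = 0 := by
      intro i v hv h
      have h1 : U.orthogonalProjectionOnto v = 0 := by
        simpa [π0] using h
      rw [Submodule.orthogonalProjectionOnto_eq_zero_iff, Submodule.orthogonal_orthogonal,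
        Submodule.mem_span_singleton] at h1
      obtain ⟨c, rfl⟩ := h1
      by_cases hc : c = 0
      · simp [hc]
      · exact absurd ((Submodule.smul_mem_iff _ hc).1 hv) (hw i)
    obtain ⟨π, hπ⟩ := ih (fun i => (V i).map π0) fun i => (Submodule.finrank_map_le _ _).trans (hV i)
    exact ⟨π ∘ₗ π0, fun i v hv h => hker i v hv (hπ i _ (Submodule.mem_map_of_mem hv) h)⟩

/-- Either many independent `j`-tuples, or a subspace of dimension `< j` holding half the points. -/
lemma indep_tuples_or_heavy {d : ℕ} (Z : Finset (E d)) (j : ℕ)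
    (hheavy : ∀ W : Submodule ℝ (E d), finrank ℝ W < j →
      ∀ T ⊆ Z, (∀ a ∈ T, a ∈ W) → 2 * T.card ≤ Z.card) :
    ∃ F : Finset (Fin j → E d), (∀ f ∈ F, (∀ i, f i ∈ Z) ∧ LinearIndependent ℝ f) ∧
      (Z.card : ℝ) ^ j ≤ 2 ^ j * F.card := by
  classical
  have key : ∀ i ≤ j, ∃ F : Finset (Fin i → E d),
      (∀ f ∈ F, (∀ l, f l ∈ Z) ∧ LinearIndependent ℝ f) ∧
      (Z.card : ℝ) ^ i ≤ 2 ^ i * F.card := by
    intro i
    induction i with
    | zero =>
      intro _
      refine ⟨{fun l => Fin.elim0 l}, fun f _ => ⟨fun l => Fin.elim0 l, linearIndependent_empty_type⟩, ?_⟩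
      simp
    | succ i ih =>
      intro hi
      obtain ⟨F, hF, hcard⟩ := ih (by omega)
      let ext : (Fin i → E d) → Finset (E d) :=
        fun f => Z.filter fun a => a ∉ Submodule.span ℝ (Set.range f)
      let P := F.sigma ext
      refine ⟨P.image fun p => Fin.snoc p.1 p.2, ?_, ?_⟩
      · intro g hg
        obtain ⟨⟨f, a⟩, hp, rfl⟩ := Finset.mem_image.1 hg
        obtain ⟨hf, ha⟩ := Finset.mem_sigma.1 hp
        obtain ⟨haZ, hnot⟩ := Finset.mem_filter.1 ha
        refine ⟨fun l => ?_, linearIndependent_finSnoc.2 ⟨(hF f hf).2, hnot⟩⟩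
        induction l using Fin.lastCases with
        | last => simpa using haZ
        | cast l => simpa using (hF f hf).1 l
      · have hinj : (P.image fun p => (Fin.snoc p.1 p.2 : Fin (i + 1) → E d)).card = P.card := by
          refine Finset.card_image_of_injective _ fun p q h => ?_
          obtain ⟨f, a⟩ := p
          obtain ⟨g, b⟩ := q
          have h1 := congrArg Fin.init h
          have h2 := congrFun h (Fin.last i)
          simp only [Fin.init_snoc] at h1
          simp only [Fin.snoc_last] at h2
          subst h1 h2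
          rfl
        have hext : ∀ f ∈ F, (Z.card : ℝ) / 2 ≤ ((ext f).card : ℝ) := by
          intro f hf
          have h1 := hheavy (Submodule.span ℝ (Set.range f))
            (lt_of_le_of_lt (finrank_range_le_card (R := ℝ) f) (by simp; omega))
            (Z.filter fun a => a ∈ Submodule.span ℝ (Set.range f)) (Finset.filter_subset _ _)
            (fun a ha => (Finset.mem_filter.1 ha).2)
          have h2 := Z.card_filter_add_card_filter_not fun a => a ∈ Submodule.span ℝ (Set.range f)
          have h3 : (2 : ℝ) * (ext f).card ≥ Z.card := by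
            have : Z.card ≤ 2 * (ext f).card := by simp only [ext]; omega
            exact_mod_cast this
          linarith
        rw [hinj, Finset.card_sigma, Nat.cast_sum]
        refine le_trans ?_ (mul_le_mul_of_nonneg_left (Finset.sum_le_sum hext) (by positivity))
        rw [Finset.sum_const, nsmul_eq_mul, pow_succ, pow_succ]
        have := mul_le_mul_of_nonneg_right hcard (Nat.cast_nonneg Z.card : (0 : ℝ) ≤ Z.card)
        linarith
  exact key j le_rfl

/-- An affine function on `ℝ^j` vanishing exactly on the flat spanned by `B` among finitely many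
given points. -/
lemma exists_separating {j : ℕ} (p0 : E j) (D : Submodule ℝ (E j)) (out : Finset (E j))
    (hout : ∀ p ∈ out, p - p0 ∉ D) :
    ∃ (w : E j) (c : ℝ), (∀ p, p - p0 ∈ D → ⟪w, p⟫_ℝ = c) ∧ ∀ p ∈ out, ⟪w, p⟫_ℝ ≠ c := by
  obtain ⟨w, hw⟩ := Submodule.exists_forall_notMem_of_forall_ne_top
    (fun p : ↥out => ((Submodule.span ℝ {p.1 - p0})ᗮ).comap Dᗮ.subtype) (fun p h => by
      refine hout p.1 p.2 ?_
      rw [← Submodule.orthogonal_orthogonal D, Submodule.mem_orthogonal]
      intro v hv
      have : (⟨v, hv⟩ : ↥Dᗮ) ∈ ((Submodule.span ℝ {p.1 - p0})ᗮ).comap Dᗮ.subtype := by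
        rw [h]; exact Submodule.mem_top
      rw [Submodule.mem_comap, Submodule.subtype_apply,
        Submodule.mem_orthogonal_singleton_iff_inner_left] at this
      exact this)
  refine ⟨w.1, ⟪w.1, p0⟫_ℝ, fun p hp => ?_, fun p hp h => hw ⟨p, hp⟩ ?_⟩
  · have h := (Submodule.mem_orthogonal' D w.1).1 w.2 (p - p0) hp
    rw [inner_sub_right] at h
    linarith
  · rw [Submodule.mem_comap, Submodule.subtype_apply,
      Submodule.mem_orthogonal_singleton_iff_inner_left, inner_sub_right, h, sub_self]

end Vale.Agent.P054
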