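import Vale.Agent.P054.Cell
import Vale.Agent.P054.Dual

/-!
The recursion from dimension `d - 2` to dimension `d`.
-/

namespace Vale.Agent.P054

open Module Filter
open scoped InnerProductSpace

variable {d : ℕ}

/-- A translate in which no two points are equidistant from the origin. -/
lemma exists_translate (P : Finset (E d)) :
    ∃ Q : Finset (E d), Q.card = P.card ∧ (dvals Q).card ≤ (dvals P).card ∧ DistinctNorms Q := by
  classical
  obtain ⟨l, hl⟩ := Submodule.exists_forall_notMem_of_forall_ne_top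
    (fun z : {z : E d × E d // z ∈ P.offDiag} => (Submodule.span ℝ {z.1.2 - z.1.1})ᗮ) (fun z => by
      rw [Ne, Submodule.orthogonal_eq_top_iff, Submodule.span_singleton_eq_bot]
      exact sub_ne_zero.2 (Finset.mem_offDiag.1 z.2).2.2.symm)
  obtain ⟨t, ht⟩ := Finset.exists_notMem
    (P.offDiag.image fun z => (‖z.2‖ ^ 2 - ‖z.1‖ ^ 2) / (2 * ⟪z.2 - z.1, l⟫_ℝ))
  refine ⟨P.image fun x => x - t • l, Finset.card_image_of_injective _ (sub_left_injective), ?_, ?_⟩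
  · refine Finset.card_le_card ?_
    intro v hv
    obtain ⟨⟨a, b⟩, hab, rfl⟩ := Finset.mem_image.1 hv
    obtain ⟨ha, hb, hne⟩ := Finset.mem_offDiag.1 hab
    obtain ⟨x, hx, rfl⟩ := Finset.mem_image.1 ha
    obtain ⟨y, hy, rfl⟩ := Finset.mem_image.1 hb
    exact Finset.mem_image.2 ⟨(x, y), Finset.mem_offDiag.2
      ⟨hx, hy, fun h => hne (by simp only at h; rw [h])⟩, (dist_sub_right x y _).symm⟩
  · intro a ha b hb hne hnorm
    obtain ⟨x, hx, rfl⟩ := Finset.mem_image.1 ha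
    obtain ⟨y, hy, rfl⟩ := Finset.mem_image.1 hb
    have hxy : x ≠ y := fun h => hne (by rw [h])
    have hmem : (x, y) ∈ P.offDiag := Finset.mem_offDiag.2 ⟨hx, hy, hxy⟩
    have hne0 : ⟪y - x, l⟫_ℝ ≠ 0 := fun h0 =>
      hl ⟨(x, y), hmem⟩ (Submodule.mem_orthogonal_singleton_iff_inner_right.2 h0)
    apply ht
    refine Finset.mem_image.2 ⟨(x, y), hmem, ?_⟩
    rw [div_eq_iff (mul_ne_zero two_ne_zero hne0)]
    have h2 : ‖x - t • l‖ ^ 2 = ‖y - t • l‖ ^ 2 := by rw [hnorm]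
    rw [norm_sub_sq_real, norm_sub_sq_real, real_inner_smul_right, real_inner_smul_right] at h2
    rw [inner_sub_left]
    linear_combination (-1 : ℝ) * h2

/-- Two hyperplanes share few points of `P`. -/
lemma common_le {A C : ℝ} (_hd : 2 ≤ d) (hA : 0 ≤ A) (hC : 0 ≤ C)
    (hB : ∀ P : Finset (E (d - 2)), (P.card : ℝ) ≤ C * ((dvals P).card + 1 : ℝ) ^ A)
    (P : Finset (E d)) {a b : E d} (hab : a ≠ b) :
    ((P.filter fun x => ⟪x, a⟫_ℝ = 1 ∧ ⟪x, b⟫_ℝ = 1).card : ℝ)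
      ≤ C * ((dvals P).card + 1 : ℝ) ^ A := by
  classical
  set Q := P.filter fun x => ⟪x, a⟫_ℝ = 1 ∧ ⟪x, b⟫_ℝ = 1
  rcases Q.eq_empty_or_nonempty with h | ⟨x0, h0⟩
  · rw [h, Finset.card_empty, Nat.cast_zero]; positivity
  obtain ⟨-, ha, hb⟩ := Finset.mem_filter.1 h0
  refine bd_flat hA hC hB (Submodule.span ℝ (Set.range ![a, b]))ᗮ (finrank_orth_pair hab ha hb) P Q
    (Finset.filter_subset _ _) x0 fun x hx => ?_
  obtain ⟨-, hxa, hxb⟩ := Finset.mem_filter.1 hx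
  rw [Submodule.mem_orthogonal']
  intro w hw
  induction hw using Submodule.span_induction with
  | mem w hw =>
    obtain ⟨i, rfl⟩ := hw
    fin_cases i
    · simp [inner_sub_left, hxa, ha]
    · simp [inner_sub_left, hxb, hb]
  | zero => simp
  | add u v _ _ hu hv => rw [inner_add_right, hu, hv, add_zero]
  | smul r u _ hu => rw [real_inner_smul_right, hu, mul_zero]

/-- A family of `t`-rich hyperplanes meeting pairwise in at most `L` points is small. -/
lemma family_small (P K : Finset (E d)) (t L N : ℝ) (ht : 0 < t) (hN : 0 ≤ N)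
    (hrich : ∀ a ∈ K, t ≤ (rich P a : ℝ))
    (hL : ∀ a ∈ K, ∀ b ∈ K, a ≠ b →
      ((P.filter fun x => ⟪x, a⟫_ℝ = 1 ∧ ⟪x, b⟫_ℝ = 1).card : ℝ) ≤ L)
    (hL0 : 0 ≤ L)
    (hU : ((P.filter fun x => ∃ a ∈ K, ⟪x, a⟫_ℝ = 1).card : ℝ) ≤ N)
    (hcond : 2 * N * L < t ^ 2) :
    (K.card : ℝ) * t ≤ 2 * N := by
  classical
  by_contra hlt
  push Not at hlt
  set U := P.filter fun x => ∃ a ∈ K, ⟪x, a⟫_ℝ = 1 with hUdef
  set z : E d → ℝ := fun x => ((K.filter fun a => ⟪x, a⟫_ℝ = 1).card : ℝ)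
  set S : ℝ := ∑ a ∈ K, (rich P a : ℝ) with hS
  have hK : (0 : ℝ) < K.card := by
    rcases K.eq_empty_or_nonempty with h | h
    · simp [h] at hlt; linarith
    · exact_mod_cast h.card_pos
  have hSge : (K.card : ℝ) * t ≤ S := by
    rw [hS]
    simpa using Finset.card_nsmul_le_sum K (fun a => (rich P a : ℝ)) t hrich
  have hzU : ∑ x ∈ U, z x = S := by
    simp only [z, S, rich, Finset.card_filter, Nat.cast_sum]
    rw [Finset.sum_comm]
    refine Finset.sum_congr rfl fun a ha => ?_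
    rw [Finset.sum_filter]
    refine Finset.sum_congr rfl fun x _ => ?_
    by_cases h : ⟪x, a⟫_ℝ = 1
    · rw [if_pos ⟨a, ha, h⟩]
    · simp [h]
  have hz2 : ∑ x ∈ U, z x ^ 2 = ∑ a ∈ K, ∑ b ∈ K,
      ((P.filter fun x => ⟪x, a⟫_ℝ = 1 ∧ ⟪x, b⟫_ℝ = 1).card : ℝ) := by
    have e : ∀ a ∈ K, ∀ b, P.filter (fun x => ⟪x, a⟫_ℝ = 1 ∧ ⟪x, b⟫_ℝ = 1)
        = U.filter (fun x => ⟪x, a⟫_ℝ = 1 ∧ ⟪x, b⟫_ℝ = 1) := by
      intro a ha b
      ext x
      simp only [U, Finset.mem_filter]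
      exact ⟨fun h => ⟨⟨h.1, a, ha, h.2.1⟩, h.2⟩, fun h => ⟨h.1.1, h.2⟩⟩
    calc ∑ x ∈ U, z x ^ 2
        = ∑ x ∈ U, ∑ a ∈ K, ∑ b ∈ K, (if ⟪x, a⟫_ℝ = 1 ∧ ⟪x, b⟫_ℝ = 1 then (1 : ℝ) else 0) := by
          refine Finset.sum_congr rfl fun x _ => ?_
          simp only [z, Finset.card_filter, Nat.cast_sum, sq, Finset.sum_mul_sum]
          refine Finset.sum_congr rfl fun a _ => Finset.sum_congr rfl fun b _ => ?_
          by_cases h1 : ⟪x, a⟫_ℝ = 1 <;> by_cases h2 : ⟪x, b⟫_ℝ = 1 <;> simp [h1, h2]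
      _ = ∑ a ∈ K, ∑ b ∈ K, ∑ x ∈ U, (if ⟪x, a⟫_ℝ = 1 ∧ ⟪x, b⟫_ℝ = 1 then (1 : ℝ) else 0) := by
          rw [Finset.sum_comm]
          exact Finset.sum_congr rfl fun a _ => Finset.sum_comm
      _ = _ := by
          refine Finset.sum_congr rfl fun a ha => Finset.sum_congr rfl fun b _ => ?_
          rw [e a ha b, Finset.card_filter, Nat.cast_sum]
          exact Finset.sum_congr rfl fun x _ => by split_ifs <;> simp
  have hz2le : ∑ x ∈ U, z x ^ 2 ≤ S + (K.card : ℝ) * K.card * L := by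
    rw [hz2]
    refine (Finset.sum_le_sum (g := fun a => (rich P a : ℝ) + (K.card : ℝ) * L) fun a ha => ?_).trans ?_
    · rw [← Finset.add_sum_erase _ _ ha]
      refine add_le_add (le_of_eq ?_) ?_
      · simp only [and_self, rich]
      · refine (Finset.sum_le_card_nsmul _ _ L fun b hb =>
          hL a ha b (Finset.mem_of_mem_erase hb) (Finset.ne_of_mem_erase hb).symm).trans ?_
        rw [nsmul_eq_mul]
        exact mul_le_mul_of_nonneg_right (Nat.cast_le.2 (Finset.card_erase_le)) hL0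
    · rw [Finset.sum_add_distrib, Finset.sum_const, nsmul_eq_mul, ← hS, mul_assoc]
  have hcs := sq_sum_le_card_mul_sum_sq (s := U) (f := z)
  rw [hzU] at hcs
  have h1 : S ^ 2 ≤ N * (S + (K.card : ℝ) * K.card * L) :=
    hcs.trans (mul_le_mul hU hz2le (Finset.sum_nonneg fun x _ => sq_nonneg _) hN)
  have hS0 : 0 ≤ S := le_trans (by positivity) hSge
  have h2 : ((K.card : ℝ) * t) ^ 2 ≤ S ^ 2 := pow_le_pow_left₀ (by positivity) hSge 2
  have h3 : N * S ≤ S ^ 2 / 2 := by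
    have : N * S * 2 ≤ S * S := by
      have := mul_le_mul_of_nonneg_right (by linarith : 2 * N ≤ S) hS0
      linarith
    rw [sq]; linarith
  have h4 : (K.card : ℝ) ^ 2 * (2 * N * L) < (K.card : ℝ) ^ 2 * t ^ 2 :=
    mul_lt_mul_of_pos_left hcond (by positivity)
  nlinarith

/-- The number of `t`-rich hyperplanes of a family. -/
lemma level_bound (P H : Finset (E d)) (t L ε : ℝ) (s : ℕ) (ht : 0 < t) (hε : 0 ≤ ε) (hL0 : 0 ≤ L)
    (hs : (((2 * P.card + 2 * d + 1) ^ (2 * d) : ℕ) : ℝ) * (1 - ε) ^ s < 1)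
    (hrich : ∀ a ∈ H, t ≤ (rich P a : ℝ))
    (hL : ∀ a ∈ H, ∀ b ∈ H, a ≠ b →
      ((P.filter fun x => ⟪x, a⟫_ℝ = 1 ∧ ⟪x, b⟫_ℝ = 1).card : ℝ) ≤ L)
    (hcond : 2 * ((dualC d : ℝ) * ε * P.card + L) * L < t ^ 2) :
    (H.card : ℝ) ≤ (dualC d : ℝ) * ((s : ℝ) + 2 * d + 1) ^ d
      * (2 * ((dualC d : ℝ) * ε * P.card + L) / t + 1) := by
  classical
  set N := (dualC d : ℝ) * ε * P.card + L with hN
  have hN0 : 0 ≤ N := by rw [hN]; positivity
  rcases H.eq_empty_or_nonempty with h | hH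
  · rw [h, Finset.card_empty, Nat.cast_zero]; positivity
  obtain ⟨K, hKH, hcard, hKne, hcross⟩ := dual_cell P H hH s ε hε hs
  have hK : (K.card : ℝ) ≤ 2 * N / t + 1 := by
    have hnn : 0 ≤ 2 * N / t := by positivity
    rcases le_or_gt K.card 1 with h1 | h1
    · have : (K.card : ℝ) ≤ 1 := by exact_mod_cast h1
      linarith
    obtain ⟨a0, ha0, b0, hb0, hab⟩ := Finset.one_lt_card.1 h1
    have hU : ((P.filter fun x => ∃ a ∈ K, ⟪x, a⟫_ℝ = 1).card : ℝ) ≤ N := by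
      have hsub : P.filter (fun x => ∃ a ∈ K, ⟪x, a⟫_ℝ = 1) ⊆
          (P.filter fun x => ∃ a ∈ K, ⟪x, a⟫_ℝ = 1 ∧ ∃ b ∈ K, ⟪x, b⟫_ℝ ≠ 1) ∪
          (P.filter fun x => ⟪x, a0⟫_ℝ = 1 ∧ ⟪x, b0⟫_ℝ = 1) := by
        intro x hx
        obtain ⟨hxP, a, ha, hxa⟩ := Finset.mem_filter.1 hx
        by_cases hall : ∀ b ∈ K, ⟪x, b⟫_ℝ = 1
        · exact Finset.mem_union_right _ (Finset.mem_filter.2 ⟨hxP, hall a0 ha0, hall b0 hb0⟩)
        · push Not at hall
          exact Finset.mem_union_left _ (Finset.mem_filter.2 ⟨hxP, a, ha, hxa, hall⟩)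
      refine le_trans (Nat.cast_le.2 ((Finset.card_le_card hsub).trans (Finset.card_union_le _ _))) ?_
      rw [Nat.cast_add, hN]
      exact add_le_add hcross (hL a0 (hKH ha0) b0 (hKH hb0) hab)
    have := family_small P K t L N ht hN0 (fun a ha => hrich a (hKH ha))
      (fun a ha b hb => hL a (hKH ha) b (hKH hb)) hL0 hU hcond
    rw [← le_div_iff₀ ht] at this
    linarith
  have h : (H.card : ℝ) ≤ ((dualC d * (s + 2 * d + 1) ^ d * K.card : ℕ) : ℝ) := Nat.cast_le.2 hcard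
  push_cast at h
  exact h.trans (mul_le_mul_of_nonneg_left hK (by positivity))

/-- Layer cake. -/
lemma sum_rich_le (P H : Finset (E d)) (κ B : ℝ) (hκ : 0 < κ) (hB : 0 ≤ B)
    (hH : ∀ v ∈ H, κ ≤ (rich P v : ℝ))
    (hlev : ∀ t : ℝ, κ ≤ t → t ≤ P.card →
      ((H.filter fun v => t ≤ (rich P v : ℝ)).card : ℝ) ≤ B / t) :
    ∑ v ∈ H, (rich P v : ℝ) ≤ B * (2 + Real.log P.card) := by
  classical
  have hk : ∀ v, rich P v ≤ P.card := fun v => Finset.card_filter_le _ _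
  rcases H.eq_empty_or_nonempty with h | ⟨v0, hv0⟩
  · rw [h, Finset.sum_empty]
    have : 0 ≤ Real.log P.card := Real.log_natCast_nonneg _
    positivity
  have hκn : κ ≤ P.card := (hH v0 hv0).trans (Nat.cast_le.2 (hk v0))
  have hpt : ∀ v ∈ H, (rich P v : ℝ) ≤ κ + ∑ i ∈ Finset.Icc 1 P.card,
      (if κ ≤ (i : ℝ) ∧ i ≤ rich P v then (1 : ℝ) else 0) := by
    intro v _
    have e : (rich P v : ℝ) = ∑ i ∈ Finset.Icc 1 P.card, (if i ≤ rich P v then (1 : ℝ) else 0) := by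
      rw [← Finset.sum_filter, Finset.sum_const, nsmul_one]
      congr 1
      rw [show (Finset.Icc 1 P.card).filter (· ≤ rich P v) = Finset.Icc 1 (rich P v) by
        ext i; simp; have := hk v; omega]
      simp
    have hsmall : ∑ i ∈ Finset.Icc 1 P.card, (if (i : ℝ) < κ then (1 : ℝ) else 0) ≤ κ := by
      rw [← Finset.sum_filter, Finset.sum_const, nsmul_one]
      refine le_trans (Nat.cast_le.2 (Finset.card_le_card (t := Finset.Icc 1 ⌊κ⌋₊) ?_)) ?_
      · intro i hi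
        simp only [Finset.mem_filter, Finset.mem_Icc] at hi ⊢
        exact ⟨hi.1.1, Nat.le_floor hi.2.le⟩
      · simp [Nat.floor_le hκ.le]
    rw [e]
    refine le_trans ?_ (add_le_add hsmall le_rfl)
    rw [← Finset.sum_add_distrib]
    refine Finset.sum_le_sum fun i _ => ?_
    by_cases h1 : i ≤ rich P v <;> by_cases h2 : (i : ℝ) < κ <;>
      simp [h1, h2, not_le.2, le_of_not_gt]
  refine (Finset.sum_le_sum hpt).trans ?_
  rw [Finset.sum_add_distrib, Finset.sum_const, nsmul_eq_mul, Finset.sum_comm]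
  have h1 : (H.card : ℝ) * κ ≤ B := by
    have := hlev κ le_rfl hκn
    rw [Finset.filter_true_of_mem (fun v hv => hH v hv)] at this
    rwa [le_div_iff₀ hκ] at this
  have h2 : ∀ i ∈ Finset.Icc 1 P.card, ∑ v ∈ H,
      (if κ ≤ (i : ℝ) ∧ i ≤ rich P v then (1 : ℝ) else 0) ≤ B * (i : ℝ)⁻¹ := by
    intro i hi
    have hi' := Finset.mem_Icc.1 hi
    by_cases hk' : κ ≤ (i : ℝ)
    · refine le_trans (le_of_eq ?_) ((hlev i hk' (Nat.cast_le.2 hi'.2)).trans_eq (div_eq_mul_inv _ _))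
      rw [Finset.card_filter, Nat.cast_sum]
      refine Finset.sum_congr rfl fun v _ => ?_
      by_cases h : i ≤ rich P v <;> simp [hk', h]
    · simp only [hk', false_and, if_false, Finset.sum_const_zero]
      positivity
  have h3 : ∑ i ∈ Finset.Icc 1 P.card, (i : ℝ)⁻¹ ≤ 1 + Real.log P.card := by
    have := harmonic_le_one_add_log P.card
    rw [harmonic_eq_sum_Icc] at this
    push_cast at this
    exact this
  calc _ ≤ B + ∑ i ∈ Finset.Icc 1 P.card, B * (i : ℝ)⁻¹ := add_le_add h1 (Finset.sum_le_sum h2)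
    _ = B + B * ∑ i ∈ Finset.Icc 1 P.card, (i : ℝ)⁻¹ := by rw [Finset.mul_sum]
    _ ≤ _ := by nlinarith

lemma ev_rpow_lt {a b : ℝ} (C : ℝ) (h : a < b) :
    ∀ᶠ x : ℝ in atTop, C * x ^ a < x ^ b := by
  filter_upwards [(tendsto_rpow_atTop (sub_pos.2 h)).eventually_gt_atTop C,
    eventually_gt_atTop 0] with x hx hx0
  calc C * x ^ a < x ^ (b - a) * x ^ a := mul_lt_mul_of_pos_right hx (Real.rpow_pos_of_pos hx0 a)
    _ = x ^ b := by rw [← Real.rpow_add hx0, sub_add_cancel]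

lemma ev_exp_small {η : ℝ} (hη : 0 < η) (K : ℕ) (C : ℝ) :
    ∀ᶠ x : ℝ in atTop, C * x ^ K * Real.exp (-x ^ η) < 1 := by
  have h := ((tendsto_rpow_mul_exp_neg_mul_atTop_nhds_zero ((K : ℝ) / η) 1 one_pos).comp
    (tendsto_rpow_atTop hη)).const_mul C
  rw [mul_zero] at h
  filter_upwards [h.eventually (gt_mem_nhds one_pos), eventually_gt_atTop 0] with x hx hx0
  rw [Function.comp_apply, ← Real.rpow_mul hx0.le, mul_div_cancel₀ _ hη.ne', Real.rpow_natCast,
    neg_one_mul, ← mul_assoc] at hx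
  exact hx

lemma one_sub_pow_le_exp {ε y : ℝ} (s : ℕ) (h1 : ε ≤ 1) (hy : y ≤ ε * s) :
    (1 - ε) ^ s ≤ Real.exp (-y) := by
  calc (1 - ε) ^ s ≤ Real.exp (-ε) ^ s :=
        pow_le_pow_left₀ (by linarith) (Real.one_sub_le_exp_neg ε) s
    _ = Real.exp (-(ε * s)) := by rw [← Real.exp_nat_mul]; ring_nf
    _ ≤ _ := Real.exp_le_exp.2 (by linarith)

set_option maxHeartbeats 1000000 in
/-- The recursion. -/
theorem step {A δ ρ σ : ℝ} (hd : 2 ≤ d) (hB : Bd (d - 2) A) (hA : 0 ≤ A) (hρ : 0 < ρ) (hσ : 0 < σ)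
    (c1 : ((d : ℝ) - 1) * ρ + δ < 1) (c2 : ρ ≤ δ) (c3 : ((d : ℝ) - 1) * σ < ρ)
    (c4 : δ * A < 1 - δ + ρ) (c5 : 1 - σ + δ * A < 2 * (1 - δ + ρ)) (c6 : δ * A + σ < 1) :
    Bd d (1 / δ) := by
  classical
  obtain ⟨C, hC, hCB⟩ := hB
  have hδ : 0 < δ := hρ.trans_le c2
  have hd2 : (2 : ℝ) ≤ d := by exact_mod_cast hd
  have hρ1 : ρ < 1 := by nlinarith
  obtain ⟨η, hη, e1, e3, e4, e5, e6, e7, e8⟩ : ∃ η : ℝ, 0 < η ∧
      ((d : ℝ) - 1) * ρ + δ + η < 1 ∧ ((d : ℝ) - 1) * σ + ((d : ℝ) + 2) * η < ρ ∧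
      δ * A < 1 - δ + ρ - η ∧ 1 - σ + η + δ * A < 2 * (1 - δ + ρ - η) ∧
      δ * A + σ < 1 ∧ η < ρ ∧ η < σ := by
    have key : ∀ᶠ η : ℝ in nhds 0,
        ((d : ℝ) - 1) * ρ + δ + η < 1 ∧ ((d : ℝ) - 1) * σ + ((d : ℝ) + 2) * η < ρ ∧
        δ * A < 1 - δ + ρ - η ∧ 1 - σ + η + δ * A < 2 * (1 - δ + ρ - η) ∧
        δ * A + σ < 1 ∧ η < ρ ∧ η < σ := by
      have l : ∀ f g : ℝ → ℝ, Continuous f → Continuous g → f 0 < g 0 →
          ∀ᶠ η in nhds 0, f η < g η := fun f g hf hg h => hf.continuousAt.eventually_lt hg.continuousAt h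
      refine (l _ _ (by fun_prop) (by fun_prop) ?_).and ((l _ _ (by fun_prop) (by fun_prop) ?_).and
        ((l _ _ (by fun_prop) (by fun_prop) ?_).and ((l _ _ (by fun_prop) (by fun_prop) ?_).and
        ((Eventually.of_forall fun _ => c6).and ((l _ _ (by fun_prop) (by fun_prop) ?_).and
        (l _ _ (by fun_prop) (by fun_prop) ?_))))))
      all_goals linarith
    obtain ⟨η, h, hp⟩ :=
      ((key.filter_mono nhdsWithin_le_nhds).and (self_mem_nhdsWithin (s := Set.Ioi (0 : ℝ)))).exists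
    exact ⟨η, hp, h⟩
  -- eventually in `n`
  set C3 : ℝ := (dualC d : ℝ) * (2 * d + 3) ^ d * (2 * (dualC d : ℝ) + 3) with hC3
  have hev : ∀ᶠ x : ℝ in atTop, 1 ≤ x ∧
      (x ^ 2 * Real.exp (-x ^ η) < 1) ∧
      (((2 * (d : ℝ) + 3) ^ (2 * d) * x ^ (2 * d)) * Real.exp (-x ^ η) < 1) ∧
      (4 * 19 * (2 * 2 ^ d * 4 ^ d) * x ^ (δ - ρ + η + (d : ℝ) * ρ) < x ^ (1 : ℝ)) ∧
      (C * x ^ (δ * A) < x ^ (1 - σ + η)) ∧
      (152 * (2 * ((dualC d : ℝ) + 1)) * C * x ^ (δ * A) < x ^ (1 - (δ - ρ + η))) ∧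
      (152 * 152 * (2 * ((dualC d : ℝ) + 1)) * C * x ^ (δ * A + (1 - σ + η))
        < x ^ (2 * (1 - (δ - ρ + η)))) ∧
      (64 * x ^ (0 : ℝ) < x ^ (1 + ρ - η)) ∧
      (64 * C3 * (2 + 1 / η) * x ^ ((d : ℝ) * η + ((d : ℝ) - 1) * σ + 1 + η)
        < x ^ (1 + ρ - η)) := by
    refine (eventually_ge_atTop 1).and (Eventually.and ?_ (Eventually.and ?_ ((ev_rpow_lt _ ?_).and
      ((ev_rpow_lt _ ?_).and ((ev_rpow_lt _ ?_).and ((ev_rpow_lt _ ?_).and ((ev_rpow_lt _ ?_).and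
      (ev_rpow_lt _ ?_))))))))
    · simpa using ev_exp_small hη 2 1
    · exact ev_exp_small hη (2 * d) _
    all_goals nlinarith
  obtain ⟨N0, hN0⟩ := eventually_atTop.1 hev
  refine ⟨max N0 1, lt_max_of_lt_right one_pos, fun P => ?_⟩
  rcases le_or_gt ((P.card : ℝ)) (max N0 1) with hsmall | hlarge
  · exact hsmall.trans (le_mul_of_one_le_right (le_trans zero_le_one (le_max_right _ _))
      (Real.one_le_rpow (one_le_dvals_add P) (by positivity)))
  suffices h : (P.card : ℝ) ≤ ((dvals P).card + 1 : ℝ) ^ (1 / δ) by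
    refine h.trans (le_mul_of_one_le_left (Real.rpow_nonneg (by positivity) _) (le_max_right _ _))
  obtain ⟨Q, hQc, hQd, hQN⟩ := exists_translate P
  by_contra hcon
  push Not at hcon
  set n : ℝ := (P.card : ℝ) with hn
  obtain ⟨hn1, q2, q2d, q4, q5, q6, q7, q8, q9⟩ := hN0 n ((le_max_left _ _).trans hlarge.le)
  have hnpos : 0 < n := lt_of_lt_of_le one_pos hn1
  have hnQ : (Q.card : ℝ) = n := by rw [hn, hQc]
  have hQne : Q.Nonempty := by
    rw [← Finset.card_pos, hQc]; rw [hn] at hnpos; exact_mod_cast hnpos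
  set D : ℝ := (dvals Q).card + 1 with hD
  have hD0 : 0 ≤ D := by rw [hD]; positivity
  have hDn : D ≤ n ^ δ := by
    have h1 : D ≤ (dvals P).card + 1 := by rw [hD]; exact_mod_cast Nat.add_le_add_right hQd 1
    have h2 := Real.rpow_le_rpow (Real.rpow_nonneg (by positivity) _) hcon.le hδ.le
    rw [← Real.rpow_mul (by positivity), one_div_mul_cancel hδ.ne', Real.rpow_one] at h2
    exact h1.trans h2
  set ε : ℝ := n ^ (η - ρ) with hε
  set s : ℕ := ⌈n ^ ρ⌉₊ with hs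
  set V : ℕ := ⌈8 * ε * D⌉₊ with hV
  have hε0 : 0 < ε := Real.rpow_pos_of_pos hnpos _
  have hε1 : ε ≤ 1 := Real.rpow_le_one_of_one_le_of_nonpos hn1 (by linarith)
  have hεs : n ^ η ≤ ε * s := by
    calc n ^ η = ε * n ^ ρ := by rw [hε, ← Real.rpow_add hnpos, sub_add_cancel]
      _ ≤ _ := mul_le_mul_of_nonneg_left (Nat.le_ceil _) hε0.le
  set W : ℝ := 2 * (V : ℝ) + 1 with hW
  have hW19 : W ≤ 19 * n ^ (δ - ρ + η) := by
    have h1 : (V : ℝ) < 8 * ε * D + 1 := Nat.ceil_lt_add_one (by positivity)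
    have h2 : ε * D ≤ n ^ (δ - ρ + η) := by
      rw [show δ - ρ + η = (η - ρ) + δ by ring, Real.rpow_add hnpos]
      exact mul_le_mul_of_nonneg_left hDn hε0.le
    have h3 : (1 : ℝ) ≤ n ^ (δ - ρ + η) := Real.one_le_rpow hn1 (by linarith)
    linarith
  have hW0 : 0 < W := by positivity
  have hforced := forced_incidences Q hQne hQN s V ε hε0 hε1
    (by
      rw [hnQ]
      exact lt_of_le_of_lt (mul_le_mul_of_nonneg_left (one_sub_pow_le_exp s hε1 hεs) (sq_nonneg n)) q2)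
    (by
      have : 8 * ε * D ≤ V := Nat.le_ceil _
      linarith)
    (by
      rw [hnQ, ← hW]
      have hs4 : (s : ℝ) + 2 ≤ 4 * n ^ ρ := by
        have h1 : (s : ℝ) < n ^ ρ + 1 := Nat.ceil_lt_add_one (by positivity)
        have h3 : (1 : ℝ) ≤ n ^ ρ := Real.one_le_rpow hn1 hρ.le
        linarith
      calc 4 * W * (2 * 2 ^ d * ((s : ℝ) + 2) ^ d)
          ≤ 4 * (19 * n ^ (δ - ρ + η)) * (2 * 2 ^ d * (4 * n ^ ρ) ^ d) := by gcongr
        _ = 4 * 19 * (2 * 2 ^ d * 4 ^ d) * n ^ (δ - ρ + η + (d : ℝ) * ρ) := by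
          rw [Real.rpow_add hnpos (δ - ρ + η) ((d : ℝ) * ρ), mul_comm (d : ℝ) ρ, Real.rpow_mul hnpos.le, Real.rpow_natCast]
          ring
        _ ≤ n := by rw [Real.rpow_one] at q4; exact q4.le)
  rw [hnQ, ← hW] at hforced
  set κ : ℝ := n / (8 * W) with hκ
  set L : ℝ := C * D ^ A with hL
  have hL0 : 0 ≤ L := by rw [hL]; positivity
  have hLn : L ≤ C * n ^ (δ * A) := by
    rw [hL, Real.rpow_mul hnpos.le]
    exact mul_le_mul_of_nonneg_left (Real.rpow_le_rpow hD0 hDn hA) hC.le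
  have hκge : n ^ (1 - (δ - ρ + η)) / 152 ≤ κ := by
    rw [Real.rpow_sub hnpos, Real.rpow_one, hκ, div_div]
    exact div_le_div_of_nonneg_left hnpos.le (by positivity) (by linarith)
  have hκ0 : 0 < κ := by positivity
  set M : ℝ := C3 * n ^ ((d : ℝ) * η + ((d : ℝ) - 1) * σ) * n with hM
  have hC3pos : 0 < C3 := by
    have := dualC_pos d
    rw [hC3]; positivity
  have hlev : ∀ t : ℝ, κ ≤ t → t ≤ n →
      (((richBis Q κ).filter fun v => t ≤ (rich Q v : ℝ)).card : ℝ) ≤ M / t := by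
    intro t hκt htn
    have ht0 : 0 < t := hκ0.trans_le hκt
    set εt : ℝ := max (n ^ (η - σ)) (t / n) with hεt
    have hεt0 : 0 < εt := lt_max_of_lt_left (Real.rpow_pos_of_pos hnpos _)
    have hεt1 : εt ≤ 1 := max_le (Real.rpow_le_one_of_one_le_of_nonpos hn1 (by linarith))
      ((div_le_one hnpos).2 htn)
    set st : ℕ := ⌈n ^ η / εt⌉₊ with hst
    have hprob : (((2 * Q.card + 2 * d + 1) ^ (2 * d) : ℕ) : ℝ) * (1 - εt) ^ st < 1 := by
      have hb : (((2 * Q.card + 2 * d + 1) ^ (2 * d) : ℕ) : ℝ)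
          ≤ (2 * (d : ℝ) + 3) ^ (2 * d) * n ^ (2 * d) := by
        rw [← mul_pow]
        push_cast
        rw [hnQ]
        refine pow_le_pow_left₀ (by positivity) ?_ _
        have := mul_le_mul_of_nonneg_left hn1 (by positivity : (0 : ℝ) ≤ 2 * d + 1)
        linarith
      have hy : n ^ η ≤ εt * st := by
        calc n ^ η = εt * (n ^ η / εt) := by field_simp
          _ ≤ _ := mul_le_mul_of_nonneg_left (Nat.le_ceil _) hεt0.le
      exact lt_of_le_of_lt (mul_le_mul hb (one_sub_pow_le_exp st hεt1 hy)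
        (pow_nonneg (by linarith) _) (by positivity)) q2d
    have hεn : n ^ (1 - σ + η) ≤ εt * n := by
      calc n ^ (1 - σ + η) = n ^ (η - σ) * n := by
            rw [← Real.rpow_add_one hnpos.ne']; ring_nf
        _ ≤ _ := mul_le_mul_of_nonneg_right (le_max_left _ _) hnpos.le
    have hLε : L ≤ εt * n := hLn.trans (q5.le.trans hεn)
    have htεn : t ≤ εt * n := (div_le_iff₀ hnpos).1 (le_max_right _ _)
    set G : ℝ := (dualC d : ℝ) + 1
    have hG : 0 < G := by positivity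
    have hcond : 2 * ((dualC d : ℝ) * εt * Q.card + L) * L < t ^ 2 := by
      rw [hnQ]
      have h1 : 2 * G * L < t := by
        have h0 : 152 * (2 * G) * L ≤ 152 * (2 * G) * (C * n ^ (δ * A)) :=
          mul_le_mul_of_nonneg_left hLn (by positivity)
        linarith
      have h2 : 2 * G * L * n ^ (1 - σ + η) < t ^ 2 := by
        have hx : (n ^ (1 - (δ - ρ + η)) / 152) ^ 2 ≤ t ^ 2 :=
          pow_le_pow_left₀ (by positivity) (hκge.trans hκt) 2
        refine lt_of_lt_of_le ?_ hx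
        rw [div_pow, lt_div_iff₀ (by norm_num), ← Real.rpow_natCast (n ^ (1 - (δ - ρ + η))),
          ← Real.rpow_mul hnpos.le]
        calc 2 * G * L * n ^ (1 - σ + η) * 152 ^ 2
            ≤ 2 * G * (C * n ^ (δ * A)) * n ^ (1 - σ + η) * 152 ^ 2 := by gcongr
          _ = 152 * 152 * (2 * G) * C * n ^ (δ * A + (1 - σ + η)) := by
              rw [Real.rpow_add hnpos (δ * A) (1 - σ + η)]; ring
          _ < _ := by
              rw [mul_comm (1 - (δ - ρ + η)) ((2 : ℕ) : ℝ)]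
              push_cast
              exact q7
      have h3 : 2 * G * L * (εt * n) < t ^ 2 := by
        rcases max_choice (n ^ (η - σ)) (t / n) with h | h <;> rw [hεt, h]
        · have e : n ^ (η - σ) * n = n ^ (1 - σ + η) := by
            rw [← Real.rpow_add_one hnpos.ne']; ring_nf
          rw [e]; exact h2
        · rw [div_mul_cancel₀ _ hnpos.ne', sq]
          exact mul_lt_mul_of_pos_right h1 ht0
      refine lt_of_le_of_lt ?_ h3
      have : (dualC d : ℝ) * εt * n + L ≤ G * (εt * n) := by simp only [G]; linarith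
      calc 2 * ((dualC d : ℝ) * εt * n + L) * L ≤ 2 * (G * (εt * n)) * L := by gcongr
        _ = _ := by ring
    have hlb := level_bound Q ((richBis Q κ).filter fun v => t ≤ (rich Q v : ℝ)) t L εt st ht0
      hεt0.le hL0 hprob (fun a ha => (Finset.mem_filter.1 ha).2)
      (fun a _ b _ hab => common_le hd hA hC.le hCB Q hab) hcond
    rw [hnQ] at hlb
    refine hlb.trans ?_
    have hs' : (st : ℝ) + 2 * d + 1 ≤ (2 * d + 3) * (n ^ η / εt) := by
      have h1 : (st : ℝ) < n ^ η / εt + 1 := Nat.ceil_lt_add_one (by positivity)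
      have h3 : (1 : ℝ) ≤ n ^ η / εt := by
        rw [one_le_div hεt0]; exact hεt1.trans (Real.one_le_rpow hn1 hη.le)
      have h4 := mul_le_mul_of_nonneg_left h3 (by positivity : (0 : ℝ) ≤ 2 * d + 1)
      linarith
    have hN' : 2 * ((dualC d : ℝ) * εt * n + L) / t + 1
        ≤ (2 * (dualC d : ℝ) + 3) * (εt * n / t) := by
      rw [div_add_one ht0.ne', mul_div_assoc', div_le_div_iff_of_pos_right ht0]
      linarith
    obtain ⟨k, rfl⟩ : ∃ k, d = k + 1 := ⟨d - 1, by omega⟩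
    calc (dualC (k + 1) : ℝ) * ((st : ℝ) + 2 * ((k + 1 : ℕ) : ℝ) + 1) ^ (k + 1)
          * (2 * ((dualC (k + 1) : ℝ) * εt * n + L) / t + 1)
        ≤ (dualC (k + 1) : ℝ) * ((2 * ((k + 1 : ℕ) : ℝ) + 3) * (n ^ η / εt)) ^ (k + 1)
          * ((2 * (dualC (k + 1) : ℝ) + 3) * (εt * n / t)) := by gcongr
      _ = C3 * ((n ^ η) ^ (k + 1) * (1 / εt) ^ k * n) / t := by
          rw [hC3, mul_pow, div_pow, one_div, inv_pow, pow_succ εt]
          field_simp
      _ ≤ M / t := by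
          rw [div_le_div_iff_of_pos_right ht0, hM, mul_assoc C3]
          refine mul_le_mul_of_nonneg_left (mul_le_mul_of_nonneg_right ?_ hnpos.le) hC3pos.le
          have h1 : 1 / εt ≤ n ^ σ := by
            rw [div_le_iff₀ hεt0]
            calc (1 : ℝ) ≤ n ^ σ * n ^ (η - σ) := by
                  rw [← Real.rpow_add hnpos]; exact Real.one_le_rpow hn1 (by linarith)
              _ ≤ _ := mul_le_mul_of_nonneg_left (le_max_left _ _) (by positivity)
          refine (mul_le_mul_of_nonneg_left (pow_le_pow_left₀ (by positivity) h1 k)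
            (by positivity)).trans_eq ?_
          rw [← Real.rpow_natCast, ← Real.rpow_natCast, ← Real.rpow_mul hnpos.le,
            ← Real.rpow_mul hnpos.le, ← Real.rpow_add hnpos]
          congr 1
          push_cast; ring
  have hI := sum_rich_le Q (richBis Q κ) κ M hκ0 (by positivity)
    (fun v hv => (Finset.mem_filter.1 hv).2) (by rw [hnQ]; exact hlev)
  rw [hnQ] at hI
  have hup : M * (2 + Real.log n)
      ≤ C3 * (2 + 1 / η) * n ^ ((d : ℝ) * η + ((d : ℝ) - 1) * σ + 1 + η) := by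
    have h1 : (1 : ℝ) ≤ n ^ η := Real.one_le_rpow hn1 hη.le
    have h2 : Real.log n ≤ n ^ η / η := Real.log_le_rpow_div hnpos.le hη
    have h3 : 2 + Real.log n ≤ (2 + 1 / η) * n ^ η := by
      rw [add_mul, div_mul_eq_mul_div, one_mul]; linarith
    calc M * (2 + Real.log n) ≤ M * ((2 + 1 / η) * n ^ η) :=
          mul_le_mul_of_nonneg_left h3 (by positivity)
      _ = _ := by
        rw [hM, Real.rpow_add hnpos _ η, Real.rpow_add hnpos _ 1, Real.rpow_one]; ring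
  have hlow : n ^ (1 + ρ - η) / 32 - 1 ≤ n / (32 * ε) - 1 := by
    refine sub_le_sub_right (le_of_eq ?_) 1
    rw [show 1 + ρ - η = 1 - (η - ρ) by ring, Real.rpow_sub hnpos, Real.rpow_one, ← hε, div_div,
      mul_comm]
  rw [Real.rpow_zero] at q8
  linarith

end Vale.Agent.P054
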